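import Vale.Agent.P287Q.D.St
import Vale.Agent.P287Q.Int.All

/-!
# Existence and integrality of the first Chern class of a continuous line bundle
-/

set_option linter.style.haveILetI false

namespace Vale.Agent.P287Q.D

open Set Function Topology Filter P291Z P269 P269.Tq P269.Holo P269.Mono P287Q.Zc

variable {X : Type} [TopologicalSpace X]

/-- A line bundle on a compact space is generated by finitely many continuous sections. -/
theorem Coc.exists_gen [T2Space X] [CompactSpace X] {φ : X → X → ℂ} (h : Coc φ) :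
    ∃ (N : ℕ) (w : X → Fin (N + 2) → ℂ), (∀ z, w z ≠ 0) ∧
      ∀ x, ∀ᶠ z in 𝓝 x, ContinuousAt (fun y => (φ x y)⁻¹ • w y) z := by
  classical
  have h0 : ∀ x, ∃ f : C(X, ℝ), f x = 1 ∧
      ∀ y ∈ tsupport f, ContinuousAt (fun z => φ x z / φ y z) y := fun x => by
    obtain ⟨f, f1, f2, -⟩ := exists_tsupport_one_of_isOpen_isClosed
      (isOpen_interior (s := {y | ContinuousAt (fun z => φ x z / φ y z) y}))
      isClosed_closure.isCompact isClosed_singleton
      (singleton_subset_iff.2 (mem_interior_iff_mem_nhds.2 (h.cont x)))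
    exact ⟨f, f2 rfl, fun y hy => interior_subset (f1 hy)⟩
  choose f f1 f2 using h0
  obtain ⟨T, hT⟩ := isCompact_univ.elim_finite_subcover (fun x => {z | f x z ≠ 0})
    (fun x => isOpen_ne_fun (f x).continuous continuous_const)
    fun z _ => mem_iUnion.2 ⟨z, (f1 z).trans_ne one_ne_zero⟩
  let e := T.equivFin
  have k : ∀ t x, ∀ᶠ z in 𝓝 x, ContinuousAt (fun y => (φ x y)⁻¹ * (f t y * φ t y)) z := by
    intro t x
    filter_upwards [h.cont x] with z hz
    by_cases a : z ∈ tsupport (f t)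
    · refine ((Complex.continuous_ofReal.comp (f t).continuous).continuousAt.mul
        ((f2 t z a).div hz (div_ne_zero (h.ne _ _) (h.ne _ _)))).congr (.of_forall fun y => ?_)
      have := h.ne x y
      have := h.ne z y
      simp only [Pi.mul_apply, comp_apply, Pi.div_apply]
      field_simp
    · refine (continuousAt_const (y := (0 : ℂ))).congr
        ((notMem_tsupport_iff_eventuallyEq.1 a).mono fun y hy => ?_)
      simp [hy]
  refine ⟨T.card, fun z i => if a : i.1 < T.card then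
    f (e.symm ⟨i, a⟩) z * φ (e.symm ⟨i, a⟩) z else 0, fun z a => ?_, fun x => ?_⟩
  · obtain ⟨t, ht, b⟩ := mem_iUnion₂.1 (hT (mem_univ z))
    have c := congrFun a ⟨e ⟨t, ht⟩, by omega⟩
    simp only [Fin.is_lt, dite_true, Fin.eta, Equiv.symm_apply_apply] at c
    exact mul_ne_zero (Complex.ofReal_ne_zero.2 b) (h.ne _ _) c
  · filter_upwards [(eventually_all (ι := T)).2 fun t => k t x] with z hz
    refine continuousAt_pi.2 fun i => ?_
    by_cases a : i.1 < T.card
    · simpa only [Pi.smul_apply, a, dite_true, smul_eq_mul] using hz (e.symm ⟨i, a⟩)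
    · simpa only [Pi.smul_apply, a, dite_false, smul_zero] using continuousAt_const

/-- **Existence and integrality of the first Chern class.** -/
theorem stC1Ex : StC1Ex := by
  intro X _ _ _ φ h
  obtain ⟨N, w, w0, w1⟩ := h.exists_gen
  haveI := PJ.isAct (E := Fin (N + 2) → ℂ)
  haveI := PJ.fp (E := Fin (N + 2) → ℂ)
  let v : X → X → Sp (PJ.sm (Fin (N + 2) → ℂ)) {0}ᶜ := fun x z =>
    Sp.of _ ((φ x z)⁻¹ • w z) (smul_ne_zero (inv_ne_zero (h.ne x z)) (w0 z))
  have v1 : ∀ x, ∀ᶠ z in 𝓝 x, ContinuousAt (v x) z := fun x =>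
    (w1 x).mono fun z a => IsInducing.subtypeVal.continuousAt_iff.2 a
  have v2 : ∀ x z, Units.mk0 _ (inv_ne_zero (h.ne x z)) • v z z = v x z := fun x z =>
    Sp.ext (by
      change (φ x z)⁻¹ • (φ z z)⁻¹ • w z = (φ x z)⁻¹ • w z
      rw [h.self, inv_one, one_smul])
  let u : C(X, Quo (PJ.sm (Fin (N + 2) → ℂ)) {0}ᶜ) := ⟨fun z => (v z z).mk,
    continuous_iff_continuousAt.2 fun x =>
      (Sp.isOpenQuotientMap_mk.continuous.continuousAt.comp (v1 x).self_of_nhds).congr
        (.of_forall fun z => (Sp.mk_eq_iff.2 ⟨_, v2 x z⟩).symm)⟩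
  refine ⟨H.map u (lcq _ _ fun a => a), ⟨Lam.map u
    (PJ.lcq_mem_Lam (n := N) stOri stInt stUni (by simp)), (lcq_deg Hm.id).map u⟩,
    sp (PJ.sm _) {0}ᶜ, Hm.id.ρ, v, u, fun g t => FP.free t g, v1, fun _ => rfl,
    fun x z => ⟨_, v2 x z, rfl⟩, congrArg _ (lce_val Hm.id).symm⟩

end Vale.Agent.P287Q.D
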