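import Vale.Agent.P287Q.D.St
import Vale.Agent.P269.Ch.Chern

/-!
# Additivity and invariance of the first Chern class of a line bundle given by frames
-/

namespace Vale.Agent.P287Q.D

open Set Function Topology Filter P291Z P269 P269.Ch

namespace C1M

section fp

variable (Z Y : Ch.Sp) (w : C(Z.X, Y.X))

/-- The fibre product upstairs. -/
def FT : Type := {p : Z.T × Y.T // w (Z.π p.1) = Y.π p.2}

instance : TopologicalSpace (FT Z Y w) := inferInstanceAs (TopologicalSpace {_p : Z.T × Y.T // _})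

instance : Nice (FT Z Y w) :=
  Nice.of_isLocallyClosed (S := {p : Z.T × Y.T | w (Z.π p.1) = Y.π p.2})
    (isClosed_eq (w.continuous.comp (Z.cont.comp continuous_fst))
      (Y.cont.comp continuous_snd)).isLocallyClosed

instance : MulAction (Z.G × Y.G) (FT Z Y w) where
  smul g p := ⟨(g.1 • p.1.1, g.2 • p.1.2), by rw [Z.π_smul, Y.π_smul]; exact p.2⟩
  one_smul p := Subtype.ext (Prod.ext (one_smul _ _) (one_smul _ _))
  mul_smul _ _ p := Subtype.ext (Prod.ext (mul_smul _ _ _) (mul_smul _ _ _))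

theorem cont1 : Continuous fun p : FT Z Y w => p.1.1 := continuous_fst.comp continuous_subtype_val

theorem cont2 : Continuous fun p : FT Z Y w => p.1.2 := continuous_snd.comp continuous_subtype_val

instance : ContinuousSMul (Z.G × Y.G) (FT Z Y w) :=
  ⟨((continuous_fst.fst.smul ((cont1 Z Y w).comp continuous_snd)).prodMk
    (continuous_fst.snd.smul ((cont2 Z Y w).comp continuous_snd))).subtype_mk _⟩

theorem lim {G G' T T' : Type} [Group G] [TopologicalSpace G] [TopologicalSpace T] [MulAction G T]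
    [ProperSMul G T] [SMul G' T'] [TopologicalSpace T'] (ρ : G' → G) {f : T' → T}
    (hf : Continuous f) (he : ∀ (g : G') t, f (g • t) = ρ g • f t) (𝒰 : Ultrafilter (G' × T'))
    {x₁ x₂ : T'} (h : Tendsto (fun p : G' × T' => (p.1 • p.2, p.2)) 𝒰 (𝓝 (x₁, x₂))) :
    ∃ g : G, Tendsto (fun p : G' × T' => ρ p.1) 𝒰 (𝓝 g) := by
  obtain ⟨g, -, hg⟩ := (properSMul_iff_continuousSMul_ultrafilter_tendsto.1
    (inferInstance : ProperSMul G T)).2 (𝒰.map (Prod.map ρ f)) (f x₁) (f x₂) (by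
      have := ((hf.prodMap hf).tendsto (x₁, x₂)).comp h
      rw [Ultrafilter.coe_map, tendsto_map'_iff]
      refine Tendsto.congr (fun y => ?_) this
      simp [he])
  exact ⟨g, hg⟩

instance : ProperSMul (Z.G × Y.G) (FT Z Y w) := by
  refine properSMul_iff_continuousSMul_ultrafilter_tendsto_t2.2 ⟨inferInstance, fun 𝒰 x₁ x₂ h => ?_⟩
  obtain ⟨g, hg⟩ := lim (G := Z.G) Prod.fst (cont1 Z Y w) (fun _ _ => rfl) 𝒰 h
  obtain ⟨g', hg'⟩ := lim (G := Y.G) Prod.snd (cont2 Z Y w) (fun _ _ => rfl) 𝒰 h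
  exact ⟨(g, g'), hg.prodMk_nhds hg'⟩

theorem free (p : FT Z Y w) : LocFree (Z.G × Y.G) p := by
  obtain ⟨τ, h1, h2⟩ := Z.free p.1.1
  obtain ⟨τ', h1', h2'⟩ := Y.free p.1.2
  refine ⟨fun q => (τ q.1.1, τ' q.1.2), ?_, ?_⟩
  · filter_upwards [(cont1 Z Y w).continuousAt.eventually h1,
      (cont2 Z Y w).continuousAt.eventually h1'] with q a b
    exact (ContinuousAt.comp (f := fun p : FT Z Y w => p.1.1) a (cont1 Z Y w).continuousAt).prodMk
      (ContinuousAt.comp (f := fun p : FT Z Y w => p.1.2) b (cont2 Z Y w).continuousAt)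
  · filter_upwards [((continuous_fst.prodMap (cont1 Z Y w)).tendsto (1, p)).eventually h2,
      ((continuous_snd.prodMap (cont2 Z Y w)).tendsto (1, p)).eventually h2'] with q a b
    exact Prod.ext a b

theorem open1 : IsOpenMap fun p : FT Z Y w => p.1.1 := by
  refine isOpenMap_iff_nhds_le.2 fun p U hU => ?_
  obtain ⟨V, hV, h1⟩ := (mem_nhds_subtype _ _ _).1 (mem_map.1 hU)
  obtain ⟨A, hA, B, hB, h2⟩ := mem_nhds_prod_iff.1 hV
  have h3 : Y.π '' B ∈ 𝓝 (w (Z.π p.1.1)) := p.2 ▸ Y.quo.isOpenMap.image_mem_nhds hB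
  filter_upwards [hA, (w.continuous.comp Z.cont).continuousAt.preimage_mem_nhds h3] with z a b
  obtain ⟨t, c, d⟩ := b
  exact h1 (a := ⟨(z, t), d.symm⟩) (h2 ⟨a, c⟩)

/-- The fibre product of two presentations. -/
def fp : Ch.Sp where
  G := Z.G × Y.G
  T := FT Z Y w
  X := Z.X
  free := free Z Y w
  π p := Z.π p.1.1
  quo := ⟨fun x => let ⟨z, hz⟩ := Z.surj x
      ⟨⟨(z, Y.out (w (Z.π z))), (Y.π_out _).symm⟩, hz⟩, Z.cont.comp (cont1 Z Y w),
    Z.quo.isOpenMap.comp (open1 Z Y w)⟩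
  fib p q := ⟨fun h => by
      obtain ⟨g, hg⟩ := (Z.fib _ _).1 h
      obtain ⟨g', hg'⟩ := (Y.fib _ _).1 (p.2.symm.trans ((congrArg w h).trans q.2))
      exact ⟨(g, g'), Subtype.ext (Prod.ext hg hg')⟩,
    by rintro ⟨g, rfl⟩; exact (Z.π_smul _ _).symm⟩

/-- The first projection. -/
def p1 : Mor (fp Z Y w) Z :=
  ⟨MonoidHom.fst _ _, fun p : FT Z Y w => p.1.1, continuous_fst, cont1 Z Y w, fun _ _ => rfl⟩

/-- The second projection. -/
def p2 : Mor (fp Z Y w) Y :=
  ⟨MonoidHom.snd _ _, fun p : FT Z Y w => p.1.2, continuous_snd, cont2 Z Y w, fun _ _ => rfl⟩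

theorem p1_map (x : Z.X) : (p1 Z Y w).map x = x := (fp Z Y w).π_out x

theorem p2_map : (p2 Z Y w).map = w.comp (p1 Z Y w).map :=
  ContinuousMap.ext fun x => by
    obtain ⟨t, rfl⟩ := (fp Z Y w).surj x
    rw [ContinuousMap.comp_apply, Mor.map_π, Mor.map_π]
    exact t.2.symm

end fp

/-- Division is continuous for free proper actions. -/
theorem div_cont {Y : Ch.Sp} (h : ∀ (g : Y.G) (t : Y.T), g • t = t → g = 1) {W : Type}
    [TopologicalSpace W] {D : W → Y.G} {b : W → Y.T} {x : W} (hb : ContinuousAt b x)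
    (hD : ContinuousAt (fun y => D y • b y) x) : ContinuousAt D x := by
  have h1 := ProperSMul.isProperMap_smul_pair (G := Y.G) (X := Y.T)
  have h2 : IsClosedEmbedding fun p : Y.G × Y.T => (p.1 • p.2, p.2) :=
    .of_continuous_injective_isClosedMap h1.continuous (fun p q e => by
      obtain ⟨e1, e2⟩ := Prod.mk.inj e
      refine Prod.ext (inv_mul_eq_one.1 (h _ p.2 ?_)).symm e2
      rw [mul_smul, e1, inv_smul_smul, e2]) h1.isClosedMap
  exact ((h2.isInducing.continuousAt_iff (f := fun y => (D y, b y))).2 (hD.prodMk hb)).fst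

variable {X : Type} [TopologicalSpace X]

/-- The pull-back of `c` along `a` is the class of a character, and the function `F` identifies
the line bundles. -/
def Rep (Z : Ch.Sp) (a : C(Z.X, X)) (φ : X → X → ℂ) (c : H X) : Prop :=
  ∃ (χ : Z.G →ₜ* ℂˣ) (F : Z.T → ℂ), H.map a c = (c1 χ).1 ∧ (∀ t, F t ≠ 0) ∧
    (∀ g t, F (g • t) = χ g * F t) ∧
    ∀ t, ContinuousAt (fun t' => F t' * φ (a (Z.π t)) (a (Z.π t'))) t

theorem Rep.pull {Z Z' : Ch.Sp} {a : C(Z.X, X)} {φ : X → X → ℂ} {c : H X} (h : Rep Z a φ c)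
    (m : Mor Z' Z) : Rep Z' (a.comp m.map) φ c := by
  obtain ⟨χ, F, h1, h2, h3, h4⟩ := h
  refine ⟨m.chr χ, fun t => F (m.f t), ?_, fun t => h2 _, fun g t => (congrArg F (m.eqv g t)).trans (h3 _ _),
    fun t => ?_⟩
  · rw [← H.map_map, h1, ← map_c1]
    rfl
  · simp only [ContinuousMap.comp_apply, Mor.map_π]
    exact ContinuousAt.comp (f := m.f) (h4 (m.f t)) m.cf.continuousAt

theorem exists_rep {φ : X → X → ℂ} {c : H X} (h : IsC1 φ c) (Z : Ch.Sp) (a : C(Z.X, X)) :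
    ∃ (Z' : Ch.Sp) (m : Mor Z' Z), Injective (H.map m.map) ∧ Rep Z' (a.comp m.map) φ c := by
  obtain ⟨Y, χ, v, u, h0, h1, h2, h3, rfl⟩ := h
  let w : C(Z.X, Y.X) := u.comp a
  let x : FT Z Y w → X := fun p => a (Z.π p.1.1)
  have hx : Continuous x := a.continuous.comp (Z.cont.comp (cont1 Z Y w))
  have uq : ∀ (g g' : Y.G) (t : Y.T), g • t = g' • t → g = g' := fun g g' t e =>
    (inv_mul_eq_one.1 (h0 _ t (by rw [mul_smul, e, inv_smul_smul]))).symm
  have ex : ∀ (y : X) (p : FT Z Y w), ∃ g : Y.G, g • v y (x p) = p.1.2 := fun y p => by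
    obtain ⟨g, hg, -⟩ := h3 y (x p)
    refine (Y.fib _ _).1 ?_
    rw [← hg, Y.π_smul, h2]
    exact p.2
  choose D hD using ex
  refine ⟨fp Z Y w, p1 Z Y w, fun c c' e => ?_, (p2 Z Y w).chr χ,
    fun p : FT Z Y w => χ (D (x p) p), ?_, fun _ => Units.ne_zero _,
    fun (g : Z.G × Y.G) (p : FT Z Y w) => ?_, fun p : FT Z Y w => ?_⟩
  · exact (H.map_id (p1_map Z Y w) c).symm.trans (e.trans (H.map_id (p1_map Z Y w) c'))
  · rw [← map_c1, p2_map, H.map_map]
    rfl
  · have e1 : x (g • p) = x p := congrArg a (Z.π_smul g.1 p.1.1)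
    have e2 : D (x (g • p)) (g • p) = g.2 * D (x p) p := by
      refine uq _ _ (v (x p) (x p)) ?_
      have := hD (x (g • p)) (g • p)
      rw [mul_smul, hD (x p) p]
      rw [e1] at this ⊢
      exact this
    show (χ (D (x (g • p)) (g • p)) : ℂ) = χ g.2 * χ (D (x p) p)
    rw [e2, map_mul, Units.val_mul]
  · have c1 : ContinuousAt (D (x p)) p :=
      div_cont h0 (b := fun q => v (x p) (x q))
        (ContinuousAt.comp (f := x) (h1 (x p)).self_of_nhds hx.continuousAt)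
        (by simp only [hD]; exact (cont2 Z Y w).continuousAt)
    have c2 : ContinuousAt (fun q => (χ (D (x p) q) : ℂ)) p :=
      (Units.continuous_val.comp χ.continuous).continuousAt.comp c1
    have e0 : ∀ q : FT Z Y w, a.comp (p1 Z Y w).map ((fp Z Y w).π q) = x q :=
      fun q => congrArg a (p1_map Z Y w _)
    refine c2.congr (.of_forall fun q : FT Z Y w => ?_)
    obtain ⟨g, hg, e⟩ := h3 (x p) (x q)
    have e1 : D (x q) q = D (x p) q * g := uq _ _ (v (x q) (x q)) (by rw [mul_smul, hg, hD, hD])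
    have e2 : φ (x p) (x q) ≠ 0 := fun z => Units.ne_zero (χ g) (by rw [e, z, inv_zero])
    show (χ (D (x p) q) : ℂ) = χ (D (x q) q) * φ (a.comp (p1 Z Y w).map ((fp Z Y w).π p))
      (a.comp (p1 Z Y w).map ((fp Z Y w).π q))
    rw [e0, e0, e1, map_mul, Units.val_mul, e, mul_assoc, inv_mul_cancel₀ e2, mul_one]

theorem rep_add {Z : Ch.Sp} {a : C(Z.X, X)} {φ φ' φ'' : X → X → ℂ} {c c' c'' : H X} {s : X → ℂ}
    (h : Rep Z a φ c) (h' : Rep Z a φ' c') (h'' : Rep Z a φ'' c'') (n : ∀ x y, φ x y ≠ 0)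
    (n' : ∀ x y, φ' x y ≠ 0) (n'' : ∀ x y, φ'' x y ≠ 0) (hs : ∀ x, s x ≠ 0)
    (hc : ∀ x, ContinuousAt (fun y => s y * φ x y * φ' x y / φ'' x y) x) :
    H.map a c'' = H.map a (c + c') := by
  obtain ⟨χ, F, h1, h2, h3, h4⟩ := h
  obtain ⟨χ', F', h1', h2', h3', h4'⟩ := h'
  obtain ⟨χ'', F'', h1'', h2'', h3'', h4''⟩ := h''
  have k : c1 (χ'' / (χ * χ')) = 0 := by
    refine VB.IsSec.eu_eq_zero (E := char (χ'' / (χ * χ')))
      (s := fun t => (s (a (Z.π t)) * F'' t / (F t * F' t) : ℂ))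
      ⟨fun _ => trivial, continuous_iff_continuousAt.2 fun t => ?_, fun g t => ?_⟩
      fun t => div_ne_zero (mul_ne_zero (hs _) (h2'' t)) (mul_ne_zero (h2 t) (h2' t))
    · have c0 := ContinuousAt.comp (f := fun t' => a (Z.π t')) (hc (a (Z.π t)))
        (a.continuous.comp Z.cont).continuousAt
      refine ((c0.mul (h4'' t)).div ((h4 t).mul (h4' t))
        (mul_ne_zero (mul_ne_zero (h2 t) (n _ _)) (mul_ne_zero (h2' t) (n' _ _)))).congr
        (.of_forall fun t' => ?_)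
      have e1 := n (a (Z.π t)) (a (Z.π t'))
      have e2 := n' (a (Z.π t)) (a (Z.π t'))
      have e3 := n'' (a (Z.π t)) (a (Z.π t'))
      have e4 := h2 t'
      have e5 := h2' t'
      simp only [Pi.div_apply, Pi.mul_apply, comp_apply]
      field_simp
    · show s (a (Z.π (g • t))) * F'' (g • t) / (F (g • t) * F' (g • t)) =
        ((χ'' g / (χ g * χ' g) : ℂˣ) : ℂ) * (s (a (Z.π t)) * F'' t / (F t * F' t))
      rw [Z.π_smul, h3, h3', h3'', Units.val_div_eq_div_val, Units.val_mul]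
      have e1 := Units.ne_zero (χ g)
      have e2 := Units.ne_zero (χ' g)
      have e4 := h2 t
      have e5 := h2' t
      field_simp
  rw [c1_div, c1_mul, sub_eq_zero] at k
  rw [map_add, h1, h1', h1'', k]
  rfl

end C1M

theorem IsC1.ne {X : Type} [TopologicalSpace X] {φ : X → X → ℂ} {c : H X} (h : IsC1 φ c)
    (x y : X) : φ x y ≠ 0 := by
  obtain ⟨Y, χ, v, u, -, -, -, h3, -⟩ := h
  obtain ⟨g, -, e⟩ := h3 x y
  exact fun z => Units.ne_zero (χ g) (by rw [e, z, inv_zero])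

/-- **Additivity and invariance of the first Chern class.** -/
theorem stC1Mul : StC1Mul := by
  intro X _ _ φ φ' φ'' c c' c'' s h h' h'' hs hc
  obtain ⟨Z₁, m₁, i₁, r₁⟩ := C1M.exists_rep h (Ch.Sp.triv X) (ContinuousMap.id X)
  obtain ⟨Z₂, m₂, i₂, r₂⟩ := C1M.exists_rep h' Z₁ _
  obtain ⟨Z₃, m₃, i₃, r₃⟩ := C1M.exists_rep h'' Z₂ _
  have k := C1M.rep_add ((r₁.pull m₂).pull m₃) (r₂.pull m₃) r₃ h.ne h'.ne h''.ne hs hc
  rw [← H.map_map, ← H.map_map, ← H.map_map, ← H.map_map] at k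
  exact i₁ (i₂ (i₃ k))

/-- The trivial bundle. -/
theorem isC1_one (X : Type) [TopologicalSpace X] [Nice X] : IsC1 (fun _ _ : X => (1 : ℂ)) 0 :=
  ⟨Ch.Sp.triv X, 1, fun _ z => z, ContinuousMap.id X, fun _ _ _ => rfl,
    fun _ => .of_forall fun _ => continuousAt_id, fun _ => rfl,
    fun _ _ => ⟨1, rfl, inv_one.symm⟩, by rw [c1_one]; exact (map_zero _).symm⟩

/-- Isomorphic line bundles have the same class. -/
theorem IsC1.congr {X : Type} [TopologicalSpace X] [Nice X] {φ φ' : X → X → ℂ} {c c' : H X}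
    (h : IsC1 φ c) (h' : IsC1 φ' c') {s : X → ℂ} (hs : ∀ x, s x ≠ 0)
    (hc : ∀ x, ContinuousAt (fun y => s y * φ x y / φ' x y) x) : c' = c :=
  (stC1Mul X φ _ φ' c 0 c' s h (isC1_one X) h' hs fun x => by
    simpa only [mul_one] using hc x).trans (add_zero c)

/-- The class is unique. -/
theorem IsC1.unique {X : Type} [TopologicalSpace X] [Nice X] {φ : X → X → ℂ} {c c' : H X}
    (h : IsC1 φ c) (h' : IsC1 φ c') : c = c' :=
  h'.congr h (s := fun _ => 1) (fun _ => one_ne_zero) fun x =>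
    continuousAt_const.congr (.of_forall fun y => by
      show (1 : ℂ) = 1 * φ x y / φ x y
      rw [one_mul, div_self (h.ne x y)])

/-- The class of a product. -/
theorem IsC1.mul_eq {X : Type} [TopologicalSpace X] [Nice X] {φ φ' : X → X → ℂ} {c c' c'' : H X}
    (h : IsC1 φ c) (h' : IsC1 φ' c') (h'' : IsC1 (fun x y => φ x y * φ' x y) c'') :
    c'' = c + c' :=
  stC1Mul X φ φ' _ c c' c'' (fun _ => 1) h h' h'' (fun _ => one_ne_zero) fun x =>
    continuousAt_const.congr (.of_forall fun y => by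
      show (1 : ℂ) = 1 * φ x y * φ' x y / (φ x y * φ' x y)
      rw [one_mul, div_self (mul_ne_zero (h.ne x y) (h'.ne x y))])

/-- A bundle with a nowhere vanishing section has the class zero. -/
theorem IsC1.eq_zero {X : Type} [TopologicalSpace X] [Nice X] {φ : X → X → ℂ} {c : H X}
    (h : IsC1 φ c) {s : X → ℂ} (hs : ∀ x, s x ≠ 0)
    (hc : ∀ x, ContinuousAt (fun y => s y / φ x y) x) : c = 0 :=
  (isC1_one X).congr h hs fun x => by simpa only [mul_one] using hc x

end Vale.Agent.P287Q.D
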