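import Vale.Agent.P287Q.D.St
import Vale.Agent.P269.Orb.TZ
import Vale.Agent.P269.Orb.Deg
import Vale.Agent.P269.Loc.Lam
import Vale.Agent.P269.Cv.RR

/-!
# The degree of a line bundle on a curve is the integral of its first Chern class
-/

set_option linter.unusedSectionVars false

namespace Vale.Agent.P287Q.D

open Set Function Topology Filter P291Z P269 P269.Cv

namespace C1Deg

variable {X : Type} [TopologicalSpace X] [T2Space X] [CompactSpace X] {R : RS X} {L : Cv.LB R}
  {β : BM X}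

theorem nice (R : RS X) : Nice X :=
  letI := R.cs
  ⟨inferInstance, inferInstance, ChartedSpace.secondCountable_of_sigmaCompact ℂ X⟩

theorem coc (L : Cv.LB R) : Coc L.φ :=
  ⟨L.self, L.ne, fun x => (L.hol x).mono fun _ h => h.continuousAt⟩

theorem ev_sum (hβ : ∀ x, Orb.Val β (fun z : Fin 1 → ℂ => R.i x (z 0)) 1) {a : Coch X}
    (ha : supp (δ a) = ∅) {s : Finset X} (hs : supp a ⊆ s) {c : X → ℂ}
    (h : ∀ x ∈ s, Orb.LocCo (pull (fun z : Fin 1 → ℂ => R.i x (z 0)) a) (c x)) :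
    ev β a = ∑ x ∈ s, c x := Orb.ev_finite _ c s ha hs fun y hy a' h1 h2 h3 => by
  rw [← one_mul (ev _ a')]
  refine hβ y a' _ h1 (h2.trans (singleton_subset_iff.2 (R.i_zero y).symm))
    ((h y hy).of_van (ContinuousAt.comp (g := R.i y) (R.contAt_i (R.zero_mem y))
      (continuous_apply 0).continuousAt) ?_)
  rw [show (R.i y ∘ fun z : Fin 1 → ℂ => z 0) 0 = y from R.i_zero y, ← neg_sub]
  exact (Van y).neg_mem h3

theorem eff (hβ : ∀ x, Orb.Val β (fun z : Fin 1 → ℂ => R.i x (z 0)) 1) {c : H X}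
    (hc : IsC1 L.φ c) (hL : Eff L) : Loc.intg β c = deg L := by
  obtain ⟨Y, χ, v, u, -, hv, hu, hg, rfl⟩ := hc
  obtain ⟨s, hs, hG⟩ := hL
  let E := Ch.char χ
  let φ : X → X → E.V := fun x z => ⟨(v x z, s z / L.φ x z), trivial⟩
  have h1 : ∀ x z, E.tot.π (φ z z) = E.tot.π (φ x z) := fun x z => by
    obtain ⟨g, a, b⟩ := hg x z
    refine (E.tot.fib _ _).2 ⟨g, Subtype.ext (Prod.ext a ?_)⟩
    show (χ g : ℂ) * (s z / L.φ z z) = s z / L.φ x z
    rw [b, L.self, div_one, div_eq_inv_mul]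
  have h2 : ∀ x, ∀ᶠ z in 𝓝 x, ContinuousAt (φ x) z := fun x =>
    ((hv x).and (LB.sec_iff.1 (hs x)).eventually).mono fun z a =>
      IsInducing.subtypeVal.continuousAt_iff.2 (a.1.prodMk a.2.continuousAt)
  let σ : C(X, E.tot.X) := ⟨fun z => E.tot.π (φ z z), continuous_iff_continuousAt.2 fun x => by
    rw [funext (h1 x)]
    exact E.tot.cont.continuousAt.comp (h2 x).self_of_nhds⟩
  have h3 : E.proj.map.comp σ = u := ContinuousMap.ext fun z => (E.proj.map_π _).trans (hu z)
  have h4 := cocycle_pull σ.continuous E.th_cocycle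
  have h5 : H.map u (Ch.c1 χ).1 = hcls (pull σ E.th) := by
    rw [← H.map_hcls σ E.th_cocycle, ← E.map_proj_zero (hcls E.th), H.map_map σ, h3]
    rfl
  have hZ : ∀ y, y ∈ (LB.finite_zeros hs hG).toFinset ↔ s y = 0 := fun y => Finite.mem_toFinset _
  rw [h5, Loc.intg_hcls _ h4, deg_eq_sum hs hG fun y hy e => hy ((hZ y).2 e),
    ev_sum hβ h4 (s := (LB.finite_zeros hs hG).toFinset) (c := fun x => (L.ord s x).toNat)
      (fun z hz => ?_) fun x hx => ?_]
  · push_cast
    rfl
  · have := Ch.VB.mk_mem_Z.1 (E.th_supp (supp_pull σ.continuous _ hz))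
    exact (hZ z).2 ((div_eq_zero_iff.1 this).resolve_right (L.ne z z))
  · have ht : Tendsto (fun z : Fin 1 → ℂ => z 0) (𝓝 0) (𝓝 0) :=
      (continuous_apply 0).tendsto' _ _ rfl
    rw [pull_pull, show σ ∘ (fun z : Fin 1 → ℂ => R.i x (z 0)) =
      E.tot.π ∘ fun z => φ x (R.i x (z 0)) from funext fun z => h1 x _]
    refine Orb.locCo_thom (r := 1) rfl E.isThom
      (m := fun _ => ContinuousLinearMap.pi fun _ => ContinuousLinearMap.id ℂ ℂ) ?_
      (fun w _ h => congrFun h 0) ?_ ?_ (Orb.locCo_analytic (hs x) (ENat.natCast_toNat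
        ((hs x).ord_ne_top.2 (hG ▸ mem_univ x))).symm)
    · exact (ht.eventually ((R.ev_iff.1 (h2 x)).and (R.tgt_nhds x))).mono fun z a =>
        ⟨ContinuousAt.comp (g := φ x) a.1 (ContinuousAt.comp (g := R.i x) (R.contAt_i a.2)
          (continuous_apply 0).continuousAt), continuousAt_const⟩
    · exact LB.loc_zero.trans ((hZ x).1 hx)
    · have := R.ev_ne_iff.1 (mem_gen.1 (hG ▸ mem_univ x : x ∈ Gen s))
      refine (ht.eventually (eventually_nhdsWithin_iff.1 this)).mono fun z a b => by_contra fun c =>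
        a (fun e => c (funext fun i => by rwa [Subsingleton.elim i 0]))
          ((div_eq_zero_iff.1 b).resolve_right (L.ne _ _))

end C1Deg

/-- **The degree is the integral of the first Chern class.** -/
theorem stC1Deg (hE : StC1Ex) (hM : StC1Mul) : StC1Deg := fun C _ _ _ R β hβ L c hc => by
  have := C1Deg.nice R
  obtain ⟨E, a, b⟩ := exists_eff L
  obtain ⟨c', -, h'⟩ := hE C _ (C1Deg.coc E)
  obtain ⟨c'', -, h''⟩ := hE C _ (C1Deg.coc (L * E))
  have e := C1Deg.eff hβ h'' b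
  rw [hM C _ _ _ c c' c'' 1 hc h' h'' (fun _ => one_ne_zero) fun x => continuousAt_const.congr
    (f := fun _ => (1 : ℂ)) (.of_forall fun y => by
      simp [L.ne x y, E.ne x y]), map_add, C1Deg.eff hβ h' a, deg_mul, Int.cast_add] at e
  exact add_right_cancel e

end Vale.Agent.P287Q.D
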