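import Vale.Agent.P269.Cv.Rat
import Vale.Agent.P269.Cv.Emb

/-!
# Curves whose canonical bundle is very ample
-/

set_option linter.unusedSectionVars false

namespace Vale.Agent.P287Q.D

open Set Function Topology Filter Module P269.Cv

variable {C : Type} [TopologicalSpace C] {R : RS C} {L L' M : LB R} {s u : C → ℂ}

variable (L) in
/-- The sections separate points and tangent vectors. -/
structure VA : Prop where
  sep : ∀ x y, x ≠ y → ∃ s ∈ L.Γ, s x = 0 ∧ s y ≠ 0
  imm : ∀ x, ∃ s ∈ L.Γ, L.ord s x = 1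

theorem VA.bpf (h : VA L) (x : C) : ∃ s ∈ L.Γ, s x ≠ 0 :=
  have := R.neBot x
  let ⟨y, hy⟩ := (eventually_mem_nhdsWithin (a := x) (s := {x}ᶜ)).exists
  let ⟨s, a, _, b⟩ := h.sep y x hy
  ⟨s, a, b⟩

theorem VA.iso (h : VA L) (a : u ∈ (L' / L).Γ) (h0 : ∀ x, u x ≠ 0) : VA L' := by
  have m : ∀ s ∈ L.Γ, s * u ∈ L'.Γ := fun s b => by simpa using LB.mul_mem b a
  refine ⟨fun x y e => ?_, fun x => ?_⟩
  · obtain ⟨s, b, c, d⟩ := h.sep x y e
    exact ⟨_, m s b, mul_eq_zero_of_left c _, mul_ne_zero d (h0 y)⟩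
  · obtain ⟨s, b, c⟩ := h.imm x
    have := LB.ord_mul (b x) (a x)
    rw [c, (LB.ord_eq_zero (a x)).2 (h0 x), add_zero, mul_div_cancel] at this
    exact ⟨_, m s b, this⟩

theorem VA.pb {C' : Type} [TopologicalSpace C'] {R' : RS C'} {f : C' → C} (h : VA L)
    (k : LIso R' R f) (hf : Injective f) : VA (k.pb L) :=
  ⟨fun x y e => let ⟨_, b, c⟩ := h.sep (f x) (f y) (hf.ne e); ⟨_, k.pb_mem b, c⟩,
    fun x => let ⟨_, b, c⟩ := h.imm (f x); ⟨_, k.pb_mem b, k.ord_pb.trans c⟩⟩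

variable [T2Space C] [CompactSpace C]

theorem finrank_map_mul (g : Gen s = univ) (L : LB R) :
    finrank ℂ (L.Γ.map (LinearMap.mulRight ℂ s)) = finrank ℂ L.Γ := by
  refine (LinearEquiv.finrank_eq (LinearEquiv.ofInjective
    ((LinearMap.mulRight ℂ s).domRestrict L.Γ) ?_)).symm ▸ by rw [LinearMap.range_domRestrict]
  refine (injective_iff_map_eq_zero _).2 fun t e => Subtype.ext (funext fun x => ?_)
  refine eq_zero_of_gen t.2 fun b => ?_
  have := R.neBot x
  obtain ⟨y, c, d⟩ := ((mem_gen.1 b).and (mem_gen.1 (g ▸ mem_univ x : x ∈ Gen s))).exists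
  exact mul_ne_zero c d (congrFun e y)

section conn

variable [ConnectedSpace C]

/-- **No pencil of degree at most two.** -/
theorem VA.h0_le (h : VA R.K) (hM : deg M ≤ 2) : finrank ℂ M.Γ ≤ 1 := by
  classical
  by_contra! hn
  obtain ⟨p⟩ : Nonempty C := inferInstance
  let ev : C → (C → ℂ) →ₗ[ℂ] ℂ := fun x => LinearMap.proj x
  obtain ⟨⟨s, a⟩, b, c⟩ := (LinearMap.ker ((ev p).domRestrict M.Γ)).ne_bot_iff.1
    (LinearMap.ker_ne_bot_of_finrank_lt (by simpa using hn))
  replace b : s p = 0 := b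
  obtain ⟨x, hx⟩ : ∃ x, s x ≠ 0 := Function.ne_iff.1 fun e => c (Subtype.ext e)
  have g := gen_univ a hx
  have h1 := chi_eq M
  have h2 := finrank_map_mul g (R.K / M)
  have m : ∀ t ∈ (R.K / M).Γ, t * s ∈ R.K.Γ := fun t b => by simpa using LB.mul_mem b a
  have h3 : (R.K / M).Γ.map (LinearMap.mulRight ℂ s) ≤ R.K.Γ ⊓ LinearMap.ker (ev p) := by
    rintro _ ⟨t, d, rfl⟩
    exact ⟨m t d, mul_eq_zero_of_right _ b⟩
  have h4 : R.K.Γ ⊓ LinearMap.ker (ev p) < R.K.Γ :=
    let ⟨t, d, e⟩ := h.bpf p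
    lt_of_le_of_ne inf_le_left fun k => e (k.ge d).2
  have h5 := Submodule.finrank_lt_finrank_of_lt h4
  have f := Submodule.finiteDimensional_of_le h4.le
  have h6 := Submodule.finrank_mono h3
  rw [chi, chi, finrank_one, div_one] at h1
  have h7 : deg M = 2 := by omega
  refine absurd (Submodule.finrank_lt_finrank_of_lt (lt_of_le_of_ne h3 fun k => ?_)) (by omega)
  by_cases hq : ∃ q, q ≠ p ∧ s q = 0
  · obtain ⟨q, d, e⟩ := hq
    obtain ⟨t, t1, t2, t3⟩ := h.sep p q d.symm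
    obtain ⟨w, -, rfl⟩ := k.ge ⟨t1, t2⟩
    exact t3 (mul_eq_zero_of_right _ e)
  · have d := deg_eq_sum a g (Z := {p}) fun y hy e => hq ⟨y, by simpa using hy, e⟩
    rw [h7, Finset.sum_singleton] at d
    obtain ⟨t, t1, t2⟩ := h.imm p
    obtain ⟨w, w1, rfl⟩ := k.ge ⟨t1, ((t1 p).ord_eq_one.1 t2).1⟩
    have e := LB.ord_mul (w1 p) (a p)
    rw [div_mul_cancel, show R.K.ord (w * s) p = 1 from t2,
      ← ENat.natCast_toNat ((a p).ord_ne_top.2 (g ▸ mem_univ p)),
      show (M.ord s p).toNat = 2 by omega] at e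
    exact absurd (e.ge.trans' le_add_self) (by decide)

theorem VA.four_le (h : VA R.K) : 4 ≤ deg R.K := by
  obtain ⟨p⟩ : Nonempty C := inferInstance
  have h1 := deg_K (R := R)
  rw [chi, finrank_one, div_one] at h1
  obtain ⟨s, a, b⟩ := h.bpf p
  obtain ⟨t, c, d⟩ := h.imm p
  have h2 : LinearIndependent ℂ ![(⟨s, a⟩ : R.K.Γ), ⟨t, c⟩] := by
    refine LinearIndependent.pair_iff.2 fun x y e => ?_
    have e1 : x • s + y • t = 0 := congrArg Subtype.val e
    obtain rfl : x = 0 := by simpa [((c p).ord_eq_one.1 d).1, b] using congrFun e1 p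
    refine ⟨rfl, by_contra fun hy => ?_⟩
    obtain rfl : t = 0 := by simpa [hy] using e1
    exact ENat.one_ne_top (d.symm.trans (LB.ord_eq_top.2 (.of_forall fun _ => rfl)))
  have h3 := h2.fintype_card_le_finrank
  have h4 := mt (h.h0_le (M := R.K))
  simp only [Fintype.card_fin] at h3
  omega

/-- The number of sections in genus four. -/
theorem VA.h0_le' (h : VA R.K) (hK : deg R.K = 6) (hM : 4 ≤ deg M) :
    (finrank ℂ M.Γ : ℤ) ≤ deg M - 2 := by
  have h1 := chi_eq M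
  have h2 := deg_K (R := R)
  have h3 := h.h0_le (M := R.K / M) (by rw [deg_div]; omega)
  rw [chi] at h1
  omega

end conn

theorem VA.ge (h : VA R.K) : Ge R.K 4 := fun U a ⟨x, b⟩ => by
  have e := (exists_comp (R := R) x).1
  obtain ⟨R', _, _, k, e1, -⟩ := exists_sub_conn (R := R) e isConnected_connectedComponent
  have h1 := ((h.pb k Subtype.val_injective).iso k.d_mem k.ne).four_le
  have h2 := degOn_inter_add_diff (L := R.K) a e
  have h3 := (ge_of_bpf h.bpf).nonneg (U \ connectedComponent x)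
  rw [inter_eq_right.2 (a.connectedComponent_subset b)] at h2
  rw [deg_K] at h1
  omega

/-- **Connectedness.** -/
theorem VA.conn (h : VA R.K) (hK : deg R.K < 8) : PreconnectedSpace C := by
  refine ⟨isPreconnected_of_forall_constant fun f hf x _ y _ => by_contra fun e => ?_⟩
  have a : IsClopen (f ⁻¹' {f x}) :=
    (isClopen_discrete _).preimage (continuousOn_univ.1 hf)
  have h1 := degOn_add_compl (L := R.K) a
  have h2 := h.ge _ a ⟨x, rfl⟩
  have h3 := h.ge _ a.compl ⟨y, fun b => e b.symm⟩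
  omega

end Vale.Agent.P287Q.D
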