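import Vale.Agent.P267.H451.Basic
import Vale.Agent.P269.Cv.Defs

/-!
# Holomorphic line bundles on a complex surface, given by local frames
-/

set_option linter.unusedSectionVars false

namespace Vale.Agent.P287Q.D

open Set Function Topology Filter P267.FL P269.Cv
open scoped ContDiff Manifold

variable {X : Type} [TopologicalSpace X] [ChartedSpace C2 X]

section ho

variable {V V' : Type} [NormedAddCommGroup V] [NormedSpace ℂ V] [NormedAddCommGroup V']
  [NormedSpace ℂ V'] {x : X}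

/-- `f` is holomorphic at `x` (this is `P267.H451.Hol`). -/
def Ho (f : X → V) (x : X) : Prop :=
  AnalyticAt ℂ (fun z => f ((chartAt C2 x).symm z)) (chartAt C2 x x)

theorem ho_iff {f : X → V} : Ho f x ↔ P267.H451.Hol f x := Iff.rfl

theorem symm_chart (x : X) : (chartAt C2 x).symm (chartAt C2 x x) = x :=
  (chartAt C2 x).left_inv (mem_chart_source C2 x)

theorem ho_const (c : V) : Ho (fun _ => c) x := analyticAt_const

namespace Ho

variable {f g : X → V}

theorem congr (h : Ho f x) (e : f =ᶠ[𝓝 x] g) : Ho g x := P267.H451.Hol.congr h e.symm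

theorem add (a : Ho f x) (b : Ho g x) : Ho (fun z => f z + g z) x := AnalyticAt.add a b

theorem sub (a : Ho f x) (b : Ho g x) : Ho (fun z => f z - g z) x := AnalyticAt.sub a b

theorem neg (a : Ho f x) : Ho (fun z => -f z) x := AnalyticAt.neg a

theorem smul {c : X → ℂ} (a : Ho c x) (b : Ho g x) : Ho (fun z => c z • g z) x :=
  AnalyticAt.smul a b

theorem comp {u : V → V'} (a : AnalyticAt ℂ u (f x)) (b : Ho f x) : Ho (fun z => u (f z)) x :=
  AnalyticAt.comp_of_eq a b (congrArg f (symm_chart x))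

theorem apply {ι : Type} [Fintype ι] {f : X → ι → V} (a : Ho f x) (i : ι) :
    Ho (fun z => f z i) x := analyticAt_pi_iff.1 a i

theorem pi {ι : Type} [Fintype ι] {f : X → ι → V} (a : ∀ i, Ho (fun z => f z i) x) : Ho f x :=
  analyticAt_pi_iff.2 a

variable {f g : X → ℂ}

theorem mul (a : Ho f x) (b : Ho g x) : Ho (fun z => f z * g z) x := AnalyticAt.mul a b

theorem inv (a : Ho f x) (h : f x ≠ 0) : Ho (fun z => (f z)⁻¹) x :=
  AnalyticAt.inv a (by rwa [symm_chart])

theorem div (a : Ho f x) (b : Ho g x) (h : g x ≠ 0) : Ho (fun z => f z / g z) x :=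
  AnalyticAt.div a b (by rwa [symm_chart])

theorem pow (a : Ho f x) (n : ℕ) : Ho (fun z => f z ^ n) x := AnalyticAt.pow a n

theorem continuousAt [CompleteSpace V] {f : X → V} (h : Ho f x) : ContinuousAt f x := by
  have h1 := (AnalyticAt.continuousAt h).comp
    ((chartAt C2 x).continuousAt (mem_chart_source C2 x))
  refine h1.congr ?_
  filter_upwards [(chartAt C2 x).open_source.mem_nhds (mem_chart_source C2 x)] with y hy
  exact congrArg f ((chartAt C2 x).left_inv hy)

theorem eventually [CompleteSpace V] [IsManifold 𝓘(ℂ, C2) ω X] {f : X → V} (h : Ho f x) :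
    ∀ᶠ y in 𝓝 x, Ho f y := P267.H451.Hol.eventually h

end Ho

end ho

variable (X) in
/-- A holomorphic line bundle whose fibres are identified with `ℂ`; `φ x` is a holomorphic frame
near `x`. -/
@[ext] structure SB where
  /-- the frames -/
  φ : X → X → ℂ
  self : ∀ x, φ x x = 1
  ne : ∀ x y, φ x y ≠ 0
  hol : ∀ x, ∀ᶠ y in 𝓝 x, Ho (fun z => φ x z / φ y z) y

namespace SB

variable {L L' : SB X} {s s' : X → ℂ} {x y : X}

open Classical in
/-- Construction from frames `ψ x` that do not vanish near `x`. -/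
noncomputable def of (ψ : X → X → ℂ) (ne : ∀ x, ∀ᶠ y in 𝓝 x, ψ x y ≠ 0)
    (hol : ∀ x, ∀ᶠ y in 𝓝 x, Ho (fun z => ψ x z / ψ y z) y) : SB X where
  φ x y := if ψ x y = 0 then 1 else ψ x y / ψ x x
  self x := by rw [if_neg (ne x).self_of_nhds, div_self (ne x).self_of_nhds]
  ne x y := by
    split_ifs with h
    exacts [one_ne_zero, div_ne_zero h (ne x).self_of_nhds]
  hol x := ((hol x).and (ne x).eventually_nhds).mono fun y h =>
    (h.1.mul (ho_const (ψ y y / ψ x x))).congr ((h.2.and (ne y)).mono fun z hz => by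
      simp only [if_neg hz.1, if_neg hz.2]
      field_simp [hz.2, (ne x).self_of_nhds, (ne y).self_of_nhds])

instance : One (SB X) := ⟨⟨1, fun _ => rfl, fun _ _ => one_ne_zero, fun _ =>
  .of_forall fun _ => ho_const ((1 : ℂ) / 1)⟩⟩

noncomputable instance : Mul (SB X) := ⟨fun L L' => ⟨L.φ * L'.φ, fun x => by simp [L.self, L'.self],
  fun x y => mul_ne_zero (L.ne x y) (L'.ne x y), fun x => ((L.hol x).and (L'.hol x)).mono
    fun _ h => (h.1.mul h.2).congr (.of_forall fun z => by simp [mul_div_mul_comm])⟩⟩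

noncomputable instance : Inv (SB X) := ⟨fun L => ⟨L.φ⁻¹, fun x => by simp [L.self],
  fun x y => inv_ne_zero (L.ne x y), fun x => (L.hol x).mono fun y h =>
    (h.inv (div_ne_zero (L.ne _ _) (L.ne _ _))).congr (.of_forall fun z => by
      simp [div_eq_mul_inv, mul_comm])⟩⟩

@[simp] theorem one_φ : (1 : SB X).φ x y = 1 := rfl

@[simp] theorem mul_φ : (L * L').φ x y = L.φ x y * L'.φ x y := rfl

@[simp] theorem inv_φ : (L⁻¹).φ x y = (L.φ x y)⁻¹ := rfl

noncomputable instance : CommGroup (SB X) where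
  mul_assoc _ _ _ := SB.ext (mul_assoc _ _ _)
  one_mul _ := SB.ext (one_mul _)
  mul_one _ := SB.ext (mul_one _)
  inv_mul_cancel L := SB.ext (funext₂ fun x y => inv_mul_cancel₀ (L.ne x y))
  mul_comm _ _ := SB.ext (mul_comm _ _)

/-- The value of the frame as a homomorphism. -/
noncomputable def φh (x y : X) : SB X →* ℂ := ⟨⟨fun L => L.φ x y, rfl⟩, fun _ _ => rfl⟩

@[simp] theorem pow_φ (n : ℕ) : (L ^ n).φ x y = L.φ x y ^ n := map_pow (φh x y) L n

@[simp] theorem zpow_φ (n : ℤ) : (L ^ n).φ x y = L.φ x y ^ n := by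
  cases n with
  | ofNat n => simp
  | negSucc n => simp

@[simp] theorem div_φ : (L / L').φ x y = L.φ x y / L'.φ x y := by
  rw [div_eq_mul_inv, mul_φ, inv_φ, div_eq_mul_inv]

theorem prod_φ {α : Type} (T : Finset α) (A : α → SB X) :
    (∏ a ∈ T, A a).φ x y = ∏ a ∈ T, (A a).φ x y := map_prod (φh x y) A T

variable (L) in
/-- `s` is a holomorphic section near `x`. -/
def Sec (s : X → ℂ) (x : X) : Prop := Ho (fun z => s z / L.φ x z) x

theorem sec_one : (1 : SB X).Sec s x ↔ Ho s x := by simp [Sec]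

theorem Sec.congr (h : L.Sec s x) (e : s =ᶠ[𝓝 x] s') : L.Sec s' x :=
  Ho.congr h (e.mono fun z hz => by simp only [hz])

theorem Sec.mul (a : L.Sec s x) (b : L'.Sec s' x) : (L * L').Sec (s * s') x :=
  (Ho.mul a b).congr (.of_forall fun _ => (mul_div_mul_comm _ _ _ _).symm)

theorem Sec.inv (a : L.Sec s x) (h : s x ≠ 0) : L⁻¹.Sec s⁻¹ x :=
  (Ho.inv a (by rwa [L.self, div_one])).congr (.of_forall fun _ => by
    simp [div_eq_mul_inv, mul_comm])

theorem Sec.div (a : L.Sec s x) (b : L'.Sec s' x) (h : s' x ≠ 0) : (L / L').Sec (s / s') x := by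
  rw [div_eq_mul_inv, div_eq_mul_inv]; exact a.mul (b.inv h)

theorem Sec.add (a : L.Sec s x) (b : L.Sec s' x) : L.Sec (s + s') x :=
  (Ho.add a b).congr (.of_forall fun _ => (add_div _ _ _).symm)

theorem Sec.sub (a : L.Sec s x) (b : L.Sec s' x) : L.Sec (s - s') x :=
  (Ho.sub a b).congr (.of_forall fun _ => (sub_div _ _ _).symm)

theorem Sec.smul (a : L.Sec s x) (c : ℂ) : L.Sec (c • s) x :=
  (Ho.mul (ho_const c) a).congr (.of_forall fun _ => (mul_div_assoc _ _ _).symm)

theorem sec_zero : L.Sec 0 x := (ho_const (0 : ℂ)).congr (.of_forall fun _ => (zero_div _).symm)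

theorem Sec.hol_mul (a : Ho s x) (b : L.Sec s' x) : L.Sec (s * s') x := by
  simpa using (sec_one.2 a).mul b

theorem Sec.pow (a : L.Sec s x) (n : ℕ) : (L ^ n).Sec (s ^ n) x := by
  induction n with
  | zero => exact sec_one.2 (ho_const (1 : ℂ))
  | succ n ih => rw [pow_succ, pow_succ]; exact ih.mul a

theorem Sec.zpow (a : L.Sec s x) (h : s x ≠ 0) (n : ℤ) : (L ^ n).Sec (s ^ n) x := by
  cases n with
  | ofNat n => simpa using a.pow n
  | negSucc n => simpa using (a.pow (n + 1)).inv (pow_ne_zero _ h)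

theorem Sec.prod {α : Type} {T : Finset α} {A : α → SB X} {u : α → X → ℂ}
    (h : ∀ a ∈ T, (A a).Sec (u a) x) : (∏ a ∈ T, A a).Sec (∏ a ∈ T, u a) x := by
  classical
  induction T using Finset.induction_on with
  | empty => exact sec_one.2 (ho_const (1 : ℂ))
  | insert a T ha ih =>
    rw [Finset.prod_insert ha, Finset.prod_insert ha]
    exact (h a (Finset.mem_insert_self _ _)).mul (ih fun b hb => h b (Finset.mem_insert_of_mem hb))

theorem sec_φ (L : SB X) (x : X) : ∀ᶠ y in 𝓝 x, L.Sec (L.φ x) y := L.hol x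

theorem Sec.hol_div (a : L.Sec s x) (b : L.Sec s' x) (h : s' x ≠ 0) :
    Ho (fun z => s z / s' z) x := by
  have := a.div b h
  rwa [div_self', sec_one] at this

theorem Sec.ev_ne (a : L.Sec s x) (h : s x ≠ 0) : ∀ᶠ y in 𝓝 x, s y ≠ 0 :=
  ((Ho.continuousAt a).eventually_ne (by rwa [L.self, div_one])).mono fun _ hz =>
    (div_ne_zero_iff.1 hz).1

theorem Sec.iff_div (b : L.Sec s' x) (h : s' x ≠ 0) :
    L.Sec s x ↔ Ho (fun z => s z / s' z) x :=
  ⟨fun a => a.hol_div b h, fun a => (Sec.hol_mul a b).congr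
    ((b.ev_ne h).mono fun _ hz => div_mul_cancel₀ _ hz)⟩

theorem sec_of {ψ : X → X → ℂ} (ne : ∀ x, ∀ᶠ y in 𝓝 x, ψ x y ≠ 0)
    (hol : ∀ x, ∀ᶠ y in 𝓝 x, Ho (fun z => ψ x z / ψ y z) y) :
    (of ψ ne hol).Sec s x ↔ Ho (fun z => s z / ψ x z) x := by
  have a : (of ψ ne hol).Sec (ψ x) x := (ho_const (ψ x x)).congr
    ((ne x).mono fun z hz => by
    simp only [of, if_neg hz]
    field_simp [(ne x).self_of_nhds])
  exact a.iff_div (ne x).self_of_nhds

variable (L) in
/-- Holomorphic sections. -/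
def Γ : Submodule ℂ (X → ℂ) where
  carrier := {s | ∀ x, L.Sec s x}
  add_mem' a b x := (a x).add (b x)
  zero_mem' _ := sec_zero
  smul_mem' c _ a x := (a x).smul c

theorem mem_Γ : s ∈ L.Γ ↔ ∀ x, L.Sec s x := Iff.rfl

theorem mul_mem (a : s ∈ L.Γ) (b : s' ∈ L'.Γ) : s * s' ∈ (L * L').Γ := fun x => (a x).mul (b x)

theorem pow_mem (a : s ∈ L.Γ) (n : ℕ) : s ^ n ∈ (L ^ n).Γ := fun x => (a x).pow n

theorem div_mem (a : s ∈ L.Γ) (b : s' ∈ L'.Γ) (h : ∀ x, s' x ≠ 0) : s / s' ∈ (L / L').Γ :=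
  fun x => (a x).div (b x) (h x)

variable (L) in
/-- The number of independent sections. -/
noncomputable def h0 : ℕ := Module.finrank ℂ L.Γ

variable (L) in
/-- The bundle is trivial. -/
def Triv : Prop := ∃ s ∈ L.Γ, ∀ x, s x ≠ 0

variable [IsManifold 𝓘(ℂ, C2) ω X]

theorem Sec.eventually (a : L.Sec s x) : ∀ᶠ y in 𝓝 x, L.Sec s y :=
  ((Ho.eventually a).and (L.sec_φ x)).mono fun y h => (h.2.iff_div (L.ne x y)).2 h.1

theorem K_ne (x : X) : ∀ᶠ y in 𝓝 x, (jac (chartAt C2 x) y).det⁻¹ ≠ 0 :=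
  Eventually.mono ((chartAt C2 x).open_source.mem_nhds (mem_chart_source C2 x)) fun _ hy =>
    inv_ne_zero (jac_det_ne_zero (chart_mem_atlas C2 x) hy)

theorem K_hol (x : X) : ∀ᶠ y in 𝓝 x,
    Ho (fun z => (jac (chartAt C2 x) z).det⁻¹ / (jac (chartAt C2 y) z).det⁻¹) y := by
  have hx := chart_mem_atlas C2 x
  filter_upwards [(chartAt C2 x).open_source.mem_nhds (mem_chart_source C2 x)] with y hy
  have h : Ho (fun z => (jacM (chartAt C2 y) (chartAt C2 x) z).det) y :=
    det_analyticAt (chart_mem_atlas C2 y) hx (mem_chart_source C2 y) hy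
  refine h.congr ?_
  filter_upwards [(chartAt C2 x).open_source.mem_nhds hy,
    (chartAt C2 y).open_source.mem_nhds (mem_chart_source C2 y)] with z h1 h2
  rw [jac_eq (chart_mem_atlas C2 y) hx h2 h1, Matrix.det_mul]
  field_simp [jac_det_ne_zero hx h1]

variable (X) in
/-- The canonical bundle. -/
noncomputable def K : SB X := of (fun x y => (jac (chartAt C2 x) y).det⁻¹) K_ne K_hol

theorem K_φ (h : y ∈ (chartAt C2 x).source) : (K X).φ x y = (jac (chartAt C2 x) y).det⁻¹ := by
  simp [K, of, jac_det_ne_zero (chart_mem_atlas C2 x) h]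

end SB

section curve

variable {C : Type} [TopologicalSpace C]

/-- `ι` is a holomorphic map from a Riemann surface. -/
structure HolC (R : RS C) (ι : C → X) : Prop where
  cont : Continuous ι
  an : ∀ c, R.Hol (fun t => chartAt C2 (ι c) (ι t)) c

variable {R : RS C} {ι : C → X}

theorem HolC.comp (h : HolC R ι) {V : Type} [NormedAddCommGroup V] [NormedSpace ℂ V]
    [CompleteSpace V] {f : X → V} {c : C} (a : Ho f (ι c)) : R.Hol (fun t => f (ι t)) c := by
  have h1 := RS.Hol.comp (f := fun t => chartAt C2 (ι c) (ι t)) a (h.an c)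
  refine h1.congr ?_
  filter_upwards [h.cont.continuousAt.eventually
    ((chartAt C2 (ι c)).open_source.mem_nhds (mem_chart_source C2 (ι c)))] with t ht
  rw [(chartAt C2 (ι c)).left_inv ht]

/-- The pull back of line bundles. -/
noncomputable def HolC.pb (h : HolC R ι) : SB X →* LB R where
  toFun L := ⟨fun c t => L.φ (ι c) (ι t), fun _ => L.self _, fun _ _ => L.ne _ _, fun c =>
    (h.cont.continuousAt.eventually (L.hol (ι c))).mono fun _ a => h.comp a⟩
  map_one' := rfl
  map_mul' _ _ := rfl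

@[simp] theorem HolC.pb_φ (h : HolC R ι) (L : SB X) (c t : C) :
    (h.pb L).φ c t = L.φ (ι c) (ι t) := rfl

theorem HolC.sec (h : HolC R ι) {L : SB X} {s : X → ℂ} {c : C} (a : L.Sec s (ι c)) :
    (h.pb L).Sec (s ∘ ι) c := h.comp a

theorem HolC.mem_Γ (h : HolC R ι) {L : SB X} {s : X → ℂ} (a : s ∈ L.Γ) : s ∘ ι ∈ (h.pb L).Γ :=
  fun _ => h.sec (a _)

end curve

end Vale.Agent.P287Q.D
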