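import Vale.Agent.P287Q.D.Defs
import Vale.Agent.P287Q.D.SB
import Vale.Agent.P287Q.D.Can
import Vale.Agent.P287Q.Sf.Defs
import Vale.Agent.P287Q.Hb.QM
import Vale.Agent.P287Q.Mf.Quo
import Vale.Agent.P287Q.Cub.Defs
import Vale.Agent.P267.H451.Frame

/-!
# Discriminants 2 and 6: definitions and statements about the surface of incident lines
-/

set_option linter.unusedSectionVars false

namespace Vale.Agent.P287Q.D

open Set Function Topology Filter P291Z P267.FL P267.BlockC P267.RR P269 P269.Cv P269.Tq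
open P287Q.Zc (Lk)
open scoped ContDiff Manifold

/-! ### first Chern classes -/

section top

variable {X : Type} [TopologicalSpace X]

/-- Continuous frames of a line bundle. -/
structure Coc (φ : X → X → ℂ) : Prop where
  self : ∀ x, φ x x = 1
  ne : ∀ x y, φ x y ≠ 0
  cont : ∀ x, ∀ᶠ y in 𝓝 x, ContinuousAt (fun z => φ x z / φ y z) y

/-- `c` is the first Chern class of the line bundle with the frames `φ`. -/
def IsC1 (φ : X → X → ℂ) (c : H X) : Prop :=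
  ∃ (Y : Ch.Sp) (χ : Y.G →ₜ* ℂˣ) (v : X → X → Y.T) (u : C(X, Y.X)),
    (∀ (g : Y.G) (t : Y.T), g • t = t → g = 1) ∧ (∀ x, ∀ᶠ z in 𝓝 x, ContinuousAt (v x) z) ∧
    (∀ z, Y.π (v z z) = u z) ∧
    (∀ x z, ∃ g : Y.G, g • v z z = v x z ∧ (χ g : ℂ) = (φ x z)⁻¹) ∧ c = H.map u (Ch.c1 χ).1

theorem IsC1.pull {C : Type} [TopologicalSpace C] (ι : C(C, X)) {φ : X → X → ℂ} {c : H X}
    (h : IsC1 φ c) : IsC1 (fun x y => φ (ι x) (ι y)) (H.map ι c) := by
  obtain ⟨Y, χ, v, u, h0, h1, h2, h3, rfl⟩ := h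
  exact ⟨Y, χ, fun x y => v (ι x) (ι y), u.comp ι, h0, fun x =>
    (ι.continuous.continuousAt.eventually (h1 (ι x))).mono fun z a =>
      ContinuousAt.comp (g := v (ι x)) a ι.continuous.continuousAt, fun z => h2 _,
    fun x z => h3 _ _, H.map_map _ _ _⟩

end top

/-- Existence and integrality of the first Chern class. -/
def StC1Ex : Prop := ∀ (X : Type) [TopologicalSpace X] [Nice X] [CompactSpace X] (φ : X → X → ℂ),
  Coc φ → ∃ c ∈ Lk X 2, IsC1 φ c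

/-- Additivity and invariance of the first Chern class. -/
def StC1Mul : Prop := ∀ (X : Type) [TopologicalSpace X] [Nice X] (φ φ' φ'' : X → X → ℂ)
  (c c' c'' : H X) (s : X → ℂ), IsC1 φ c → IsC1 φ' c' → IsC1 φ'' c'' → (∀ x, s x ≠ 0) →
  (∀ x, ContinuousAt (fun y => s y * φ x y * φ' x y / φ'' x y) x) → c'' = c + c'

/-- The degree is the integral of the first Chern class. -/
def StC1Deg : Prop := ∀ (C : Type) [TopologicalSpace C] [T2Space C] [CompactSpace C] (R : RS C)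
  (β : BM C), (∀ x, Orb.Val β (fun z : Fin 1 → ℂ => R.i x (z 0)) 1) →
  ∀ (L : Cv.LB R) (c : H C), IsC1 L.φ c → Loc.intg β c = deg L

/-! ### surfaces -/

section surf

variable {X : Type} [TopologicalSpace X] [ChartedSpace C2 X]

theorem SB.coc (M : SB X) : Coc M.φ :=
  ⟨M.self, M.ne, fun x => (M.hol x).mono fun _ h => h.continuousAt⟩

/-- Smooth frames `v` of `A` with the transition functions `φ`. -/
def Frs (A : ALB X) (φ : X → X → ℂ) (v : X → X → EuclideanSpace ℂ A.ι) : Prop :=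
  ∀ x, ∀ᶠ y in 𝓝 x, P267.H451.Sm (v x) y ∧ v x y ≠ 0 ∧
    P267.FL.LB.act (A.L.P y) (v x y) = v x y ∧ v x y = φ x y • v y y

/-- A realisation of `M` by a projector and a holomorphic structure. -/
structure Rl (M : SB X) where
  /-- the smooth bundle -/
  A : ALB X
  /-- the holomorphic structure -/
  a : X → Fin 2 → ℂ
  /-- the frames -/
  v : X → X → EuclideanSpace ℂ A.ι
  hol : A.L.IsHol a
  fr : ∀ x, ∀ᶠ y in 𝓝 x, P267.H451.FrameAt A.L a (v x) y ∧ v x y = M.φ x y • v y y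

theorem Rl.frs {M : SB X} (R : Rl M) : Frs R.A M.φ R.v := fun x =>
  (R.fr x).mono fun _ h => ⟨h.1.sm, h.1.ne, h.1.sec, h.2⟩

/-- An intersection form on line bundles. -/
structure IP (ip : SB X → SB X → ℤ) : Prop where
  add : ∀ M M' M'', ip (M * M') M'' = ip M M'' + ip M' M''
  symm : ∀ M M', ip M M' = ip M' M
  triv : ∀ M M' : SB X, M.Triv → ip M M' = 0

/-- `ip` is given by the first Chern classes. -/
def IPc (I : H X →ₗ[ℂ] ℂ) (ip : SB X → SB X → ℤ) : Prop :=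
  ∀ (M M' : SB X) c c', IsC1 M.φ c → IsC1 M'.φ c' → (ip M M' : ℂ) = I (c * c')

/-- `ip` is given by the curvature forms. -/
def IPr (ip : SB X → SB X → ℤ) : Prop :=
  ∀ (M M' : SB X) (R : Rl M) (R' : Rl M'), isec R.A.L R'.A.L = ip M M'

/-- The index set of the Euler sequences. -/
abbrev K7 : Type := (Fin 2 ⊕ Fin 2) ⊕ Fin 3

/-- The bundle `⊕ M j` has a filtration with the quotients `𝒪²`, `T`, `⊕ Q i`. -/
def Eul (M : K7 → SB X) (Q : Fin 3 → SB X) : Prop :=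
  ∃ Φ : X → X → Matrix K7 K7 ℂ, (∀ x i j, Ho (fun y => Φ x y i j) x) ∧ (∀ x, (Φ x x).det ≠ 0) ∧
    ∀ x, ∀ᶠ y in 𝓝 x, ∃ (U : Matrix (Fin 2) (Fin 2) ℂ) (V : Matrix (Fin 2 ⊕ Fin 2) (Fin 3) ℂ),
      (Matrix.diagonal fun j => (M j).φ x y) * Φ x y = Φ y y *
        Matrix.fromBlocks (Matrix.fromBlocks 1 U 0 (jac (chartAt C2 x) y)) V 0
          (Matrix.diagonal fun i => (Q i).φ x y)

/-- The bundles of the seven coordinates. -/
noncomputable def M7 (A B : SB X) : K7 → SB X :=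
  Sum.elim (Sum.elim ![A, A] ![B, B]) ![A * B, A ^ 2 * B, A * B ^ 2]

/-- The bundles of the three equations. -/
noncomputable def Q3 (A B : SB X) : Fin 3 → SB X := ![(A * B) ^ 2, (A * B) ^ 2, (A * B) ^ 3]

/-- `X` is the quotient of the cone `N.Z`; the coordinate `p · j` is a section of the bundle
`A`, `A`, `B`, `B`, `A B`, `A² B`, `A B²`. -/
structure Md (N : NF) (A B : SB X) (p : X → W7) : Prop where
  mem : ∀ x, p x ∈ N.Z
  inj : ∀ x y a, p y = ac a (p x) → x = y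
  surj : ∀ z ∈ N.Z, ∃ x a, z = ac a (p x)
  hol : ∀ x, Ho (fun y => ac ((A.φ x y)⁻¹, (B.φ x y)⁻¹) (p y)) x

/-- The smooth curve `C` is the transverse zero set of the section `s` of `A`. -/
structure Crv (A : SB X) (s : X → ℂ) {C : Type} [TopologicalSpace C] (R : RS C) (ι : C → X) :
    Prop extends HolC R ι where
  sec : s ∈ A.Γ
  inj : Injective ι
  rng : ∀ x, x ∈ range ι ↔ s x = 0
  imm : ∀ c, deriv (fun t => chartAt C2 (ι c) (ι (R.i c t))) 0 ≠ 0
  tr : ∀ c, fderiv ℂ (fun z => s ((chartAt C2 (ι c)).symm z) /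
    A.φ (ι c) ((chartAt C2 (ι c)).symm z)) (chartAt C2 (ι c) (ι c)) ≠ 0

/-- The zero set of `s` is a smooth compact curve on which degrees are intersection numbers. -/
def HasC (ip : SB X → SB X → ℤ) (A : SB X) (s : X → ℂ) : Prop :=
  ∃ (C : Type) (_ : TopologicalSpace C) (_ : T2Space C) (_ : CompactSpace C) (R : RS C)
    (ι : C → X) (h : Crv A s R ι), ∀ M, deg (h.toHolC.pb M) = ip M A

variable [IsManifold 𝓘(ℂ, C2) ω X]

/-- The surface of the lines meeting a general line. -/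
structure Pk (N : NF) (A B : SB X) (p : X → W7) (ip : SB X → SB X → ℤ) : Prop where
  gd : N.Good
  md : Md N A B p
  ip' : IP ip
  cA : HasC ip A fun x => p x 0
  cB : HasC ip B fun x => p x 2
  AA : ip A A = 1
  BB : ip B B = 1
  AB : ip A B = 4
  can : (SB.K X / (A * B)).Triv

/-- Finiteness and the Riemann-Roch inequality. -/
structure An (ip : SB X → SB X → ℤ) (χ : ℤ) : Prop where
  fin : ∀ M : SB X, FiniteDimensional ℂ M.Γ
  rr : ∀ M : SB X, 2 * χ + ip M M - ip M (SB.K X) ≤ 2 * (M.h0 + (SB.K X / M).h0)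

end surf

theorem Md.swap {X : Type} [TopologicalSpace X] [ChartedSpace C2 X] {N : NF} {A B : SB X}
    {p : X → W7} (h : Md N A B p) : Md N B A fun x => sw (p x) where
  mem x := NF.sw_mem (h.mem x)
  inj x y a e := h.inj x y a.swap (by rw [← sw_sw (p y), e, sw_ac, sw_sw])
  surj z hz := by
    obtain ⟨x, a, e⟩ := h.surj _ (NF.sw_mem hz)
    exact ⟨x, a.swap, by rw [← sw_ac, ← e, sw_sw]⟩
  hol x := by
    have : ∀ y, ac ((B.φ x y)⁻¹, (A.φ x y)⁻¹) (sw (p y)) =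
        sw (ac ((A.φ x y)⁻¹, (B.φ x y)⁻¹) (p y)) := fun y =>
      (sw_ac ((A.φ x y)⁻¹, (B.φ x y)⁻¹) (p y)).symm
    simp only [this]
    refine Ho.pi fun i => ?_
    fin_cases i
    exacts [(h.hol x).apply 2, (h.hol x).apply 3, (h.hol x).apply 0, (h.hol x).apply 1,
      (h.hol x).apply 4, (h.hol x).apply 6, (h.hol x).apply 5]

theorem Pk.swap {X : Type} [TopologicalSpace X] [ChartedSpace C2 X] [IsManifold 𝓘(ℂ, C2) ω X]
    {N : NF} {A B : SB X} {p : X → W7} {ip : SB X → SB X → ℤ} (h : Pk N A B p ip) :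
    Pk N B A (fun x => sw (p x)) ip :=
  ⟨h.gd, h.md.swap, h.ip', h.cB, h.cA, h.BB, h.AA, (h.ip'.symm _ _).trans h.AB,
    mul_comm A B ▸ h.can⟩

section stm

variable (X : Type) [TopologicalSpace X] [ChartedSpace C2 X] [IsManifold 𝓘(ℂ, C2) ω X]

/-- Realisations exist. -/
def StRl : Prop := ∀ M : SB X, Nonempty (Rl M)

/-- Every holomorphic structure is a realisation. -/
def StRl' : Prop := ∀ (A : ALB X) (a : X → Fin 2 → ℂ), A.L.IsHol a →
  ∃ (M : SB X) (R : Rl M), R.A = A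

/-- Every smooth line bundle has frames. -/
def StFrs : Prop := ∀ A : ALB X, ∃ φ v, Coc φ ∧ Frs A φ v

/-- Riemann-Roch. -/
def StRR : Prop := ∀ ip : SB X → SB X → ℤ, IPr ip → An ip (chi (OX X) 0 0)

/-- Additivity of the Euler characteristic. -/
def StAdd : Prop := ∀ (M : K7 → SB X) (Q : Fin 3 → SB X), Eul M Q →
  ∀ (R : ∀ j, Rl (M j)⁻¹) (R' : ∀ i, Rl (Q i)⁻¹),
    ∑ j, chi (R j).A.L (R j).a 0 =
      2 * chi (OX X) 0 0 + chiOm X + ∑ i, chi (R' i).A.L (R' i).a 0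

/-- The canonical bundle. -/
def StCan : Prop := ∀ (M : K7 → SB X) (Q : Fin 3 → SB X), Eul M Q →
  (SB.K X * (∏ j, M j) / ∏ i, Q i).Triv

/-- The holomorphic Euler characteristic. -/
def StChi : Prop := ∀ (A B : SB X) (ip : SB X → SB X → ℤ), IP ip → IPr ip → ip A A = 1 →
  ip B B = 1 → ip A B = 4 → Eul (M7 A B) (Q3 A B) → chi (OX X) 0 0 = 6

/-- Removable singularities. -/
def StHart : Prop := ∀ (M : SB X) (s : X → ℂ) (T : Set X), T.Finite → (∀ x ∉ T, M.Sec s x) →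
  ∃ t ∈ M.Γ, ∀ x ∉ T, t x = s x

/-- A section whose zeros are separated by holomorphic functions with finite fibres has no
zeros. -/
def StZF : Prop := ∀ (M : SB X) (s : X → ℂ) (f : X → ℂ × ℂ), s ∈ M.Γ → s ≠ 0 →
  (∀ x, s x = 0 → Ho f x) → (∀ v, {x | s x = 0 ∧ f x = v}.Finite) → ∀ x, s x ≠ 0

/-- Division by the equation of a curve. -/
def StDiv : Prop := ∀ (A : SB X) (s : X → ℂ) (C : Type) [TopologicalSpace C] (R : RS C)
  (ι : C → X), Crv A s R ι → ∀ (M : SB X) (t : X → ℂ), t ∈ M.Γ → (∀ c, t (ι c) = 0) →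
  ∃ t' ∈ (M / A).Γ, t = s * t'

/-- Adjunction. -/
def StAdj : Prop := ∀ (A : SB X) (s : X → ℂ) (C : Type) [TopologicalSpace C] (R : RS C)
  (ι : C → X) (h : Crv A s R ι), ∃ σ ∈ (R.K / h.toHolC.pb (SB.K X * A)).Γ, ∀ c, σ c ≠ 0

end stm

section met

variable (X : Type) [MetricSpace X] [ChartedSpace C2 X] [IsManifold 𝓘(ℂ, C2) ω X]

/-- The Chern form represents `κ c₁`. -/
def Barg (κ : ℂ) : Prop := ∀ (A : ALB X) φ v c, Coc φ → Frs A φ v → IsC1 φ c →
  Sf.Rp (Sf.ch1 A) (κ • c)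

/-- Integral classes are Chern classes of smooth line bundles. -/
def StSm : Prop := ∀ l ∈ Lk X 2, ∃ A : ALB X, Sf.Rp (Sf.ch1 A) l

/-- The `(0, 2)` part of the curvature is the only obstruction. -/
def StHol : Prop := ∀ A : ALB X, (∀ η, Sf.Hol2 η → pair η (Sf.ch1 A) = 0) → ∃ a, A.L.IsHol a

/-- The comparison of Chern forms and Chern classes, and the Lefschetz theorem. -/
def StCmp : Prop := ∀ (I : H X →ₗ[ℂ] ℂ) (B : LinearMap.BilinForm ℤ (Lk X 2)), Sf.Top I B →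
  ∀ ip : SB X → SB X → ℤ, IPc I ip → (∃ M, ip M M = 1) → IPr ip ∧
    ∀ l ∈ Lk X 2, (∀ w, Mf.IsHg 2 2 0 w → I (l * w) = 0) → ∃ M : SB X, IsC1 M.φ l

end met

/-- The universal constant. -/
def StBarg : Prop := ∃ κ : ℂ, ∀ (X : Type) [MetricSpace X] [CompactSpace X] [ChartedSpace C2 X]
  [IsManifold 𝓘(ℂ, C2) ω X], Barg X κ

/-! ### algebra -/

/-- Finiteness of the fibres over `(λ, λ')`. -/
def StFin : Prop := ∀ N : NF, N.b 1 pp ≠ 0 → N.b 0 pp = 0 → ∀ l l' : Fin 2 → ℂ, l 0 ≠ 0 →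
  l' 0 ≠ 0 → {z | z ∈ N.Z ∧ z 0 = l 0 ∧ z 1 = l 1 ∧ z 2 = l' 0 ∧ z 3 = l' 1}.Finite

/-- A plane contains at most two ordered factorisations. -/
def StTwo : Prop := ∀ N : NF, N.b 1 pp ≠ 0 → ∀ z ∈ N.Z, ∀ z' ∈ N.Z, ∀ t : ℂ, yy z' = t • yy z →
  (∃ a, z' = ac a z) ∨ ∃ a, z' = ac a (sw z)

/-- General fibres over `([λ], [λ'])` consist of four reduced points. -/
def StGen : Prop := ∀ N : NF, N.Good → ∀ᵐ q : ℂ × ℂ, q.1 ≠ q.2 ∧ ∃ z : Fin 4 → W7,
  (Injective fun i => z i 4) ∧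
  (∀ x, x ∈ range z ↔ x ∈ N.Z ∧ x 0 = 1 ∧ x 1 = q.1 ∧ x 2 = 1 ∧ x 3 = q.2) ∧
  ∀ i, Surjective fun v : W7 => (fderiv ℂ N.G (z i) v, v 0, v 1, v 2, v 3)

/-- The polynomials in `λ₀, λ₁, λ₀', λ₁', w`. -/
abbrev R5 : Type := MvPolynomial (Fin 5) ℂ

/-- Evaluation at the first five coordinates. -/
noncomputable def ev5 (z : W7) (P : R5) : ℂ := MvPolynomial.eval ![z 0, z 1, z 2, z 3, z 4] P

/-- No relations of degree at most three in `w`. -/
def StPI : Prop := ∀ N : NF, N.Good → ∀ P : R5, P.degreeOf 4 ≤ 3 → (∀ z ∈ N.Z, ev5 z P = 0) →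
  P = 0

/-! ### the end of the proof -/

section fin

variable (X : Type) [TopologicalSpace X] [ChartedSpace C2 X] [IsManifold 𝓘(ℂ, C2) ω X]

/-- The curve `λ₀ = 0`: it is connected and canonically embedded, and the `λ'` are independent. -/
def StCrv : Prop := ∀ (N : NF) (A B : SB X) (p : X → W7) (ip : SB X → SB X → ℤ), Pk N A B p ip →
  ∀ (C : Type) [TopologicalSpace C] [T2Space C] [CompactSpace C] (R : RS C) (ι : C → X)
    (h : Crv A (fun x => p x 0) R ι), (∀ M, deg (h.toHolC.pb M) = ip M A) →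
    ConnectedSpace C ∧ VA R.K ∧ deg R.K = 6 ∧
      ∀ a b : ℂ, (a, b) ≠ 0 → {c | a * p (ι c) 2 + b * p (ι c) 3 = 0}.Finite

/-- The members of the two pencils meet in finite sets. -/
def StMeet : Prop := ∀ (N : NF) (A B : SB X) (p : X → W7) (ip : SB X → SB X → ℤ), Pk N A B p ip →
  ∀ a b a' b' : ℂ, (a, b) ≠ 0 → (a', b') ≠ 0 →
    {x | a * p x 0 + b * p x 1 = 0 ∧ a' * p x 2 + b' * p x 3 = 0}.Finite

/-- The surface is connected. -/
def StConn : Prop := ∀ (N : NF) (A B : SB X) (p : X → W7) (ip : SB X → SB X → ℤ), Pk N A B p ip →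
  ConnectedSpace X

/-- Restriction to the curve `λ₀ = 0`. -/
def StRes : Prop := ∀ (N : NF) (A B : SB X) (p : X → W7) (ip : SB X → SB X → ℤ), Pk N A B p ip →
  (∀ M : SB X, FiniteDimensional ℂ M.Γ) → ∀ M : SB X, (ip M A < 0 → M.Γ = ⊥) ∧
    (ip M A = 0 → ∀ s ∈ M.Γ, (∀ x, p x 0 = 0 → s x ≠ 0) ∨ s = 0) ∧
    (ip M A ≤ 2 → M.h0 ≤ (M / A).h0 + 1) ∧ (ip M A = 5 → M.h0 ≤ (M / A).h0 + 3)

/-- Discriminant two. -/
def StEnd2 : Prop := ∀ (N : NF) (A B : SB X) (p : X → W7) (ip : SB X → SB X → ℤ),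
  Pk N A B p ip → An ip 6 → ∀ L, ip L L = -2 → ip L A = 1 → ip L B = -1 → False

/-- Discriminant six. -/
def StEnd6 : Prop := ∀ (N : NF) (A B : SB X) (p : X → W7) (ip : SB X → SB X → ℤ),
  Pk N A B p ip → An ip 6 → ∀ L, ip L L = -4 → ip L A = 0 → ip L B = 0 → False

end fin

end Vale.Agent.P287Q.D
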