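import Vale.Agent.P287Q.D.St
import Vale.Agent.P287Q.H3.LB
import Vale.Agent.P287Q.Sf.Cls

/-!
# The Chern form represents the first Chern class
-/

set_option linter.unusedSectionVars false

namespace Vale.Agent.P287Q.D

open Set Function Topology Filter P291Z P291Z.Fl P267.FL P267.BlockC P267.RR P269 P269.Ch
open P287Q.H3.LB (kp kp_smul c1_eq pb pm pm_map)
open P267.H995 (Zig DFrames LogData)
open scoped ContDiff Manifold

variable {m : Type} [Fintype m]

/-- **The first Chern class in terms of generating sections.** -/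
theorem IsC1.eq_kp {X : Type} [TopologicalSpace X] [Nice X] {φ : X → X → ℂ} {c : H X}
    (h : IsC1 φ c) {G : X → m → ℂ} (h0 : ∀ z, G z ≠ 0)
    (h1 : ∀ x, ContinuousAt (fun y => (φ x y)⁻¹ • G y) x) :
    supp (δ (lg3 fun a b c => kp (G a) (G b) (G c))) = ∅ ∧
      hcls (lg3 fun a b c => kp (G a) (G b) (G c)) = c := by
  obtain ⟨Y, χ, w, u, f0, f1, f2, f3, rfl⟩ := h
  choose g g1 g2 using f3
  have fr : ∀ {a b : Y.G} {t : Y.T}, a • t = b • t → a = b := fun {a b t} e =>
    (inv_mul_eq_one.1 (f0 (b⁻¹ * a) t (by rw [mul_smul, e, inv_smul_smul]))).symm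
  have hd : ∀ p : (pb Y u).T, ∃ d : Y.G, d • w p.1.1 p.1.1 = p.1.2 := fun p =>
    (Y.fib _ _).1 ((f2 _).trans p.2)
  choose d hd using hd
  have emb : IsInducing fun q : Y.G × Y.T => (q.1 • q.2, q.2) :=
    (IsClosedEmbedding.of_continuous_injective_isClosedMap
      (ProperSMul.isProperMap_smul_pair (G := Y.G) (X := Y.T)).continuous
      (fun a b e => by
        have e2 : a.2 = b.2 := (Prod.ext_iff.1 e).2
        have e1 : a.1 • a.2 = b.1 • b.2 := (Prod.ext_iff.1 e).1
        exact Prod.ext (fr (e1.trans (e2 ▸ rfl))) e2)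
      (ProperSMul.isProperMap_smul_pair (G := Y.G) (X := Y.T)).isClosedMap).isInducing
  have k1 : Continuous fun p : (pb Y u).T => p.1.1 := continuous_fst.comp continuous_subtype_val
  have k2 : Continuous fun p : (pb Y u).T => p.1.2 := continuous_snd.comp continuous_subtype_val
  have hc : Continuous fun p : (pb Y u).T => (χ (d p) : ℂ) • G p.1.1 :=
    continuous_iff_continuousAt.2 fun p => by
      have a0 : ContinuousAt (fun q : (pb Y u).T => w p.1.1 q.1.1) p :=
        ContinuousAt.comp (g := w p.1.1) (f1 p.1.1).self_of_nhds k1.continuousAt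
      have a1 : ContinuousAt
          (fun q : (pb Y u).T => (d q * (g p.1.1 q.1.1)⁻¹, w p.1.1 q.1.1)) p :=
        emb.continuousAt_iff.2 ((k2.continuousAt.prodMk a0).congr (.of_forall fun q => by
          refine Prod.ext ?_ rfl
          change q.1.2 = (d q * (g p.1.1 q.1.1)⁻¹) • w p.1.1 q.1.1
          rw [← g1, smul_smul, inv_mul_cancel_right, hd]))
      have a2 : ContinuousAt (fun q : (pb Y u).T => (χ (d q * (g p.1.1 q.1.1)⁻¹) : ℂ)) p :=
        (Units.continuous_val.comp χ.continuous).continuousAt.comp a1.fst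
      refine (a2.smul (ContinuousAt.comp (g := fun y => (φ p.1.1 y)⁻¹ • G y) (h1 p.1.1)
        k1.continuousAt)).congr (.of_forall fun q => ?_)
      change (χ (d q * (g p.1.1 q.1.1)⁻¹) : ℂ) • (φ p.1.1 q.1.1)⁻¹ • G q.1.1 = _
      rw [← g2, smul_smul, ← Units.val_mul, ← map_mul, inv_mul_cancel_right]
  have h := c1_eq (pb Y u) ((pm Y u).chr χ) hc
    (fun p => smul_ne_zero (χ _).ne_zero (h0 _)) fun a p => by
      have e : d (a • p) = (show Y.G from a) * d p := fr (t := w p.1.1 p.1.1)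
        ((hd (a • p)).trans (by rw [mul_smul, hd]; rfl))
      rw [e, map_mul, Units.val_mul, mul_smul]
      rfl
  have e : (fun a b c : X => kp ((χ (d ((pb Y u).out a)) : ℂ) • G ((pb Y u).out a).1.1)
      ((χ (d ((pb Y u).out b)) : ℂ) • G ((pb Y u).out b).1.1)
      ((χ (d ((pb Y u).out c)) : ℂ) • G ((pb Y u).out c).1.1)) =
      fun a b c => kp (G a) (G b) (G c) :=
    funext fun a => funext fun b => funext fun c => by
      have o : ∀ z : X, ((pb Y u).out z).1.1 = z := fun z => (pb Y u).π_out z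
      rw [kp_smul (χ _).ne_zero (χ _).ne_zero (χ _).ne_zero, o, o, o]
  exact ⟨e ▸ h.1, (congrArg (fun k => hcls (lg3 k)) e).symm.trans (h.2.trans
    ((congrArg Subtype.val (map_c1 (pm Y u) χ).symm).trans
      (congrArg (fun f => H.map f _) (pm_map Y u))))⟩

/-- The normalised product of two vectors. -/
noncomputable def Barg_q (a b : m → ℂ) : ℂ := ip a b / ip a a

theorem Barg_lim {T : Type} {l : Filter T} {a b : T → m → ℂ} {v : m → ℂ} (hv : v ≠ 0)
    (ha : Tendsto a l (𝓝 v)) (hb : Tendsto b l (𝓝 v)) :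
    Tendsto (fun t => Barg_q (a t) (b t)) l (𝓝 1) := by
  have c : Continuous fun p : (m → ℂ) × (m → ℂ) => ip p.1 p.2 :=
    continuous_ip continuous_fst continuous_snd
  have := ((c.tendsto (v, v)).comp (ha.prodMk_nhds hb)).div
    ((c.tendsto (v, v)).comp (ha.prodMk_nhds ha)) (ip_self_ne hv)
  rwa [div_self (ip_self_ne hv)] at this

theorem Barg_exp {T : Type} {l : Filter T} {a : T → ℂ} (ha : Tendsto a l (𝓝 0)) :
    ∀ᶠ t in l, lg (Complex.exp (a t)) = a t / (2 * Real.pi * Complex.I) := by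
  filter_upwards [((Complex.continuous_im.tendsto 0).comp ha).eventually (Ioo_mem_nhds
    (show -Real.pi < (0 : ℂ).im by simpa using Real.pi_pos)
    (show (0 : ℂ).im < Real.pi by simpa using Real.pi_pos))] with t h
  rw [lg, Complex.log_exp h.1 h.2.le]

/-- The local comparison of two frames. -/
theorem Barg_loc {X : Type} [TopologicalSpace X] {s s' : X → m → ℂ} {l : X → ℂ} {p : X}
    (hs : ContinuousAt s p) (hs' : ContinuousAt s' p) (hl : ContinuousAt l p) (h0 : s p ≠ 0)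
    (he : ∀ᶠ x in 𝓝 p, s x = Complex.exp (l x) • s' x) :
    ∀ᶠ q : X × X × X in 𝓝 (p, p, p), lg (kp (s q.1) (s q.2.1) (s q.2.2)) =
      lg (Barg_q (s q.1) (s q.2.1)) + lg (Barg_q (s' q.2.1) (s' q.2.2)) -
        lg (Barg_q (s q.1) (s q.2.2)) + (l q.2.2 - l q.2.1) / (2 * Real.pi * Complex.I) := by
  have t1 : Tendsto (fun q : X × X × X => q.1) (𝓝 (p, p, p)) (𝓝 p) := continuous_fst.tendsto _
  have t2 : Tendsto (fun q : X × X × X => q.2.1) (𝓝 (p, p, p)) (𝓝 p) :=
    (continuous_fst.comp continuous_snd).tendsto _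
  have t3 : Tendsto (fun q : X × X × X => q.2.2) (𝓝 (p, p, p)) (𝓝 p) :=
    (continuous_snd.comp continuous_snd).tendsto _
  have h0' : s' p ≠ 0 := fun h => h0 (by rw [he.self_of_nhds, h, smul_zero])
  have t4 : Tendsto (fun q : X × X × X => l q.2.2 - l q.2.1) (𝓝 (p, p, p)) (𝓝 0) := by
    have := (hl.tendsto.comp t3).sub (hl.tendsto.comp t2)
    rwa [sub_self] at this
  have t5 : Tendsto (fun q : X × X × X => Complex.exp (l q.2.2 - l q.2.1)) (𝓝 (p, p, p))
      (𝓝 1) := Complex.exp_zero ▸ (Complex.continuous_exp.tendsto 0).comp t4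
  filter_upwards [lg_three (Barg_lim h0 (hs.tendsto.comp t1) (hs.tendsto.comp t2))
    (Barg_lim h0 (hs.tendsto.comp t2) (hs.tendsto.comp t3))
    (Barg_lim h0 (hs.tendsto.comp t1) (hs.tendsto.comp t3)),
    lg_three (Barg_lim h0' (hs'.tendsto.comp t2) (hs'.tendsto.comp t3)) t5 tendsto_const_nhds,
    Barg_exp t4, t2.eventually he, t3.eventually he, t1.eventually (hs.eventually_ne h0)]
    with q a1 a2 a3 a4 a5 a6
  simp only [comp_apply] at a1 a2
  have b1 : kp (s q.1) (s q.2.1) (s q.2.2) = Barg_q (s q.1) (s q.2.1) *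
      Barg_q (s q.2.1) (s q.2.2) / Barg_q (s q.1) (s q.2.2) := by
    have := ip_self_ne a6
    simp only [kp, Barg_q]
    field_simp
  have b2 : Barg_q (s q.2.1) (s q.2.2) =
      Barg_q (s' q.2.1) (s' q.2.2) * Complex.exp (l q.2.2 - l q.2.1) / 1 := by
    have := star_ne_zero.2 (Complex.exp_ne_zero (l q.2.1))
    have := Complex.exp_ne_zero (l q.2.1)
    simp only [Barg_q, a4, a5, ip_smul, smul_ip, Complex.exp_sub]
    field_simp
  rw [b1, a1, b2, a2, a3, lg_one]
  ring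

/-- The comparison of the cocycle of three vectors and the integral cocycle. -/
theorem Barg_coh {X ι : Type} [MetricSpace X] [Finite ι] {U : ι → Set X} (hU : ∀ i, IsOpen (U i))
    {s : ι → X → m → ℂ} {l : ι → ι → X → ℂ} {r : ι → ι → ι → ℂ} {c : X → ι} {ε : ℝ} (h0 : 0 < ε)
    (hc : ∀ x, Metric.ball x ε ⊆ U (c x)) (hs : ∀ i, ∀ x ∈ U i, ContinuousAt (s i) x)
    (hl : ∀ i j, ∀ x ∈ U i, x ∈ U j →
      ContinuousAt (l i j) x ∧ s i x = Complex.exp (l i j x) • s j x)
    (hr : ∀ i j k, ∀ x ∈ U i, x ∈ U j → x ∈ U k → l i j x + l j k x - l i k x = r i j k)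
    {G : X → m → ℂ} (hG : ∀ i, ∀ x ∈ U i, s i x ≠ 0 ∧ ∃ t : ℂ, t ≠ 0 ∧ G x = t • s i x) :
    supp (lg3 (fun a b c => kp (G a) (G b) (G c)) -
      Sf.c2 (fun x y z => -(Complex.I / (2 * Real.pi) * r (c x) (c y) (c z))) -
      δ (fn2 fun x y => lg (Barg_q (s (c x) x) (s (c x) y)) -
        l (c x) (c y) y / (2 * Real.pi * Complex.I))) = ∅ := by
  refine supp_eq_empty.2 fun p => van_two
    (((isDeg_fn3 _).sub (Sf.isDeg_c2 _)).sub (isDeg_fn2 _).δ) ?_
  have k : ∀ i : ι × ι, ∀ᶠ q : X × X × X in 𝓝 (p, p, p), p ∈ U i.1 → p ∈ U i.2 →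
      lg (kp (s i.1 q.1) (s i.1 q.2.1) (s i.1 q.2.2)) =
      lg (Barg_q (s i.1 q.1) (s i.1 q.2.1)) + lg (Barg_q (s i.2 q.2.1) (s i.2 q.2.2)) -
        lg (Barg_q (s i.1 q.1) (s i.1 q.2.2)) +
        (l i.1 i.2 q.2.2 - l i.1 i.2 q.2.1) / (2 * Real.pi * Complex.I) := fun i => by
    by_cases a : p ∈ U i.1 ∧ p ∈ U i.2
    · exact (Barg_loc (hs _ _ a.1) (hs _ _ a.2) (hl _ _ _ a.1 a.2).1 (hG _ _ a.1).1
        ((((hU _).eventually_mem a.1).and ((hU _).eventually_mem a.2)).mono fun x b =>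
          (hl _ _ _ b.1 b.2).2)).mono fun _ b _ _ => b
    · exact .of_forall fun _ b b' => (a ⟨b, b'⟩).elim
  have b := Metric.ball_mem_nhds p (half_pos h0)
  have n : ∀ {x y}, x ∈ Metric.ball p (ε / 2) → y ∈ Metric.ball p (ε / 2) → x ∈ U (c y) :=
    fun {x y} a a' => hc y ((dist_triangle_right x y p).trans_lt
      ((add_lt_add a a').trans_eq (add_halves ε)))
  have o := Metric.mem_ball_self (x := p) (half_pos h0)
  filter_upwards [eventually_all.2 k, (continuous_fst.tendsto (p, p, p)).eventually b,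
    ((continuous_fst.comp continuous_snd).tendsto (p, p, p)).eventually b,
    ((continuous_snd.comp continuous_snd).tendsto (p, p, p)).eventually b] with q a a1 a2 a3
  obtain ⟨x, y, z⟩ := q
  have a4 := a (c x, c y) (n o a1) (n o a2)
  obtain ⟨-, t1, d1, e1⟩ := hG _ _ (n a1 a1)
  obtain ⟨-, t2, d2, e2⟩ := hG _ _ (n a2 a1)
  obtain ⟨-, t3, d3, e3⟩ := hG _ _ (n a3 a1)
  have a5 := hr _ _ _ _ (n a3 a1) (n a3 a2) (n a3 a3)
  simp only [comp_apply] at a4 a5 e1 e2 e3
  rw [Coch.sub_val, Pi.sub_apply, Coch.sub_val, Pi.sub_apply, δ_val_three, Sf.c2_val]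
  change lg (kp (G x) (G y) (G z)) - _ - ((_ - _) - (_ - _) + (_ - _)) = 0
  have hp : (Real.pi : ℂ) ≠ 0 := by exact_mod_cast Real.pi_ne_zero
  have hI : Complex.I / (2 * Real.pi) = -(2 * Real.pi * Complex.I)⁻¹ := by
    field_simp
    rw [Complex.I_sq]
  rw [e1, e2, e3, kp_smul d1 d2 d3, a4, ← a5, hI]
  ring

variable {X : Type} [MetricSpace X] [CompactSpace X] [ChartedSpace C2 X]
  [IsManifold 𝓘(ℂ, C2) ω X]

/-- The class of a zigzag. -/
theorem Barg_key {ι : Type} {U : ι → Set X} (hU : ∀ i, IsOpen (U i)) {F : TwoF X} (Z : Zig U F)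
    (t : ℂ) {c : X → ι} {ε : ℝ} (h0 : 0 < ε) (h2 : ∀ x, Metric.ball x ε ⊆ U (c x)) :
    ∃ a : Zs X, a.1 = Sf.c2 (fun x y z => -(t * Z.r (c x) (c y) (c z))) ∧
      Sf.Fn fun _ P => ExactTwo (t • F - Sf.WC P a.1) := by
  refine ⟨⟨_, Sf.Cls_cocycle fun p =>
    ⟨_, Metric.ball_mem_nhds p h0, fun x hx y hy z hz w hw => ?_⟩⟩, rfl, ε, h0, fun n P hP => ?_⟩
  · have := Z.isCoc _ _ _ _ p (h2 x (Metric.mem_ball_comm.1 hx)) (h2 y (Metric.mem_ball_comm.1 hy))
      (h2 z (Metric.mem_ball_comm.1 hz)) (h2 w (Metric.mem_ball_comm.1 hw))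
    linear_combination -t * this
  · let S := Sf.Cls_part P (fun a => U (c (P.v a))) (fun a => hU _) fun a x hx => h2 _ (hP a x hx)
    obtain ⟨A, h3, h4⟩ :=
      ((Z.comp (fun a => c (P.v a)) (V := S.U) fun _ => subset_rfl).exact S).smul t
    refine ⟨A, h3, h4.symm.trans ?_⟩
    rw [smul_add, ← S.W_smul, sub_eq_add_neg, ← neg_neg (S.W _), ← S.W_neg, P267.H994.W_eq_WF]
    rfl

variable (X) in
/-- **The Chern form represents the first Chern class.** -/
theorem barg : Barg X 1 := by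
  intro A φ v c h1 h2 h3
  have := ChartedSpace.locallyCompactSpace C2 X
  have : Nice X := ⟨inferInstance, inferInstance, inferInstance⟩
  have H := formFacts (curvThm X)
  obtain ⟨n, U, u1, u2⟩ := Sf.Cls_good X
  choose w w1 w2 using fun a => P267.H995.exists_frame A.L (u1.isOpen a) (u1.frame a)
  let Fr : DFrames A.L.P U := DFrames.ofSec A.L U w (fun a k x hx => w1 a k x hx)
    (fun a x hx => (w2 a x hx).1) (fun a x hx => (w2 a x hx).2)
  obtain ⟨LD⟩ := P267.H995.exists_logData Fr u1.isOpen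
    (fun a b h => (u1.two a b h).isSimplyConnected h) u1.three
  obtain ⟨ε, h0, h4⟩ := lebesgue_number_lemma_of_metric isCompact_univ u1.isOpen
    fun x _ => mem_iUnion.2 (u2 x)
  choose k h5 using fun x => h4 x trivial
  obtain ⟨a, a1, a2⟩ := Barg_key u1.isOpen (LD.zig u1.isOpen) (Complex.I / (2 * Real.pi)) h0 h5
  let D : EuclideanSpace ℂ A.ι → A.ι → ℂ := fun b => (ip b.ofLp b.ofLp)⁻¹ • star b.ofLp
  have n0 : ∀ {b : EuclideanSpace ℂ A.ι}, b ≠ 0 → b.ofLp ≠ 0 := fun h e =>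
    h ((WithLp.ofLp_eq_zero _).1 e)
  have g0 : ∀ z, D (v z z) ≠ 0 := fun z => have e := n0 (h2 z).self_of_nhds.2.1
    smul_ne_zero (inv_ne_zero (ip_self_ne e)) (star_ne_zero.2 e)
  obtain ⟨c1, c2⟩ := h3.eq_kp g0 fun x => by
    have e := (h2 x).self_of_nhds
    have e1 : ContinuousAt (fun y => (v x y).ofLp) x :=
      (PiLp.continuous_ofLp _ _).continuousAt.comp e.1.continuousAt
    have e2 : ContinuousAt (fun y => ip (v x y).ofLp (v x y).ofLp) x :=
      (continuous_ip (f := id) (g := id) continuous_id continuous_id).continuousAt.comp e1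
    refine ((e2.inv₀ (ip_self_ne (n0 e.2.1))).smul e1.star).congr ((h2 x).mono fun y b => ?_)
    have := star_ne_zero.2 (h1.ne x y)
    have := h1.ne x y
    change (ip (v x y).ofLp (v x y).ofLp)⁻¹ • star (v x y).ofLp =
      (φ x y)⁻¹ • (ip (v y y).ofLp (v y y).ofLp)⁻¹ • star (v y y).ofLp
    rw [b.2.2.2, WithLp.ofLp_smul, ip_smul, smul_ip, star_smul, smul_smul, smul_smul]
    congr 1
    field_simp
  have c3 := Barg_coh (s := fun i x j => Fr.v i j x) (l := LD.l) (r := (LD.zig u1.isOpen).r)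
    (G := fun z => D (v z z)) u1.isOpen h0 h5
    (fun i x hx => continuousAt_pi.2 fun j => (Fr.smv i j x hx).continuousAt)
    (fun i j x hi hj => ⟨(LD.sm i j x hi hj).continuousAt, funext fun b => by
      rw [Pi.smul_apply, smul_eq_mul, LD.exp i j x hi hj]
      exact DFrames.v_eq hj hi b⟩)
    (fun i j b x => LD.coc i j b x) fun i x hx => by
      have e : D (v x x) = ((ip (v x x).ofLp (v x x).ofLp)⁻¹ *
          ∑ b, star ((v x x).ofLp b) * Fr.u i b x) • fun j => Fr.v i j x := by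
        rw [mul_smul]
        refine congrArg ((ip (v x x).ofLp (v x x).ofLp)⁻¹ • ·) (funext fun j => ?_)
        have e1 : (A.L.P x).mulVec (v x x).ofLp = (v x x).ofLp :=
          congrArg WithLp.ofLp (h2 x).self_of_nhds.2.2.1
        have e2 := congrFun (congrArg star e1) j
        rw [Matrix.star_mulVec, A.L.herm] at e2
        rw [← e2, Pi.smul_apply, smul_eq_mul, Finset.sum_mul]
        exact Finset.sum_congr rfl fun b _ => by rw [mul_assoc, ← Fr.eq i x hx]; rfl
      exact ⟨fun h => g0 x (by rw [e, h, smul_zero]), _,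
        fun h => g0 x (by rw [e, h, zero_smul]), e⟩
  rw [← a1] at c3
  exact ⟨⟨H.smooth_smul _ _ (H.curv_smooth A), H.closed_smul _ _ (H.curv_smooth A)
    (H.curv_closed A)⟩, a, a1 ▸ Sf.isDeg_c2 _, by
      rw [one_smul, ← c2, hcls_eq_of_cohom a.2 c3, hcls_val], a2⟩

/-- **The universal constant.** -/
theorem stBarg : StBarg := ⟨1, fun X _ _ _ _ => barg X⟩

end Vale.Agent.P287Q.D
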