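import Vale.Agent.P287Q.D.St
import Vale.Agent.P267.H451.Glue
import Vale.Agent.P267.H821.Exist
import Vale.Agent.P267.H365.Frame
import Vale.Agent.P267.H399.LBTensor
import Vale.Agent.P267.H399.LBCurv
import Vale.Agent.P267.H533.Bump

/-!
# Line bundles given by frames and line bundles given by projectors
-/

set_option linter.unusedSectionVars false

namespace Vale.Agent.P287Q.D

open Set Function Topology Filter P267.FL P267.BlockC P267.RR
open P267.H451 (FrameAt Sm GlueData)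
open P267.H365 (dfr)
open P267.H821 (coef)
open scoped ContDiff Manifold

variable {X : Type} [TopologicalSpace X] [ChartedSpace C2 X] [IsManifold 𝓘(ℂ, C2) ω X]

section fr

variable {ι : Type} [Fintype ι] [DecidableEq ι] {L : LB X ι} {a : X → Fin 2 → ℂ}
  {v : X → EuclideanSpace ℂ ι} {x : X} {κ : ℤ} {c : X → ℂ}

theorem fr_at (h : FrameAt L a v x) : At0 ∞ 0 v x := at0_zero_iff.2 h.sm

theorem fr_sm (h : At0 ∞ 0 v x) : Sm v x := at0_zero_iff.1 h

theorem fr_db0 (h : FrameAt L a v x) (hc : At0 1 κ c x) (i : Fin 2) :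
    L.db0 a κ (fun z => c z • v z) x i = dbar0 κ c x i • v x := by
  have := LB.db0_smul' (L := L) (a := a) hc ((fr_at h).of_le (by simp)) h.sec i
  rwa [add_zero, h.hol, smul_zero, add_zero] at this

theorem at0_coef {n : WithTop ℕ∞} (hv : At0 n 0 v x) (h0 : v x ≠ 0)
    (h : At0 n κ (fun z => c z • v z) x) : At0 n κ c x := by
  obtain ⟨k, hk⟩ : ∃ k, v x k ≠ 0 := Function.ne_iff.1 (P267.H451.ofLp_ne h0)
  have h3 : At0 n 0 (fun z => v z k) x := hv.clm (LB.ev k)
  refine ((h3.inv0 hk).mul (h.clm (LB.ev k))).congr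
    ((h3.continuousAt.eventually_ne hk).mono fun z hz => ?_)
  change c z = (v z k)⁻¹ * (c z * v z k)
  field_simp

/-- Holomorphic sections are holomorphic multiples of a frame. -/
theorem fr_iff (hv : ∀ᶠ y in 𝓝 x, FrameAt L a v y) : HolAt κ c x ↔ ∀ᶠ y in 𝓝 x,
    At0 ∞ κ (fun z => c z • v z) y ∧ L.db0 a κ (fun z => c z • v z) y = 0 := by
  refine ⟨fun h => ?_, fun h => holAt_of_dbar0 ?_⟩
  · filter_upwards [hv, h.eventually] with y h1 h2
    refine ⟨by simpa using h2.at0.smul' (fr_at h1), funext fun i => ?_⟩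
    rw [fr_db0 h1 h2.at0, h2.dbar0]
    simp
  · filter_upwards [hv, h] with y h1 h2
    have h4 : At0 1 κ c y := (at0_coef (fr_at h1) h1.ne h2.1).of_le (by simp)
    refine ⟨h4, funext fun i => ?_⟩
    have := congrFun h2.2 i
    rw [fr_db0 h1 h4] at this
    exact (smul_eq_zero.1 this).resolve_right h1.ne

theorem fr_dual (hv : ∀ᶠ y in 𝓝 x, FrameAt L a v y) :
    FrameAt L.dual (-a) (fun z => dfr (v z)) x := by
  have h := hv.self_of_nhds
  have h1 := P267.H365.at0_dfr (fr_at h) h.ne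
  have h2 := P267.H365.act_dfr h.sec h.ne
  have h3 : ∀ w : EuclideanSpace ℂ ι, w ≠ 0 → LB.bp w (dfr w) = 1 := fun w hw =>
    (LB.bp_comm _ _).trans (P267.H365.pr_dfr hw)
  refine ⟨at0_zero_iff.1 h1, fun e => ?_, h2, fun i => ?_⟩
  · have := h3 _ h.ne
    rw [e, LB.bp_zero_right] at this
    exact zero_ne_one this
  · have h4 := LB.dbar0_bp (L := L) (a := a) ((fr_at h).of_le (by simp)) (h1.of_le (by simp))
      h.sec h2 i
    rw [add_zero, P267.H451.dbar0_congr (hv.mono fun y hy => h3 _ hy.ne),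
      (ho_iff.1 (ho_const (1 : ℂ))).dbar0, h.hol, LB.bp_zero_left, zero_add] at h4
    refine (LB.bp_eq_zero L h.sec ?_ h4.symm).resolve_left h.ne
    rw [LB.db0, LB.act_add, LB.act_act_P, LB.act_smul, h2]

theorem sec_K : (SB.K X ^ κ).Sec c x ↔ HolAt κ c x := by
  refine analyticAt_congr ?_
  filter_upwards [chart_target_mem_nhds C2 x] with z hz
  rw [SB.zpow_φ, SB.K_φ ((chartAt C2 x).map_target hz), loc0, inv_zpow, div_inv_eq_mul,
    smul_eq_mul, mul_comm]

theorem ho_iff_holAt : Ho c x ↔ HolAt 0 c x := by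
  rw [← sec_K, zpow_zero, SB.sec_one]

end fr

namespace Rl

variable {M M' : SB X} (R : Rl M) (R' : Rl M') {x : X} {κ : ℤ} {s : X → ℂ}

theorem v_sec (y : X) : LB.act (R.A.L.P y) (R.v y y) = R.v y y := (R.fr y).self_of_nhds.1.sec

theorem v_ne (y : X) : R.v y y ≠ 0 := (R.fr y).self_of_nhds.1.ne

theorem sec_iff : (M * SB.K X ^ κ).Sec s x ↔ ∀ᶠ y in 𝓝 x, At0 ∞ κ (fun z => s z • R.v z z) y ∧
    R.A.L.db0 R.a κ (fun z => s z • R.v z z) y = 0 := by
  have e : (M * SB.K X ^ κ).Sec s x ↔ (SB.K X ^ κ).Sec (fun z => s z / M.φ x z) x := by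
    simp only [SB.Sec, SB.mul_φ, div_div]
  rw [e, sec_K, fr_iff ((R.fr x).mono fun _ h => h.1)]
  refine eventually_congr ((R.fr x).eventually_nhds.mono fun y hy => ?_)
  have e2 : (fun z => (s z / M.φ x z) • R.v x z) =ᶠ[𝓝 y] fun z => s z • R.v z z :=
    hy.mono fun z hz => by
      simp only [hz.2, smul_smul, div_mul_cancel₀ _ (M.ne x z)]
  rw [LB.db0_congr e2]
  exact and_congr_left' ⟨fun h => h.congr e2.symm, fun h => h.congr e2⟩

theorem mem_H0 : (fun z => s z • R.v z z) ∈ H0 R.A.L R.a κ ↔ s ∈ (M * SB.K X ^ κ).Γ := by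
  rw [P267.RR.mem_H0, SB.mem_Γ, reg0_iff_at]
  exact ⟨fun h x => R.sec_iff.2 (.of_forall fun y => ⟨h.1.1 y, congrFun h.2 y⟩), fun h =>
    ⟨⟨fun x => (R.sec_iff.1 (h x)).self_of_nhds.1, fun x => by rw [LB.act_smul, R.v_sec]⟩,
      funext fun x => (R.sec_iff.1 (h x)).self_of_nhds.2⟩⟩

/-- The section of the realisation that belongs to a function. -/
noncomputable def lm : (X → ℂ) →ₗ[ℂ] (X → EuclideanSpace ℂ R.A.ι) where
  toFun s z := s z • R.v z z
  map_add' _ _ := funext fun _ => add_smul _ _ _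
  map_smul' _ _ := funext fun _ => mul_smul _ _ _

theorem lm_inj : Injective R.lm := fun _ _ e =>
  funext fun z => smul_left_injective ℂ (R.v_ne z) (congrFun e z)

theorem map_Γ (κ : ℤ) : (M * SB.K X ^ κ).Γ.map R.lm = H0 R.A.L R.a κ := by
  refine le_antisymm (fun _ ⟨_, h, e⟩ => e ▸ R.mem_H0.2 h) fun t ht => ?_
  choose c hc using fun y =>
    R.A.L.fibre_smul y (R.v_sec y) (((P267.RR.mem_H0 _ _ _).1 ht).1.2 y) (R.v_ne y)
  obtain rfl : t = fun z => c z • R.v z z := funext hc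
  exact ⟨c, R.mem_H0.1 ht, rfl⟩

/-- Sections of the bundle and of its realisation. -/
noncomputable def eqv (κ : ℤ) : (M * SB.K X ^ κ).Γ ≃ₗ[ℂ] H0 R.A.L R.a κ :=
  (Submodule.equivMapOfInjective _ R.lm_inj _).trans (LinearEquiv.ofEq _ _ (R.map_Γ κ))

theorem h0_eq (κ : ℤ) : h0 R.A.L R.a κ = (M * SB.K X ^ κ).h0 := (R.eqv κ).finrank_eq.symm

/-- The dual realisation. -/
noncomputable def dual : Rl M⁻¹ where
  A := ⟨R.A.ι, R.A.L.dual⟩
  a := -R.a
  v x y := dfr (R.v x y)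
  hol := R.hol.dual
  fr x := (R.fr x).eventually_nhds.mono fun y h => ⟨fr_dual (h.mono fun _ k => k.1), by
    rw [h.self_of_nhds.2, P267.H365.dfr_smul (M.ne x y), SB.inv_φ]⟩

/-- The tensor product of realisations. -/
noncomputable def mul : Rl (M * M') where
  A := ⟨R.A.ι × R'.A.ι, R.A.L.tensor R'.A.L⟩
  a y := R.a y + R'.a y
  v x y := LB.ten (R.v x y) (R'.v x y)
  hol := R.hol.tensor R'.hol
  fr x := ((R.fr x).and (R'.fr x)).mono fun y ⟨h, k⟩ => ⟨⟨fr_sm (by
      simpa using LB.at0_ten (fr_at h.1) (fr_at k.1)), LB.ten_ne_zero h.1.ne k.1.ne, by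
      rw [LB.act_tensor_P, h.1.sec, k.1.sec], fun i => by
      have := LB.db0_ten (a := R.a) (a' := R'.a) ((fr_at h.1).of_le (by simp))
        ((fr_at k.1).of_le (by simp)) h.1.sec k.1.sec i
      rw [add_zero, h.1.hol, k.1.hol] at this
      refine this.trans ?_
      ext p
      simp [LB.ten_apply]⟩, by
    rw [h.2, k.2, LB.ten_smul_left, LB.ten_smul_right, smul_smul, SB.mul_φ]⟩

theorem isCanon (R : Rl (SB.K X)) : IsCanon R.A.L := by
  have h : (1 : X → ℂ) ∈ (SB.K X * SB.K X ^ (-1 : ℤ)).Γ := by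
    rw [zpow_neg_one, mul_inv_cancel]
    exact fun x => SB.sec_one.2 (ho_const (1 : ℂ))
  have k := ((P267.RR.mem_H0 _ _ _).1 (R.mem_H0.2 h)).1
  exact ⟨_, k.1, k.2, fun x => smul_ne_zero one_ne_zero (R.v_ne x)⟩

end Rl

theorem SB.exists_nhds (M : SB X) (x : X) : ∃ U, IsOpen U ∧ x ∈ U ∧ ∀ y ∈ U, M.Sec (M.φ x) y :=
  let ⟨U, h1, h2, h3⟩ := eventually_nhds_iff.1 (M.sec_φ x)
  ⟨U, h2, h3, h1⟩

variable (X)

/-- **Realisations exist.** -/
theorem stRl [T2Space X] [CompactSpace X] : StRl X := fun M => by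
  classical
  choose U h1 h2 h3 using M.exists_nhds
  choose χ k1 k2 k3 k4 k5 using fun x => P267.H533.exists_bump_at (h1 x) (h2 x)
  obtain ⟨t, -, ht⟩ := isCompact_univ.elim_nhds_subcover (fun x : X => {y | χ x y = 1})
    (fun x _ => k5 x)
  let w : X → EuclideanSpace ℂ t := fun y => WithLp.toLp 2 fun i => χ i y / M.φ i y
  have hw : ∀ y, w y ≠ 0 := fun y e => by
    obtain ⟨p, hp, hy⟩ := mem_iUnion₂.1 (ht (mem_univ y))
    have : ((χ p y : ℝ) : ℂ) / M.φ p y = 0 := congrArg (fun u : EuclideanSpace ℂ t => u ⟨p, hp⟩) e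
    rw [show χ p y = 1 from hy] at this
    exact div_ne_zero (by simp) (M.ne p y) this
  have hq : ∀ x x' y, y ∈ U x → y ∈ U x' → P267.H451.Hol (fun z => M.φ x z / M.φ x' z) y :=
    fun x x' y a b => (h3 x y a).hol_div (h3 x' y b) (M.ne x' y)
  let G : GlueData X t X :=
    { U := U
      v := fun x y => M.φ x y • w y
      isOpen := h1
      cover := fun x => ⟨x, h2 x⟩
      sm := fun x y hy => P267.H451.sm_euclid.2 fun i => by
        by_cases h : y ∈ tsupport (χ i)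
        · refine ((P267.H451.sm_of_reg0 (k1 i).reg y).mul
            (hq x i y hy (k3 i h).2).sm).congr (.of_forall fun z => ?_)
          change M.φ x z * (_ / _) = _
          ring
        · refine (Sm.const (0 : ℂ)).congr
            ((notMem_tsupport_iff_eventuallyEq.1 h).mono fun z hz => ?_)
          change M.φ x z * (_ / _) = _
          simp [hz]
      ne := fun x y _ => smul_ne_zero (M.ne x y) (hw y)
      change := fun x x' => ⟨_, fun y hy => ⟨hq x x' y hy.1 hy.2, by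
        rw [smul_smul, div_mul_cancel₀ _ (M.ne x' y)]⟩⟩ }
  exact ⟨⟨⟨t, G.L⟩, G.a, G.v, P267.H451.isHol_of_frames fun x =>
    ⟨G.v x, U x, h1 x, h2 x, fun y hy => G.frameAt (β := x) hy⟩, fun x =>
    Eventually.mono ((h1 x).mem_nhds (h2 x)) fun y hy =>
      ⟨G.frameAt (β := x) hy, by simp only [G, M.self, one_smul]⟩⟩⟩

variable {X} in
open Classical in
/-- The transition functions of local frames. -/
theorem exists_frs (A : ALB X) (e : X → X → EuclideanSpace ℂ A.ι)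
    (h : ∀ x, ∀ᶠ y in 𝓝 x, e x y ≠ 0 ∧ LB.act (A.L.P y) (e x y) = e x y) :
    ∃ φ : X → X → ℂ, (∀ x, φ x x = 1) ∧ (∀ x y, φ x y ≠ 0) ∧
      (∀ x, ∀ᶠ y in 𝓝 x, e x y = φ x y • e y y) ∧
      ∀ x, ∀ᶠ y in 𝓝 x, ∀ᶠ z in 𝓝 y, (φ x z / φ y z) • e y z = e x z := by
  let φ : X → X → ℂ := fun x y => if k : ∃ c : ℂ, c ≠ 0 ∧ e x y = c • e y y then k.choose else 1
  have h1 : ∀ x y, φ x y ≠ 0 := fun x y => by
    simp only [φ]
    split_ifs with k
    exacts [k.choose_spec.1, one_ne_zero]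
  have h2 : ∀ x, ∀ᶠ y in 𝓝 x, e x y = φ x y • e y y := fun x => (h x).mono fun y hy => by
    obtain ⟨c, hc⟩ := A.L.fibre_smul y (h y).self_of_nhds.2 hy.2 (h y).self_of_nhds.1
    have k : ∃ c : ℂ, c ≠ 0 ∧ e x y = c • e y y :=
      ⟨c, fun k => hy.1 (by rw [hc, k, zero_smul]), hc⟩
    simp only [φ, dif_pos k]
    exact k.choose_spec.2
  refine ⟨φ, fun x => smul_left_injective ℂ (h x).self_of_nhds.1
    ((h2 x).self_of_nhds.symm.trans (one_smul _ _).symm), h1, h2, fun x =>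
    (h2 x).eventually_nhds.mono fun y hy => (hy.and (h2 y)).mono fun z hz => ?_⟩
  rw [hz.2, smul_smul, div_mul_cancel₀ _ (h1 y z), ← hz.1]

/-- **Every holomorphic structure is a realisation.** -/
theorem stRl' : StRl' X := fun A a ha => by
  choose U e h1 h2 using P267.H821.exists_holFrame ha
  have h3 : ∀ x, ∀ᶠ y in 𝓝 x, FrameAt A.L a (e x) y := fun x =>
    Eventually.mono ((h2 x).isOpen.mem_nhds (h1 x)) fun y hy =>
      ⟨(h2 x).reg _ (chart_mem_atlas C2 y) _ (mem_chart_target C2 y) (by rwa [symm_chart]),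
        (h2 x).ne y hy, (h2 x).sec y hy, congrFun ((h2 x).hol y hy)⟩
  obtain ⟨φ, k1, k2, k3, k4⟩ := exists_frs A e fun x => (h3 x).mono fun _ h => ⟨h.ne, h.sec⟩
  refine ⟨⟨φ, k1, k2, fun x => ?_⟩, ⟨A, a, e, ha, fun x => (h3 x).and (k3 x)⟩, rfl⟩
  filter_upwards [(h3 x).eventually_nhds, k4 x] with y a1 a2
  rw [ho_iff_holAt, fr_iff (h3 y)]
  filter_upwards [a1, a2.eventually_nhds] with z b1 b2
  exact ⟨(fr_at b1).congr b2, (LB.db0_congr b2).trans (funext b1.hol)⟩

/-- **Every smooth line bundle has frames.** -/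
theorem stFrs : StFrs X := fun A => by
  choose e h1 h2 h3 using A.L.exists_section
  obtain ⟨φ, k1, k2, k3, k4⟩ := exists_frs A e fun x => (h3 x).mono fun y h => ⟨h, h2 x y⟩
  exact ⟨φ, e, ⟨k1, k2, fun x => (k4 x).mono fun y h =>
    (at0_coef ((h1 y).at y) (h3 y).self_of_nhds (((h1 x).at y).congr h)).continuousAt⟩,
    fun x => ((h3 x).and (k3 x)).mono fun y h =>
      ⟨P267.H451.sm_of_reg0 (h1 x) y, h.1, h2 x y, h.2⟩⟩

end Vale.Agent.P287Q.D
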