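import Vale.Agent.P287Q.Sf.Api
import Vale.Agent.P287Q.Sf.W
import Vale.Agent.P287Q.Sf.Hg
import Vale.Agent.P287Q.Sf.SApi
import Vale.Agent.P287Q.Sf.Smo
import Vale.Agent.P287Q.Sf.Prs
import Vale.Agent.P287Q.Sf.D1
import Vale.Agent.P287Q.Sf.D2
import Vale.Agent.P267.H995.Pz

/-!
# The Lefschetz theorem on classes of type `(1, 1)` on a compact complex surface
-/

set_option linter.unusedSectionVars false

namespace Vale.Agent.P287Q.D

open Set Function Topology Filter P291Z P267.FL P267.BlockC P267.RR Sf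
open P267.H533 (AX Part ψC RSm)
open P267.H995 (SqPart IsCoc)
open P287Q.Zc (Lk)
open P287Q.Mf (IsHg)
open scoped ContDiff Manifold

variable {X : Type} [MetricSpace X] [CompactSpace X] [ChartedSpace C2 X]
  [IsManifold 𝓘(ℂ, C2) ω X]

variable (X) in
theorem api : Api X := api_of fine w0 w1

variable (X) in
theorem hapi : HApi X := Hg_api fine w0 (api X) sapi smo_st prs_st d1 d2

/-- A smooth cocycle is represented by its form. -/
theorem rp_of_sm (a : Zs X) (ha : IsDeg 2 a.1) (hs : Sm 2 a.1) :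
    ∃ F, SRp F a.1 ∧ Rp F (H.mk a) := Hg_of_sm fine w0 (api X) sapi smo_st prs_st d1 a ha hs

/-- Fine partitions of unity by squares. -/
theorem exists_sq {η : ℝ} (hη : 0 < η) : ∃ (n : ℕ) (S : SqPart X (Fin n))
    (P : Part (AX X) (Fin n)), P.Fine η ∧ (S.U = fun i => Metric.ball (P.v i) η) ∧
      S.toPart.ψ = ψC P := by
  classical
  have hb : ∀ x : X, ∃ χ : X → ℝ, RSm χ ∧ HasCompactSupport χ ∧
      tsupport χ ⊆ (chartAt C2 x).source ∩ Metric.ball x η ∧
      (∀ y, 0 ≤ χ y ∧ χ y ≤ 1) ∧ ∀ᶠ y in 𝓝 x, χ y = 1 := fun x =>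
    P267.H533.exists_bump_at Metric.isOpen_ball (Metric.mem_ball_self hη)
  choose χ h1 h2 h3 h4 h5 using hb
  obtain ⟨t, -, ht⟩ := isCompact_univ.elim_nhds_subcover (fun x : X => {y | χ x y = 1})
    (fun x _ => h5 x)
  let v : Fin t.card → X := fun i => (t.equivFin.symm i : t)
  have hq : ∀ x, 0 < ∑ a, χ (v a) x ^ 2 := fun x => by
    obtain ⟨y, hy, hxy⟩ := mem_iUnion₂.1 (ht (mem_univ x))
    have ha : χ (v (t.equivFin ⟨y, hy⟩)) x = 1 := by simpa [v] using hxy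
    exact Finset.sum_pos' (fun _ _ => sq_nonneg _) ⟨_, Finset.mem_univ _, by rw [ha]; norm_num⟩
  have hqs : RSm fun x => ∑ a, χ (v a) x ^ 2 :=
    RSm.sum _ fun a _ => (h1 (v a)).comp (g := fun s => s ^ 2) (by fun_prop)
  have hw : RSm fun x => (√(∑ a, χ (v a) x ^ 2))⁻¹ := fun e he =>
    ((hqs e he).sqrt fun z _ => (hq (e.symm z)).ne').inv fun z _ =>
      (Real.sqrt_pos.2 (hq (e.symm z))).ne'
  let φ : Fin t.card → X → ℝ := fun a x => χ (v a) x * (√(∑ a, χ (v a) x ^ 2))⁻¹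
  have k1 : ∀ a, RSm (φ a) := fun a => (h1 (v a)).mul hw
  have k2 : ∀ a, tsupport (φ a) ⊆ Metric.ball (v a) η := fun a x hx =>
    (h3 (v a) (tsupport_mul_subset_left hx)).2
  have k3 : ∀ x, ∑ a, φ a x ^ 2 = 1 := fun x => by
    simp only [φ, mul_pow, ← Finset.sum_mul, inv_pow, Real.sq_sqrt (hq x).le]
    exact mul_inv_cancel₀ (hq x).ne'
  let S : SqPart X (Fin t.card) :=
    ⟨fun a => Metric.ball (v a) η, fun _ => Metric.isOpen_ball, φ, fun a => (k1 a).reg, k2, k3⟩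
  refine ⟨t.card, S, ⟨fun a => ⟨fun x => φ a x ^ 2, P267.H533.mem_AX_of_compact
    ((k1 a).comp (g := fun s => s ^ 2) (by fun_prop))⟩, v, ?_⟩,
    fun a x hx => S.toPart.supp a hx, rfl, rfl⟩
  apply Subtype.ext
  funext x
  rw [AddSubmonoidClass.coe_finsetSum, Finset.sum_apply]
  exact k3 x

theorem pi_ne : (Real.pi : ℂ) ≠ 0 := by exact_mod_cast Real.pi_ne_zero

/-- Every integral class of degree two is the Chern class of a line bundle. -/
theorem exists_lb {c : H X} (hc : c ∈ Lk X 2) : ∃ L : ALB X, Rp (ch1 L) c := by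
  obtain ⟨⟨a, hz, hc, rfl⟩, hd⟩ := hc
  have hd' : H.IsDeg 2 (hcls a) := hd
  let b : Zs X := ⟨comp 2 a, cocycle_comp hc 2⟩
  obtain ⟨η, h0, h1⟩ := Api_rp w0 b (isDeg_comp 2 a)
  obtain ⟨η', h0', h2⟩ := Wh.ball (a := δ b.1) b.2
  obtain ⟨n, S, P, p1, p2, p3⟩ := exists_sq (X := X) (lt_min h0 h0')
  choose z hz' using fun l => Zc.mem_ZZ.1 (hz.comp 2 l)
  have k1 := Wh.isCoc (a := b.1) (η := min η η')
    (fun x l hl => h2 x l fun y hy => (hl y hy).trans_le (min_le_right _ _)) P.v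
  have k2 : IsCoc S.U fun i j k => z [P.v i, P.v j, P.v k] := fun i j k l x hi hj hk hl => by
    rw [p2] at hi hj hk hl
    have := k1 i j k l x hi hj hk hl
    simp only [b, hz'] at this
    exact_mod_cast this
  have k3 := h1 n P fun a x hx => (p1 a x hx).trans_le (min_le_left _ _)
  have k4 : ch1 ⟨Fin n, S.lb _ k2⟩ = WC P b.1 := by
    rw [ch1, SqPart.curv_lb, smul_smul, P267.H994.W_eq_WF, p3, WC]
    have : Complex.I / (2 * Real.pi) * -(2 * Real.pi * Complex.I) = 1 := by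
      field_simp [pi_ne]
      simp
    simp only [this, one_smul, b, hz']
  refine ⟨⟨Fin n, S.lb _ k2⟩, ?_⟩
  rw [k4, ← hd'.comp_eq, H.comp_hcls 2 hc, hcls_of_mem (cocycle_comp hc 2)]
  exact k3

/-- A line bundle whose Chern class is of type `(1, 1)` has a holomorphic structure. -/
theorem exists_hol {L : ALB X} {c : H X} (h : Rp (ch1 L) c) (hc : IsHg 2 1 1 c) :
    ∃ a, L.L.IsHol a := by
  obtain ⟨F, f1, f2⟩ := ((hapi X).hg11 c).1 hc
  obtain ⟨A, a1, a2⟩ := (api X).exact _ _ c h f2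
  refine ⟨(2 * Real.pi * Complex.I : ℂ) • A.f01, Reg1.smul _ a1.s01, fun x => ?_⟩
  have e : dbar1 0 A.f01 x = Complex.I / (2 * Real.pi) * L.L.F02 x - F.f02 x :=
    congrFun (congrArg TwoF.f02 a2) x
  rw [P267.RR.dbar1_smul _ a1.s01, Pi.smul_apply, e, f1.2]
  simp only [smul_eq_mul, Pi.zero_apply]
  field_simp [pi_ne]
  linear_combination L.L.F02 x * Complex.I_mul_I

/-- **Lefschetz.** Integral classes of type `(1, 1)` are Chern classes of holomorphic bundles. -/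
theorem lef {c : H X} (hc : c ∈ Lk X 2) (h : IsHg 2 1 1 c) :
    ∃ (L : ALB X) (a : X → Fin 2 → ℂ), L.L.IsHol a ∧ Rp (ch1 L) c :=
  let ⟨L, k⟩ := exists_lb hc
  let ⟨a, ha⟩ := exists_hol k h
  ⟨L, a, ha, k⟩

end Vale.Agent.P287Q.D
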