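import Vale.Agent.P287Q.D.St
import Vale.Agent.P287Q.D.Lef
import Vale.Agent.P287Q.Sf.Main
import Vale.Agent.P287Q.Sf.Pair
import Vale.Agent.P287Q.Sf.Pt
import Vale.Agent.P287Q.Sf.Cls

/-!
# Chern forms and Chern classes on a compact complex surface
-/

set_option linter.unusedSectionVars false

namespace Vale.Agent.P287Q.D

open Set Function Topology Filter P291Z P267.FL P267.BlockC P267.RR P269
open P287Q.Zc (Lk)
open scoped ContDiff Manifold

variable {X : Type} [MetricSpace X] [CompactSpace X] [ConnectedSpace X] [ChartedSpace C2 X]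
  [IsManifold 𝓘(ℂ, C2) ω X]

theorem cmp_nice : Nice X := ⟨inferInstance, inferInstance, inferInstance⟩

variable {I : H X →ₗ[ℂ] ℂ} {B : LinearMap.BilinForm ℤ (Lk X 2)}

/-- The pairing of forms is the cup product pairing. -/
theorem cmp_pair (T : Sf.Top I B) {F G : TwoF X} {c c' : H X} (h : Sf.Rp F c) (h' : Sf.Rp G c') :
    I (c * c') = pair F G := Sf.pair_of Sf.fine Sf.w0 Sf.pt I T.toIntg F G c c' h h'

/-- Integral classes detect the classes of degree two. -/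
theorem cmp_nd (T : Sf.Top I B) {c : H X} (hc : H.IsDeg 2 c) (h : ∀ y ∈ Lk X 2, I (y * c) = 0) :
    c = 0 := by
  have := T.free
  have := T.fin
  let b := Module.finBasis ℤ (Lk X 2)
  have h1 : Submodule.span ℂ (Lk X 2 : Set (H X)) ≤ Submodule.span ℂ (range fun i => (b i).1) :=
    Submodule.span_le.2 fun x hx => by
      have e : x = ∑ i, (b.repr ⟨x, hx⟩ i : ℂ) • (b i).1 := by
        conv_lhs => rw [show x = (⟨x, hx⟩ : Lk X 2).1 from rfl, ← b.sum_repr ⟨x, hx⟩,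
          Submodule.coe_sum]
        exact Finset.sum_congr rfl fun i _ => (Int.cast_smul_eq_zsmul ℂ _ (b i).1).symm
      rw [e]
      exact Submodule.sum_mem _ fun i _ => Submodule.smul_mem _ _ (Submodule.subset_span ⟨i, rfl⟩)
  obtain ⟨t, rfl⟩ := (Submodule.mem_span_range_iff_exists_fun ℂ).1 (h1 (T.span c hc))
  refine Finset.sum_eq_zero fun i _ => ?_
  obtain ⟨x, hx⟩ := T.uni.2 (b.coord i)
  have h2 := h x.1 x.2
  rw [Finset.mul_sum, map_sum, Finset.sum_eq_single i (fun j _ hj => by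
    rw [mul_smul_comm, map_smul, ← T.pair, hx]
    simp [hj]) (by simp), mul_smul_comm, map_smul, ← T.pair, hx] at h2
  have h3 : t i = 0 := by simpa using h2
  rw [h3, zero_smul]

/-- The class of a form is unique. -/
theorem cmp_uniq (T : Sf.Top I B) {F : TwoF X} {c c' : H X} (h : Sf.Rp F c) (h' : Sf.Rp F c') :
    c = c' := by
  refine sub_eq_zero.1 (cmp_nd T ((H.deg X 2).sub_mem h.isDeg h'.isDeg) fun y hy => ?_)
  obtain ⟨G, hG⟩ := (api X).ex y hy.2
  rw [mul_sub, map_sub, cmp_pair T hG h, cmp_pair T hG h', sub_self]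

omit [ConnectedSpace X] in
/-- The Chern class of the dual bundle. -/
theorem cmp_inv (h2 : StC1Ex) (h3 : StC1Mul) (M : SB X) {c : H X} (hc : IsC1 M.φ c) :
    IsC1 M⁻¹.φ (-c) := by
  have : Nice X := ⟨inferInstance, inferInstance, inferInstance⟩
  obtain ⟨c', -, k'⟩ := h2 X _ M⁻¹.coc
  obtain ⟨o, -, k⟩ := h2 X _ (1 : SB X).coc
  have e1 : o = o + o := h3 X _ _ _ o o o 1 k k k (fun _ => one_ne_zero) fun x => by
    simpa using continuousAt_const
  have e2 : o = c + c' := h3 X _ _ _ c c' o 1 hc k' k (fun _ => one_ne_zero) fun x =>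
    (continuousAt_const (y := (1 : ℂ))).congr (.of_forall fun y => by simp [M.ne x y])
  have e3 : o = 0 := by simpa using e1
  rwa [neg_eq_of_add_eq_zero_right (e2.symm.trans e3)]

/-- **The comparison of Chern forms and Chern classes.** -/
theorem stCmp (h1 : StBarg) (h2 : StC1Ex) (h3 : StC1Mul) (h4 : StSm X) (h5 : StHol X)
    (h6 : StRl X) (h7 : StRl' X) (h8 : StFrs X) : StCmp X := by
  intro I B T ip hip ⟨M, hM⟩
  have : Nice X := cmp_nice
  obtain ⟨κ, hκ⟩ := h1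
  have hb := hκ X
  have rl : ∀ {M : SB X} (R : Rl M) {c}, IsC1 M.φ c → Sf.Rp (Sf.ch1 R.A) (κ • c) :=
    fun R c hc => hb R.A _ _ c (SB.coc _) R.frs hc
  have hk : κ = 1 ∨ κ = -1 := by
    obtain ⟨c, hc, k⟩ := h2 X _ M.coc
    obtain ⟨R⟩ := h6 M
    have e1 : I (c * c) = 1 := by rw [← hip M M c c k k, hM, Int.cast_one]
    obtain ⟨c₀, hc₀, k₀⟩ := Sf.c1Int X R.A
    obtain ⟨A, hA⟩ := h4 c hc
    obtain ⟨φ, v, p1, p2⟩ := h8 A
    obtain ⟨c', hc', k'⟩ := h2 X φ p1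
    have e2 : (B ⟨c₀, hc₀⟩ ⟨c, hc⟩ : ℂ) = κ := by
      rw [T.pair, cmp_pair T k₀ hA, ← cmp_pair T (rl R k) hA, smul_mul_assoc, map_smul, e1,
        smul_eq_mul, mul_one]
    have e3 : κ * (B ⟨c', hc'⟩ ⟨c, hc⟩ : ℂ) = 1 := by
      rw [T.pair, ← smul_eq_mul, ← map_smul, ← smul_mul_assoc,
        cmp_pair T (hb A φ v c' p1 p2 k') hA, ← cmp_pair T hA hA, e1]
    rw [← e2] at e3 ⊢
    have e4 : B ⟨c₀, hc₀⟩ ⟨c, hc⟩ * B ⟨c', hc'⟩ ⟨c, hc⟩ = 1 := by exact_mod_cast e3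
    rcases Int.eq_one_or_neg_one_of_mul_eq_one e4 with e | e <;> rw [e] <;> simp
  have hk2 : κ * κ = 1 := by rcases hk with e | e <;> rw [e] <;> simp
  refine ⟨fun M M' R R' => ?_, fun l hl hw => ?_⟩
  · obtain ⟨c, -, k⟩ := h2 X _ M.coc
    obtain ⟨c', -, k'⟩ := h2 X _ M'.coc
    rw [← Sf.pair_ch1 (formFacts (curvThm X)), ← cmp_pair T (rl R k) (rl R' k'), hip M M' c c' k k',
      smul_mul_smul_comm, hk2, one_smul]
  · obtain ⟨A, hA⟩ := h4 l hl
    obtain ⟨a, ha⟩ := h5 A fun η hη => by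
      obtain ⟨w, k⟩ := Sf.cls X η hη.2
      rw [P267.BlockC.pair_comm, ← cmp_pair T hA k]
      exact hw w (((hapi X).hg20 w).2 ⟨η, hη.1, k⟩)
    obtain ⟨M, R, rfl⟩ := h7 A a ha
    obtain ⟨c, -, k⟩ := h2 X _ M.coc
    have e := cmp_uniq T hA (rl R k)
    rcases hk with e' | e'
    · exact ⟨M, by rwa [e, e', one_smul]⟩
    · exact ⟨M⁻¹, by rw [e, e', neg_one_smul]; exact cmp_inv h2 h3 M k⟩

end Vale.Agent.P287Q.D
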