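import Vale.Agent.P284.H451.D.Sard

/-!
# Sard's theorem on the zero set of a holomorphic submersion
-/

namespace Vale.Agent.P287Q.D

open Set Filter MeasureTheory Function Topology

variable {Z W : Type} [NormedAddCommGroup Z] [NormedSpace ℂ Z] [FiniteDimensional ℂ Z]
  [NormedAddCommGroup W] [NormedSpace ℂ W] [FiniteDimensional ℂ W] {p : ℕ}
  {G : Z → W} {T : Z → Fin p → ℂ}

theorem sard_loc {z₀ : Z} (hG : AnalyticAt ℂ G z₀) (hT : AnalyticAt ℂ T z₀)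
    (hs : Surjective (fderiv ℂ G z₀)) :
    ∃ N ∈ 𝓝 z₀, ∀ᵐ t : Fin p → ℂ, ∀ z ∈ N, G z = 0 → T z = t → Surjective (fderiv ℂ G z) →
      Surjective fun v => (fderiv ℂ G z v, fderiv ℂ T z v) := by
  have : CompleteSpace Z := FiniteDimensional.complete ℂ Z
  have : CompleteSpace W := FiniteDimensional.complete ℂ W
  let K : Submodule ℂ Z := LinearMap.ker (fderiv ℂ G z₀).toLinearMap
  obtain ⟨κ₀, hκ⟩ := LinearMap.exists_leftInverse_of_injective K.subtype K.ker_subtype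
  let κ : Z →L[ℂ] K := LinearMap.toContinuousLinearMap κ₀
  have hκ' : ∀ k : K, κ k = k := fun k => LinearMap.congr_fun hκ k
  let L : Z →L[ℂ] W × K := (fderiv ℂ G z₀).prod κ
  have hL : Bijective L := by
    refine ⟨(injective_iff_map_eq_zero L).2 fun v hv => ?_, fun w => ?_⟩
    · have h1 : v ∈ K := congrArg Prod.fst hv
      have h2 : κ v = 0 := congrArg Prod.snd hv
      exact congrArg Subtype.val ((hκ' ⟨v, h1⟩).symm.trans h2)
    · obtain ⟨v, hv⟩ := hs w.1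
      refine ⟨v + (w.2 - κ v : K), Prod.ext ?_ ?_⟩
      · change fderiv ℂ G z₀ (v + (w.2 - κ v : K)) = w.1
        rw [map_add, hv, show fderiv ℂ G z₀ (w.2 - κ v : K) = 0 from (w.2 - κ v : K).2, add_zero]
      · change κ (v + (w.2 - κ v : K)) = w.2
        rw [map_add, hκ', add_sub_cancel]
  let L' : Z ≃L[ℂ] W × K := (LinearEquiv.ofBijective L.toLinearMap hL).toContinuousLinearEquiv
  let Ψ : Z → W × K := fun z => (G z, κ z)
  have hΨ : ContDiffAt ℂ ⊤ Ψ z₀ := (hG.prod (κ.analyticAt z₀)).contDiffAt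
  have hd : HasFDerivAt Ψ (L' : Z →L[ℂ] W × K) z₀ :=
    hG.differentiableAt.hasFDerivAt.prodMk κ.hasFDerivAt
  let φ := hΨ.toOpenPartialHomeomorph Ψ hd (by simp)
  have h0 : z₀ ∈ φ.source := hΨ.mem_toOpenPartialHomeomorph_source hd (by simp)
  have hi : AnalyticAt ℂ φ.symm (Ψ z₀) := (hΨ.to_localInverse hd (by simp)).analyticAt
  have h1 : ∀ᶠ z in 𝓝 z₀, AnalyticAt ℂ φ.symm (Ψ z) :=
    hΨ.continuousAt.eventually hi.eventually_analyticAt
  let f : K → Fin p → ℂ := fun k => T (φ.symm (0, k))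
  have h2 : ∀ᶠ z in 𝓝 z₀, z ∈ φ.source := φ.open_source.mem_nhds h0
  refine ⟨_, (h2.and h1).and
    (hG.eventually_analyticAt.and hT.eventually_analyticAt), ?_⟩
  filter_upwards [P284.H451.D.sard_ae (isOpen_analyticAt ℂ f) (T := f) fun _ h => h]
    with t ht z hz hz0 hzt hsz w
  obtain ⟨⟨a1, a2⟩, a3, a4⟩ := hz
  have e1 : Ψ z = (0, κ z) := Prod.ext hz0 rfl
  have e2 : φ.symm (0, κ z) = z := e1 ▸ φ.left_inv a1
  have b1 : HasFDerivAt (fun k : K => φ.symm (0, k))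
      ((fderiv ℂ φ.symm (0, κ z)).comp (ContinuousLinearMap.inr ℂ W K)) (κ z) :=
    (e1 ▸ a2).differentiableAt.hasFDerivAt.comp (κ z) (hasFDerivAt_prodMk_right 0 (κ z))
  have b0 : AnalyticAt ℂ (fun k : K => φ.symm (0, k)) (κ z) :=
    AnalyticAt.comp (g := φ.symm) (f := fun k : K => ((0 : W), k)) (e1 ▸ a2)
      (analyticAt_const.prod analyticAt_id)
  have b2 : AnalyticAt ℂ f (κ z) :=
    AnalyticAt.comp (g := T) (f := fun k : K => φ.symm (0, k)) (e2.symm ▸ a4) b0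
  have b3 := ht (κ z) b2 (by simp only [f, e2, hzt])
  have b4 : HasFDerivAt f _ (κ z) :=
    (e2.symm ▸ a4 : AnalyticAt ℂ T (φ.symm (0, κ z))).differentiableAt.hasFDerivAt.comp (κ z) b1
  have b5 : HasFDerivAt (fun k : K => G (φ.symm (0, k))) _ (κ z) :=
    (e2.symm ▸ a3 : AnalyticAt ℂ G (φ.symm (0, κ z))).differentiableAt.hasFDerivAt.comp (κ z) b1
  have b6 : (fun k : K => G (φ.symm (0, k))) =ᶠ[𝓝 (κ z)] fun _ => 0 := by
    have c1 : ((0 : W), κ z) ∈ φ.target := e1 ▸ φ.map_source a1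
    have c2 : ContinuousAt (fun k : K => ((0 : W), k)) (κ z) := by fun_prop
    have : ∀ᶠ k : K in 𝓝 (κ z), ((0 : W), k) ∈ φ.target := c2 (φ.open_target.mem_nhds c1)
    filter_upwards [this] with k hk using congrArg Prod.fst (φ.right_inv hk)
  have b7 := b5.unique ((hasFDerivAt_const (0 : W) (κ z)).congr_of_eventuallyEq b6)
  rw [b4.fderiv, e2] at b3
  rw [e2] at b7
  obtain ⟨v, hv⟩ := hsz w.1
  obtain ⟨k, hk⟩ := b3 (w.2 - fderiv ℂ T z v)
  refine ⟨v + fderiv ℂ φ.symm (0, κ z) (0, k), Prod.ext ?_ ?_⟩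
  · have : fderiv ℂ G z (fderiv ℂ φ.symm (0, κ z) (0, k)) = 0 := congr($b7 k)
    simp only [map_add, hv, this, add_zero]
  · have : fderiv ℂ T z (fderiv ℂ φ.symm (0, κ z) (0, k)) = w.2 - fderiv ℂ T z v := hk
    simp only [map_add, this, add_sub_cancel]

/-- **Parametric transversality.** -/
theorem sard_zero {U : Set Z} (hG : ∀ z ∈ U, AnalyticAt ℂ G z) (hT : ∀ z ∈ U, AnalyticAt ℂ T z)
    (hs : ∀ z ∈ U, G z = 0 → Surjective (fderiv ℂ G z)) :
    ∀ᵐ t : Fin p → ℂ, ∀ z ∈ U, G z = 0 → T z = t →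
      Surjective fun v => (fderiv ℂ G z v, fderiv ℂ T z v) := by
  let A : Set Z := {z ∈ U | G z = 0}
  choose! N h1 h2 using fun z (hz : z ∈ A) => sard_loc (hG z hz.1) (hT z hz.1) (hs z hz.1 hz.2)
  obtain ⟨s, hs1, hs2, hs3⟩ := TopologicalSpace.countable_cover_nhdsWithin (s := A) (f := N)
    fun z hz => mem_nhdsWithin_of_mem_nhds (h1 z hz)
  filter_upwards [(ae_ball_iff hs2).2 fun z hz => h2 z (hs1 hz)] with t ht z hz h0 hzt
  obtain ⟨x, hx, hx'⟩ := mem_iUnion₂.1 (hs3 (⟨hz, h0⟩ : z ∈ A))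
  exact ht x hx z hx' h0 hzt (hs z hz h0)

/-- The values on the zero set fill a neighbourhood. -/
theorem open_zero {z₀ : Z} (hG : AnalyticAt ℂ G z₀) (hT : AnalyticAt ℂ T z₀) (h0 : G z₀ = 0)
    (hs : Surjective fun v => (fderiv ℂ G z₀ v, fderiv ℂ T z₀ v)) {U : Set Z} (hU : U ∈ 𝓝 z₀) :
    ∀ᶠ t in 𝓝 (T z₀), ∃ z ∈ U, G z = 0 ∧ T z = t := by
  have : CompleteSpace Z := FiniteDimensional.complete ℂ Z
  have : CompleteSpace W := FiniteDimensional.complete ℂ W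
  have h1 : HasStrictFDerivAt (fun z => (G z, T z)) ((fderiv ℂ G z₀).prod (fderiv ℂ T z₀)) z₀ :=
    hG.hasStrictFDerivAt.prodMk hT.hasStrictFDerivAt
  have h2 := h1.map_nhds_eq_of_surj (LinearMap.range_eq_top.2 hs)
  have h3 : (fun z => (G z, T z)) '' U ∈ 𝓝 (G z₀, T z₀) := h2 ▸ image_mem_map hU
  have h4 : ContinuousAt (fun t : Fin p → ℂ => (G z₀, t)) (T z₀) := by fun_prop
  filter_upwards [h4 h3] with t ht
  obtain ⟨z, hz, e⟩ := ht
  exact ⟨z, hz, (congrArg Prod.fst e).trans h0, congrArg Prod.snd e⟩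

theorem exists_of_ae {t₀ : Fin p → ℂ} {P Q : (Fin p → ℂ) → Prop} (h1 : ∀ᶠ t in 𝓝 t₀, P t)
    (h2 : ∀ᵐ t : Fin p → ℂ, Q t) : ∃ t, P t ∧ Q t :=
  (Measure.dense_of_ae h2).inter_nhds_nonempty h1 |>.imp fun _ h => ⟨h.2, h.1⟩

end Vale.Agent.P287Q.D
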