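import Vale.Agent.P287Q.D.Add0
import Vale.Agent.P287Q.D.St

/-!
# Additivity of the Euler characteristic
-/

set_option linter.unusedSectionVars false

namespace Vale.Agent.P287Q.D

open Set Function Topology Filter Matrix P267.FL P267.RR P267.H509 P267.H439 P267.H451
open scoped ContDiff Manifold

namespace Ad

variable {X : Type} [TopologicalSpace X] [ChartedSpace C2 X] [IsManifold 𝓘(ℂ, C2) ω X]
  [T2Space X] [CompactSpace X] {A : FinAt X}

/-- The transition functions of the dual of `M`. -/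
noncomputable def tq (M : SB X) (x : Fin A.N → X) (a b : Fin A.N) (z : C2) : ℂ :=
  (M.φ (x a) ((A.e a).symm z))⁻¹ * M.φ (x b) ((A.e a).symm z)

theorem tq_ne (M : SB X) (x : Fin A.N → X) (a b : Fin A.N) (z : C2) : tq M x a b z ≠ 0 :=
  mul_ne_zero (inv_ne_zero (M.ne _ _)) (M.ne _ _)

theorem has_lfr {ι : Type} [Fintype ι] [DecidableEq ι] {L : P267.FL.LB X ι} {s : X → Fin 2 → ℂ}
    (F : LFr A L s) (h : L.IsHol s) {q : Fin A.N → Fin A.N → C2 → ℂ}
    (e : ∀ a b, ∀ z ∈ A.ov a b, F.g a b ((A.e a).symm z) = q a b z) :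
    Has A (fun a b c z => Rs (cov (A.J a b) z) (cov (A.J a c) z) (q a b) (q a c) z)
      (chi L s 0) := by
  have k : ∀ a b, ∀ z ∈ A.ov a b, cv ((F.bun 0).E a b) z =
      cv (fun w => diagonal fun _ : Fin 1 => q a b w) z := fun a b z hz =>
    cv_congr (Eventually.mono ((A.isOpen_ov a b).mem_nhds hz) fun w hw => by
      ext i j
      rw [LFr.bun_E, e a b w hw, Subsingleton.elim i j]
      simp)
  rw [F.chi_eq 0 h]
  exact (has_bun (F.bun 0)).congr fun a b c _ _ _ z hb hc => by rw [k a b z hb, k a c z hc, Rs]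

theorem has_rl {M : SB X} (R : Rl M⁻¹) (x : Fin A.N → X) (h : ∀ a, ∀ y ∈ A.U a,
    FrameAt R.A.L R.a (R.v (x a)) y ∧ R.v (x a) y = (M⁻¹).φ (x a) y • R.v y y) :
    Has A (fun a b c z => Rs (cov (A.J a b) z) (cov (A.J a c) z) (tq M x a b) (tq M x a c) z)
      (chi R.A.L R.a 0) := by
  refine has_lfr ⟨fun a => R.v (x a), fun a y hy => ?_, fun a y hy => (h a y hy).1.sec,
    fun a y hy => (h a y hy).1.ne, fun a y hy => funext (h a y hy).1.hol⟩ R.hol fun a b z hz => ?_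
  · rw [At0, LB.loc0_zero]; exact (h a y hy).1.sm
  · refine Eq.trans (congrArg (cfv _) ?_) (cfv_smul_self _ (h b _ hz.2).1.ne _)
    simp only [(h a _ hz.1.2).2, (h b _ hz.2).2, smul_smul, tq, SB.inv_φ]
    rw [mul_inv_cancel_right₀ (M.ne _ _)]

variable {ε : K7 ≃ Fin 7} {F : Fin A.N → X → Matrix K7 K7 ℂ}
  {h0 : ∀ a, ∀ y ∈ A.U a, (F a y).det ≠ 0}
  {h1 : ∀ a b, ∀ y ∈ A.U a, y ∈ A.U b → HoM (fun y => (F a y)⁻¹ * F b y) y} (x : Fin A.N → X)

theorem chi_diag {M : K7 → SB X} (R : ∀ j, Rl (M j)⁻¹) (h : ∀ j a, ∀ y ∈ A.U a,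
    FrameAt (R j).A.L (R j).a ((R j).v (x a)) y ∧ (R j).v (x a) y = (M j)⁻¹.φ (x a) y • (R j).v y y)
    (e : ∀ a, A.rho a ≠ 0 → ∀ y, F a y = diagonal fun j => (M j).φ (x a) y) :
    (frB ε F h0 h1).chi = ∑ j, chi (R j).A.L (R j).a 0 := by
  have k := ((has_bun (frB ε F h0 h1)).congr fun a b d ha hb hd z _ _ => ?_).uniq
    (Has.sum Finset.univ fun j => has_rl (R j) x (h j))
  · exact_mod_cast k
  have t : ∀ b, A.rho b ≠ 0 → (frB ε F h0 h1).E a b =
      fun w => reindex ε ε (diagonal fun j => tq (M j) x a b w) := fun b hb => funext fun w => by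
    simp only [frB, e a ha, e b hb, diag_inv_mul fun j => (M j).ne _ _, diagonal_transpose, tq]
  rw [t b hb, t d hd, Rg_reindex]
  exact Rg_diag (fun j => tq_ne (M j) x a b z) fun j => tq_ne (M j) x a d z

theorem chi_tri {Q : Fin 3 → SB X} (R : ∀ j, Rl (Q j)⁻¹) (h : ∀ j a, ∀ y ∈ A.U a,
    FrameAt (R j).A.L (R j).a ((R j).v (x a)) y ∧ (R j).v (x a) y = (Q j)⁻¹.φ (x a) y • (R j).v y y)
    {Φ : X → Matrix K7 K7 ℂ} (e : ∀ a, A.rho a ≠ 0 → ∀ y ∈ A.U a, ∃ U V, F a y = Φ y *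
      fromBlocks (fromBlocks 1 U 0 (jac (A.e a) y)) V 0 (diagonal fun i => (Q i).φ (x a) y)) :
    (frB ε F h0 h1).chi = 2 * chi (OX X) 0 0 + chiOm X + ∑ i, chi (R i).A.L (R i).a 0 := by
  have o := has_lfr (trivFr A (0 : Fin 1)) (LB.isHol_triv 0) (q := fun _ _ _ => 1)
    fun _ _ _ _ => trivFr_g ..
  have k := ((has_bun (frB ε F h0 h1)).congr fun a b d ha hb hd z zb zd => ?_).uniq
    (((Has.sum Finset.univ fun _ : Fin 2 => o).add (has_bun (P267.H983.omBun A))).add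
      (Has.sum Finset.univ fun j => has_rl (R j) x (h j)))
  · rw [← P267.H983.chiOm_eq, Fin.sum_univ_two, ← two_mul] at k
    exact_mod_cast k
  let G : Fin A.N → C2 → Matrix K7 K7 ℂ := fun b w =>
    ((F a ((A.e a).symm w))⁻¹ * F b ((A.e a).symm w))ᵀ
  have t : ∀ b, A.rho b ≠ 0 → ∀ w ∈ A.ov a b, ∃ U V, G b w = fromBlocks
      (fromBlocks (diagonal fun _ => 1) 0 U ((P267.H983.omBun A).E a b w)) 0 V
        (diagonal fun j => tq (Q j) x a b w) := fun b hb w hw => by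
    obtain ⟨U, V, k⟩ := e a ha _ hw.1.2
    obtain ⟨U', V', k'⟩ := e b hb _ hw.2
    have u := h0 a _ hw.1.2
    rw [k, det_mul, mul_ne_zero_iff] at u
    have v := (isUnit_iff_isUnit_det _).2 u.2.isUnit
    obtain ⟨C', q'⟩ := tri_inv_mul (A' := 1) (B' := U') (D' := jac (A.e b) ((A.e a).symm w))
      (isUnit_fromBlocks_zero₂₁.1 v).1
    obtain ⟨C, q⟩ := tri_inv_mul (A' := fromBlocks 1 U' 0 (jac (A.e b) ((A.e a).symm w))) (B' := V')
      (D' := diagonal fun i => (Q i).φ (x b) ((A.e a).symm w)) v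
    refine ⟨C', C, ?_⟩
    simp only [G]
    rw [k, k', Matrix.mul_inv_rev, Matrix.mul_assoc, nonsing_inv_mul_cancel_left _ _ u.1.isUnit, q,
      q', diag_inv_mul fun j => (Q j).ne _ _, diagonal_transpose, inv_one, Matrix.mul_one,
      transpose_one, jac_eq (A.he b) (A.he a) (FinAt.symm_mem_source' hw)
        (FinAt.symm_mem_source hw.1), nonsing_inv_mul_cancel_left _ _
          (jac_det_ne_zero (A.he a) (FinAt.symm_mem_source hw.1)).isUnit, ← FinAt.J_tau a hw]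
    rfl
  have l : ∀ b, A.rho b ≠ 0 → z ∈ A.ov a b → Lo (G b) (fun w => (G b w).toBlocks₁₁)
      (fun w => diagonal fun j => tq (Q j) x a b w) z ∧ Lo (fun w => (G b w).toBlocks₁₁)
        (fun _ => diagonal fun _ => 1) ((P267.H983.omBun A).E a b) z := fun b hb zb => by
    have n := Eventually.mono ((A.isOpen_ov a b).mem_nhds zb) (t b hb)
    have m : Lo (G b) (fun w => (G b w).toBlocks₁₁) (fun w => diagonal fun j => tq (Q j) x a b w) z :=
      ⟨(isUnit_transpose _).2 ((isUnit_nonsing_inv_iff.2 ((isUnit_iff_isUnit_det _).2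
        (h0 a _ zb.1.2).isUnit)).mul ((isUnit_iff_isUnit_det _).2 (h0 b _ zb.2).isUnit)),
        n.mono fun w ⟨_, V, k⟩ => ⟨V, by simp only [k, toBlocks_fromBlocks₁₁]⟩⟩
    exact ⟨m, m.unit.1, n.mono fun w ⟨U, _, k⟩ => ⟨U, by simp only [k, toBlocks_fromBlocks₁₁]⟩⟩
  refine (Rg_reindex ε (G b) (G d)).trans ?_
  rw [(l b hb zb).1.Rg_eq (l d hd zd).1, (l b hb zb).2.Rg_eq (l d hd zd).2,
    Rg_diag (fun j => tq_ne (Q j) x a b z) fun j => tq_ne (Q j) x a d z,
    Rg_diag (d := fun _ _ => 1) (d' := fun _ _ => 1) (by simp) (by simp)]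

end Ad

open Ad

theorem stAdd {X : Type} [TopologicalSpace X] [ChartedSpace C2 X] [IsManifold 𝓘(ℂ, C2) ω X]
    [T2Space X] [CompactSpace X] : StAdd X := by
  rintro M Q ⟨Φ, h1, h2, h3⟩ R R'
  obtain ⟨A, hA⟩ := exists_finAt (p := fun W => ∃ x, ∀ y ∈ W, y ∈ (chartAt C2 x).source ∧
      (∀ j, FrameAt (R j).A.L (R j).a ((R j).v x) y ∧ (R j).v x y = (M j)⁻¹.φ x y • (R j).v y y) ∧
      (∀ j, FrameAt (R' j).A.L (R' j).a ((R' j).v x) y ∧
        (R' j).v x y = (Q j)⁻¹.φ x y • (R' j).v y y) ∧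
      (∀ j, (M j).Sec ((M j).φ x) y) ∧ HoM (Φ x) y ∧ (Φ x y).det ≠ 0 ∧
      ∃ (U : Matrix (Fin 2) (Fin 2) ℂ) (V : Matrix (Fin 2 ⊕ Fin 2) (Fin 3) ℂ),
        (diagonal fun j => (M j).φ x y) * Φ x y = Φ y y * fromBlocks (fromBlocks 1 U 0
          (jac (chartAt C2 x) y)) V 0 (diagonal fun i => (Q i).φ x y))
    (fun x => by
      obtain ⟨W, a, b, c⟩ := eventually_nhds_iff.1 (Eventually.and
        ((chartAt C2 x).open_source.mem_nhds (mem_chart_source C2 x))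
        ((eventually_all.2 fun j => (R j).fr x).and ((eventually_all.2 fun j => (R' j).fr x).and
          ((eventually_all.2 fun j => (M j).sec_φ x).and ((eventually_all.2 fun i =>
            eventually_all.2 fun j => (h1 x i j).eventually).and
              (((HoM.det (h1 x)).continuousAt.eventually_ne (h2 x)).and (h3 x)))))))
      exact ⟨W, b, c, x, a⟩) fun U W h ⟨x, hx⟩ => ⟨x, fun y hy => hx y (h hy)⟩
  choose x hx using hA
  let c : Fin (A.N * 2) → X := fun a => x a.divNat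
  let Ψ : Fin (A.N * 2) → X → Matrix K7 K7 ℂ := fun a => if a.modNat = 0 then 1 else Φ (c a)
  have p : ∀ a, ∀ y ∈ A.U a.divNat, HoM (Ψ a) y ∧ (Ψ a y).det ≠ 0 := fun a y hy => by
    simp only [Ψ]
    split_ifs
    exacts [⟨fun _ _ => ho_const _, by simp⟩, ⟨(hx _ y hy).2.2.2.2.1, (hx _ y hy).2.2.2.2.2.1⟩]
  let F : Fin (A.N * 2) → X → Matrix K7 K7 ℂ := fun a y =>
    (diagonal fun j => (M j).φ (c a) y) * Ψ a y
  have f0 : ∀ a, ∀ y ∈ A.U a.divNat, (F a y).det ≠ 0 := fun a y hy => by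
    rw [det_mul, det_diagonal]
    exact mul_ne_zero (Finset.prod_ne_zero_iff.2 fun j _ => (M j).ne _ _) (p a y hy).2
  have f1 : ∀ a b, ∀ y ∈ A.U a.divNat, y ∈ A.U b.divNat → HoM (fun y => (F a y)⁻¹ * F b y) y :=
    fun a b y ha hb => by
      simp only [F, Matrix.mul_inv_rev, Matrix.mul_assoc]
      simp only [← Matrix.mul_assoc (diagonal _)⁻¹, diag_inv_mul fun j => (M j).ne _ _]
      refine ((p a y ha).1.inv (p a y ha).2).mul ((HoM.diag fun j => ?_).mul (p b y hb).1)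
      simpa only [div_eq_inv_mul] using
        ((hx _ y hb).2.2.2.1 j).hol_div ((hx _ y ha).2.2.2.1 j) ((M j).ne _ _)
  let A' := dup A x fun a y hy => (hx a y hy).1
  have hs : ∀ s (a : Fin (A.N * 2)), (A' s).rho a ≠ 0 → a.modNat = s := fun s a h =>
    by_contra fun k => h (if_neg k)
  let ε : K7 ≃ Fin 7 := Fintype.equivFinOfCardEq (by simp)
  refine (chi_diag (A := A' 0) (ε := ε) (F := F) (h0 := f0) (h1 := f1) c R
    (fun j a y hy => (hx _ y hy).2.1 j) fun (a : Fin (A.N * 2)) ha y => ?_).symm.trans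
    ((chi_dup (s' := 1) _).symm.trans (chi_tri (A := A' 1) (ε := ε) (F := F) (h0 := f0) (h1 := f1)
      c R' (fun j a y hy => (hx _ y hy).2.2.1 j) (Φ := fun y => Φ y y)
        fun (a : Fin (A.N * 2)) ha y hy => ?_))
  · simp only [F, Ψ, if_pos (hs 0 a ha), Pi.one_apply, Matrix.mul_one]
  · simp only [F, Ψ, if_neg ((hs 1 a ha).trans_ne one_ne_zero)]
    exact (hx _ y hy).2.2.2.2.2.2

end Vale.Agent.P287Q.D
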