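import Vale.Agent.P267.H221.RRMain
import Vale.Agent.P287Q.D.SB

/-!
# The Riemann-Roch density is additive on triangular cocycles
-/

set_option linter.unusedSectionVars false

namespace Vale.Agent.P287Q.D.Ad

open Set Function Topology Filter Matrix MeasureTheory P267.FL P267.RR P267.H509
open scoped ContDiff Manifold

section alg

variable {m n : Type} [Fintype m] [DecidableEq m] [Fintype n] [DecidableEq n]
  {α α' : MCov 2} {z : C2}

/-- The logarithmic derivative. -/
noncomputable def cv (A : C2 → Matrix n n ℂ) (z : C2) (i : Fin 2) : Matrix n n ℂ :=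
  (A z)⁻¹ * Matrix.of fun p q => dz i (fun w => A w p q) z

/-- The density of a pair of matrix valued covectors. -/
noncomputable def Rg (α α' : MCov 2) (ε ε' : Fin 2 → Matrix n n ℂ) : ℂ :=
  Fintype.card n * (1 / 8 * w2 (tc α) (tc α') - 1 / 24 * tw α α') +
    1 / 4 * (w2 (tc α) (fun i => (ε' i).trace) + w2 (fun i => (ε i).trace) (tc α')) +
      1 / 2 * (ε 0 * ε' 1 - ε 1 * ε' 0).trace

/-- The density of a pair of functions. -/
noncomputable def Rs (α α' : MCov 2) (f f' : C2 → ℂ) (z : C2) : ℂ :=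
  Rg α α' (cv (fun w => diagonal fun _ : Fin 1 => f w) z)
    (cv (fun w => diagonal fun _ : Fin 1 => f' w) z)

theorem Rd_eq {r : ℕ} (A A' : C2 → Matrix (Fin r) (Fin r) ℂ) :
    Rd r α α' (cov A z) (cov A' z) = Rg α α' (cv A z) (cv A' z) := by
  rw [Rg, Fintype.card_fin]; rfl

theorem cv_congr {A A' : C2 → Matrix n n ℂ} (h : A =ᶠ[𝓝 z] A') : cv A z = cv A' z := by
  funext i
  rw [cv, cv, h.self_of_nhds]
  congr 1
  ext p q
  exact dz_congr (h.mono fun w hw => by rw [hw]) i

theorem Rg_reindex (ε : m ≃ n) (A A' : C2 → Matrix m m ℂ) :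
    Rg α α' (cv (fun w => reindex ε ε (A w)) z) (cv (fun w => reindex ε ε (A' w)) z) =
      Rg α α' (cv A z) (cv A' z) := by
  have h : ∀ (A : C2 → Matrix m m ℂ) i, cv (fun w => reindex ε ε (A w)) z i =
      reindexAlgEquiv ℂ ℂ ε (cv A z i) := fun A i => by
    rw [cv, cv, map_mul, inv_reindex]; rfl
  have t : ∀ B : Matrix m m ℂ, (reindexAlgEquiv ℂ ℂ ε B).trace = B.trace := fun B =>
    ε.symm.sum_comp fun i => B i i
  simp only [Rg, h, ← map_mul, ← map_sub, t, Fintype.card_congr ε]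

theorem cv_diag {d : n → C2 → ℂ} (h : ∀ j, d j z ≠ 0) (i : Fin 2) :
    cv (fun w => diagonal fun j => d j w) z i = diagonal fun j => (d j z)⁻¹ * dz i (d j) z := by
  have e : (diagonal fun j => d j z)⁻¹ = diagonal fun j => (d j z)⁻¹ :=
    inv_eq_left_inv (by simp [diagonal_mul_diagonal, h])
  rw [cv, e, ← diagonal_mul_diagonal]
  congr 1
  ext p q
  by_cases k : p = q
  · subst k; simp
  · simp [k]

theorem Rg_diag {d d' : n → C2 → ℂ} (h : ∀ j, d j z ≠ 0) (h' : ∀ j, d' j z ≠ 0) :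
    Rg α α' (cv (fun w => diagonal fun j => d j w) z) (cv (fun w => diagonal fun j => d' j w) z) =
      ∑ j, Rs α α' (d j) (d' j) z := by
  have e : ∀ j i, cv (fun w => diagonal fun _ : Fin 1 => d j w) z i = _ := fun j =>
    cv_diag (d := fun _ => d j) fun _ => h j
  have e' : ∀ j i, cv (fun w => diagonal fun _ : Fin 1 => d' j w) z i = _ := fun j =>
    cv_diag (d := fun _ => d' j) fun _ => h' j
  simp only [Rs, Rg, cv_diag h, cv_diag h', e, e', diagonal_mul_diagonal, trace_sub,
    trace_diagonal, w2, Finset.sum_add_distrib, Finset.sum_sub_distrib, ← Finset.mul_sum,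
    ← Finset.sum_mul, Finset.sum_const, Finset.card_univ, Fintype.card_fin, one_smul,
    nsmul_eq_mul, Nat.cast_one, one_mul]
  ring

/-- `G` is block triangular near `z` with the diagonal blocks `P`, `R`. -/
def Lo (G : C2 → Matrix (m ⊕ n) (m ⊕ n) ℂ) (P : C2 → Matrix m m ℂ) (R : C2 → Matrix n n ℂ)
    (z : C2) : Prop := IsUnit (G z) ∧ ∀ᶠ w in 𝓝 z, ∃ V, G w = fromBlocks (P w) 0 V (R w)

variable {G G' : C2 → Matrix (m ⊕ n) (m ⊕ n) ℂ} {P P' : C2 → Matrix m m ℂ}
  {R R' : C2 → Matrix n n ℂ}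

theorem Lo.unit (h : Lo G P R z) : IsUnit (P z) ∧ IsUnit (R z) :=
  let ⟨_, e⟩ := h.2.self_of_nhds
  isUnit_fromBlocks_zero₁₂.1 (e ▸ h.1)

theorem Lo.cv_eq (h : Lo G P R z) (i : Fin 2) :
    ∃ V, cv G z i = fromBlocks (cv P z i) 0 V (cv R z i) := by
  have e : G =ᶠ[𝓝 z] fun w => fromBlocks (P w) 0 (G w).toBlocks₂₁ (R w) :=
    h.2.mono fun w ⟨V, k⟩ => by simp only [k, toBlocks_fromBlocks₂₁]
  have k : (Matrix.of fun p q => dz i (fun w => fromBlocks (P w) 0 (G w).toBlocks₂₁ (R w) p q) z) =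
      fromBlocks (Matrix.of fun p q => dz i (fun w => P w p q) z) 0
        (Matrix.of fun p q => dz i (fun w => (G w).toBlocks₂₁ p q) z)
        (Matrix.of fun p q => dz i (fun w => R w p q) z) := by
    ext (p | p) (q | q) <;> simp
  rw [cv_congr e, cv, k, inv_fromBlocks_zero₁₂_of_isUnit_iff _ _ _
    (iff_of_true h.unit.1 h.unit.2), fromBlocks_multiply]
  exact ⟨_, by simp only [Matrix.zero_mul, Matrix.mul_zero, add_zero, zero_add]; rfl⟩

theorem Lo.Rg_eq (h : Lo G P R z) (h' : Lo G' P' R' z) : Rg α α' (cv G z) (cv G' z) =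
    Rg α α' (cv P z) (cv P' z) + Rg α α' (cv R z) (cv R' z) := by
  choose V e using h.cv_eq
  choose V' e' using h'.cv_eq
  have t : ∀ (a : Matrix m m ℂ) (c : Matrix n m ℂ) (d : Matrix n n ℂ),
      (fromBlocks a 0 c d).trace = a.trace + d.trace := fun _ _ _ => Fintype.sum_sum_type _
  simp only [Rg, e, e', fromBlocks_multiply, trace_sub, t, Matrix.zero_mul,
    Matrix.mul_zero, add_zero, zero_add, w2, Fintype.card_sum, Nat.cast_add]
  ring

theorem tri_inv_mul {A A' : Matrix m m ℂ} {D D' : Matrix n n ℂ} {B B' : Matrix m n ℂ}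
    (h : IsUnit (fromBlocks A B 0 D)) : ∃ C, ((fromBlocks A B 0 D)⁻¹ * fromBlocks A' B' 0 D')ᵀ =
      fromBlocks (A⁻¹ * A')ᵀ 0 C (D⁻¹ * D')ᵀ := by
  have u := isUnit_fromBlocks_zero₂₁.1 h
  rw [inv_fromBlocks_zero₂₁_of_isUnit_iff _ _ _ (iff_of_true u.1 u.2), fromBlocks_multiply,
    fromBlocks_transpose]
  exact ⟨_, by simp only [Matrix.zero_mul, Matrix.mul_zero, add_zero, zero_add,
    transpose_zero]; rfl⟩

theorem diag_inv_mul {d d' : n → ℂ} (h : ∀ j, d j ≠ 0) :
    (diagonal d)⁻¹ * diagonal d' = diagonal fun j => (d j)⁻¹ * d' j := by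
  rw [inv_eq_left_inv (B := diagonal fun j => (d j)⁻¹) (by simp [diagonal_mul_diagonal, h]),
    diagonal_mul_diagonal]

end alg

variable {X : Type} [TopologicalSpace X] [ChartedSpace C2 X]

section hom

variable {n : Type} [Fintype n] [DecidableEq n] {G G' : X → Matrix n n ℂ} {x : X}

/-- Holomorphic matrices. -/
def HoM (G : X → Matrix n n ℂ) (x : X) : Prop := ∀ i j, Ho (fun y => G y i j) x

theorem HoM.mul (a : HoM G x) (b : HoM G' x) : HoM (fun y => G y * G' y) x := fun i j => by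
  simp only [mul_apply]
  exact Finset.analyticAt_fun_sum _ fun k _ => (a i k).mul (b k j)

theorem HoM.det (a : HoM G x) : Ho (fun y => (G y).det) x := by
  simp only [det_apply']
  exact Finset.analyticAt_fun_sum _ fun σ _ => analyticAt_const.mul
    (Finset.analyticAt_fun_prod _ fun i _ => a (σ i) i)

theorem HoM.inv (a : HoM G x) (h : (G x).det ≠ 0) : HoM (fun y => (G y)⁻¹) x := fun i j => by
  simp only [inv_def, Ring.inverse_eq_inv', Matrix.smul_apply, smul_eq_mul, adjugate_apply]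
  refine (a.det.inv h).mul (HoM.det fun p q => ?_)
  simp only [updateRow_apply]
  split_ifs
  exacts [ho_const _, a p q]

theorem HoM.diag {d : n → X → ℂ} (h : ∀ j, Ho (d j) x) :
    HoM (fun y => diagonal fun j => d j y) x := fun i j => by
  simp only [diagonal_apply]
  split_ifs
  exacts [h i, ho_const _]

end hom

/-- Two copies of a system of charts; the partition of unity lives on the copy `s`. -/
noncomputable def dup (A : FinAt X) (x : Fin A.N → X)
    (h : ∀ a, A.U a ⊆ (chartAt C2 (x a)).source) (s : Fin 2) : FinAt X where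
  N := A.N * 2
  e a := chartAt C2 (x a.divNat)
  he _ := chart_mem_atlas _ _
  U a := A.U a.divNat
  isOpen_U _ := A.isOpen_U _
  U_sub _ := h _
  rho a := if a.modNat = s then A.rho a.divNat else 0
  rho_smooth a := by
    split_ifs
    exacts [A.rho_smooth _,
      fun _ _ => by rw [LB.loc0_zero]; exact contDiffOn_const (c := ((0 : ℝ) : ℂ))]
  rho_nonneg a y := by
    split_ifs
    exacts [A.rho_nonneg _ _, le_rfl]
  rho_supp a := by
    split_ifs
    exacts [A.rho_supp _, by simp]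
  rho_sum y := (finProdFinEquiv.symm.sum_comp fun p : Fin A.N × Fin 2 =>
    (if p.2 = s then A.rho p.1 else 0) y).trans
      (by simp [Fintype.sum_prod_type, ite_apply, A.rho_sum])

variable [IsManifold 𝓘(ℂ, C2) ω X] {A : FinAt X}

/-- The dual of the bundle with the frames `F a`. -/
noncomputable def frB {n : Type} [Fintype n] [DecidableEq n] {r : ℕ} (ε : n ≃ Fin r)
    (F : Fin A.N → X → Matrix n n ℂ) (h0 : ∀ a, ∀ y ∈ A.U a, (F a y).det ≠ 0)
    (h1 : ∀ a b, ∀ y ∈ A.U a, y ∈ A.U b → HoM (fun y => (F a y)⁻¹ * F b y) y) : Bun A r where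
  E a b z := reindex ε ε ((F a ((A.e a).symm z))⁻¹ * F b ((A.e a).symm z))ᵀ
  hol a b z hz i j := by
    have := (ho_iff.1 (h1 a b _ hz.1.2 hz.2 (ε.symm j) (ε.symm i))).chart (A.he a)
      (FinAt.symm_mem_source hz.1)
    rwa [(A.e a).right_inv hz.1.1] at this
  self a z hz := by
    rw [nonsing_inv_mul _ (h0 a _ hz.2).isUnit, transpose_one, reindex_apply, submatrix_one_equiv]
  comp a b c z hz _ := by
    simp only [FinAt.symm_tau hz, reindex_apply, submatrix_mul_equiv, ← transpose_mul,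
      Matrix.mul_assoc, mul_nonsing_inv_cancel_left _ _ (h0 b _ hz.2).isUnit]

theorem chi_dup {x : Fin A.N → X} {h : ∀ a, A.U a ⊆ (chartAt C2 (x a)).source} {s s' : Fin 2}
    {r : ℕ} (B : Bun (dup A x h s) r) :
    (⟨B.E, B.hol, B.self, B.comp⟩ : Bun (dup A x h s') r).chi = B.chi := rfl

/-- The integrand belonging to the density `D`. -/
noncomputable def itg (A : FinAt X) (D : Fin A.N → Fin A.N → Fin A.N → C2 → ℂ) (a : Fin A.N)
    (z : C2) : ℂ :=
  (4 * (A.rho a ((A.e a).symm z) : ℂ)) * ∑ b, ∑ c, w2 (dbl (fun b x => (A.rho b x : ℂ)) (A.e a) z b)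
    (dbl (fun b x => (A.rho b x : ℂ)) (A.e a) z c) * D a b c z

/-- `χ` is the integral of the density `D`. -/
structure Has (A : FinAt X) (D : Fin A.N → Fin A.N → Fin A.N → C2 → ℂ) (χ : ℂ) : Prop where
  int : ∀ a, IntegrableOn (itg A D a) (A.e a).target
  eq : χ = 1 / (4 * (Real.pi : ℂ) ^ 2) * ∑ a, ∫ z in (A.e a).target, itg A D a z

variable {D D' : Fin A.N → Fin A.N → Fin A.N → C2 → ℂ} {χ χ' : ℂ}

theorem Has.add (h : Has A D χ) (h' : Has A D' χ') :
    Has A (fun a b c z => D a b c z + D' a b c z) (χ + χ') := by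
  have e : ∀ a, itg A (fun a b c z => D a b c z + D' a b c z) a =
      fun z => itg A D a z + itg A D' a z := fun a => funext fun z => by
    simp only [itg, mul_add, Finset.sum_add_distrib]
  refine ⟨fun a => e a ▸ (h.int a).add (h'.int a), ?_⟩
  simp only [e, fun a => integral_add (h.int a) (h'.int a), Finset.sum_add_distrib, mul_add,
    ← h.eq, ← h'.eq]

theorem Has.sum {κ : Type} (T : Finset κ) {D : κ → Fin A.N → Fin A.N → Fin A.N → C2 → ℂ}
    {χ : κ → ℂ} (h : ∀ k, Has A (D k) (χ k)) :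
    Has A (fun a b c z => ∑ k ∈ T, D k a b c z) (∑ k ∈ T, χ k) := by
  classical
  induction T using Finset.induction_on with
  | empty =>
    have e : ∀ a, itg A (fun _ _ _ _ => 0) a = fun _ => 0 := fun a => funext fun z => by simp [itg]
    exact ⟨fun a => by simp [e], by simp [e]⟩
  | insert k T hk ih => simpa only [Finset.sum_insert hk] using (h k).add ih

theorem Has.congr (h : Has A D χ) (e : ∀ a b c, A.rho a ≠ 0 → A.rho b ≠ 0 → A.rho c ≠ 0 →
    ∀ z ∈ A.ov a b, z ∈ A.ov a c → D a b c z = D' a b c z) : Has A D' χ := by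
  have k : ∀ a, EqOn (itg A D a) (itg A D' a) (A.e a).target := fun a z hz => by
    by_cases h0 : A.rho a ((A.e a).symm z) = 0
    · simp [itg, h0]
    have hU := A.rho_supp a (subset_tsupport _ h0)
    have d : ∀ b, (A.rho b ≠ 0 ∧ z ∈ A.ov a b) ∨
        dbl (fun b x => (A.rho b x : ℂ)) (A.e a) z b = 0 := fun b => by
      by_cases h1 : A.rho b = 0
      · exact .inr (funext fun j => by simp [dbl, h1])
      by_cases h2 : (A.e a).symm z ∈ A.U b
      · exact .inl ⟨h1, ⟨hz, hU⟩, h2⟩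
      · exact .inr ((A.e a).right_inv hz ▸ dbl_zero (pu A) ((A.e a).map_target hz) h2)
    refine congrArg (_ * ·) (Finset.sum_congr rfl fun b _ => Finset.sum_congr rfl fun c _ => ?_)
    rcases d b with hb | hb
    · rcases d c with hc | hc
      · rw [e a b c (fun t => h0 (congrFun t _)) hb.1 hc.1 z hb.2 hc.2]
      · simp [hc, w2]
    · simp [hb, w2]
  have m := fun a => (A.e a).open_target.measurableSet
  exact ⟨fun a => (h.int a).congr_fun (k a) (m a), h.eq.trans (congrArg (_ * ·)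
    (Finset.sum_congr rfl fun a _ => setIntegral_congr_fun (m a) (k a)))⟩

theorem Has.uniq (h : Has A D χ) (h' : Has A D χ') : χ = χ' := h.eq.trans h'.eq.symm

theorem has_bun [T2Space X] [CompactSpace X] {r : ℕ} (B : Bun A r) :
    Has A (fun a b c z => Rg (cov (A.J a b) z) (cov (A.J a c) z) (cv (B.E a b) z) (cv (B.E a c) z))
      B.chi := by
  simp only [← Rd_eq]
  exact ⟨integrand_integrable (pu A) A.he A.U_sub (regC_bun B),
    (P267.H983.chi_todd (analytic X) B).trans (chiI_eq B fun _ _ _ => rfl)⟩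

end Vale.Agent.P287Q.D.Ad
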