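import Vale.Agent.P287Q.D.St

/-!
# The adjunction formula for a smooth curve on a surface
-/

namespace Vale.Agent.P287Q.D

open Set Function Topology Filter P267.FL P269.Cv
open scoped ContDiff Manifold Matrix

namespace Adj

/-- The determinant of two vectors. -/
def dt (v w : C2) : ℂ := v 0 * w 1 - v 1 * w 0

theorem dt_mulVec (M : Matrix (Fin 2) (Fin 2) ℂ) (v w : C2) :
    dt (M *ᵥ v) (M *ᵥ w) = M.det * dt v w := by
  simp only [dt, Matrix.mulVec, dotProduct, Fin.sum_univ_two, Matrix.det_fin_two]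
  ring

theorem exists_res {l : C2 →L[ℂ] ℂ} {τ : C2} (hl : l ≠ 0) (hτ : τ ≠ 0) (h : l τ = 0) :
    ∃ σ : ℂ, σ ≠ 0 ∧ ∀ v, dt v τ = σ * l v := by
  have e : ∀ v : C2, l v = v 0 * l (Pi.single 0 1) + v 1 * l (Pi.single 1 1) := fun v => by
    have : v = v 0 • (Pi.single 0 1 : C2) + v 1 • (Pi.single 1 1 : C2) := by
      funext i
      fin_cases i <;> simp
    conv_lhs => rw [this, map_add, map_smul, map_smul]
    rfl
  obtain ⟨σ, hσ⟩ : ∃ σ : ℂ, ∀ v, dt v τ = σ * l v := by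
    rw [e] at h
    by_cases h0 : l (Pi.single 0 1) = 0
    · have h1 : l (Pi.single 1 1) ≠ 0 := fun h1 =>
        hl (ContinuousLinearMap.ext fun v => by rw [e, h0, h1]; simp)
      rw [h0, mul_zero, zero_add] at h
      refine ⟨-τ 0 / l (Pi.single 1 1), fun v => ?_⟩
      rw [e v, h0, dt, (mul_eq_zero.1 h).resolve_right h1]
      field_simp
      ring
    · refine ⟨τ 1 / l (Pi.single 0 1), fun v => ?_⟩
      rw [e v, dt]
      field_simp
      linear_combination -v 1 * h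
  refine ⟨σ, fun h0 => hτ ?_, hσ⟩
  have h1 := hσ (Pi.single 0 1)
  have h2 := hσ (Pi.single 1 1)
  funext i
  fin_cases i
  · simpa [dt, h0] using h2
  · simpa [dt, h0] using h1

variable {X : Type} [TopologicalSpace X] [ChartedSpace C2 X] {C : Type} [TopologicalSpace C]

/-- The tangent vector of the curve at `c` in the chart at `y`. -/
noncomputable def tg (R : RS C) (ι : C → X) (y : X) (c : C) : C2 :=
  deriv (fun t => chartAt C2 y (ι (R.i c t))) 0

/-- The local equation in the chart at `y`. -/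
noncomputable def eqn (A : SB X) (s : X → ℂ) (y : X) (z : C2) : ℂ :=
  s ((chartAt C2 y).symm z) / A.φ y ((chartAt C2 y).symm z)

variable [IsManifold 𝓘(ℂ, C2) ω X] {A : SB X} {s : X → ℂ} {R : RS C} {ι : C → X} {y : X} {c : C}

theorem hol_chart (h : HolC R ι) (hy : ι c ∈ (chartAt C2 y).source) :
    R.Hol (fun t => chartAt C2 y (ι t)) c :=
  h.comp (trans_analyticAt (chart_mem_atlas C2 _) (chart_mem_atlas C2 y) (mem_chart_source C2 _) hy)

omit [IsManifold 𝓘(ℂ, C2) ω X] in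
theorem ev_src (h : HolC R ι) (hy : ι c ∈ (chartAt C2 y).source) :
    ∀ᶠ t in 𝓝 0, ι (R.i c t) ∈ (chartAt C2 y).source :=
  R.ev_iff.1 (h.cont.continuousAt.eventually ((chartAt C2 y).open_source.mem_nhds hy))

theorem tg_apply (h : HolC R ι) (hy : ι c ∈ (chartAt C2 y).source) (p : Fin 2) :
    tg R ι y c p = R.d (fun t => chartAt C2 y (ι t) p) c :=
  congrFun (deriv_pi fun i => (analyticAt_pi_iff.1 (hol_chart h hy) i).differentiableAt) p

theorem deriv_comp {V : Type} [NormedAddCommGroup V] [NormedSpace ℂ V] {u : C2 → V}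
    (h : HolC R ι) (hy : ι c ∈ (chartAt C2 y).source)
    (hu : DifferentiableAt ℂ u (chartAt C2 y (ι c))) :
    deriv (fun t => u (chartAt C2 y (ι (R.i c t)))) 0 =
      fderiv ℂ u (chartAt C2 y (ι c)) (tg R ι y c) :=
  (hu.hasFDerivAt.comp_hasDerivAt_of_eq 0 (AnalyticAt.differentiableAt (hol_chart h hy)).hasDerivAt
    (by simp only [R.i_zero])).deriv

theorem tg_eq (h : HolC R ι) (hy : ι c ∈ (chartAt C2 y).source) :
    tg R ι (ι c) c = jac (chartAt C2 y) (ι c) *ᵥ tg R ι y c := by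
  have h1 := trans_differentiableAt (chart_mem_atlas C2 y) (chart_mem_atlas C2 (ι c)) hy
    (mem_chart_source C2 _)
  rw [jac, jacM_mulVec (chart_mem_atlas C2 y) (chart_mem_atlas C2 _) hy (mem_chart_source C2 _),
    ← deriv_comp h hy h1]
  refine EventuallyEq.deriv_eq ((ev_src h hy).mono fun t ht => ?_)
  simp only [(chartAt C2 y).left_inv ht]

theorem eqn_tg (h : Crv A s R ι) (c : C) :
    fderiv ℂ (eqn A s (ι c)) (chartAt C2 (ι c) (ι c)) (tg R ι (ι c) c) = 0 := by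
  have hy := mem_chart_source C2 (ι c)
  have h1 : DifferentiableAt ℂ (eqn A s (ι c)) (chartAt C2 (ι c) (ι c)) :=
    AnalyticAt.differentiableAt (h.sec (ι c))
  rw [← deriv_comp h.toHolC hy h1]
  refine (EventuallyEq.deriv_eq ((ev_src h.toHolC hy).mono fun t ht => ?_)).trans
    (deriv_const (0 : ℂ) (0 : ℂ))
  simp only [eqn, (chartAt C2 _).left_inv ht, (h.rng _).1 ⟨_, rfl⟩, zero_div]

theorem eqn_eq {x : X} (hs : A.Sec s x) (h0 : s x = 0) (hy : x ∈ (chartAt C2 y).source)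
    (hφ : A.Sec (A.φ y) x) (v : C2) :
    fderiv ℂ (eqn A s x) (chartAt C2 x x) (jac (chartAt C2 y) x *ᵥ v) =
      A.φ y x * fderiv ℂ (eqn A s y) (chartAt C2 y x) v := by
  have h1 := trans_differentiableAt (chart_mem_atlas C2 y) (chart_mem_atlas C2 x) hy
    (mem_chart_source C2 _)
  have h2 : DifferentiableAt ℂ (eqn A s x) (chartAt C2 x ((chartAt C2 y).symm (chartAt C2 y x))) :=
    ((chartAt C2 y).left_inv hy).symm ▸ AnalyticAt.differentiableAt hs
  have h3 : DifferentiableAt ℂ (eqn A s y) (chartAt C2 y x) :=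
    ((ho_iff.1 (hs.hol_div hφ (A.ne _ _))).chart (chart_mem_atlas C2 y) hy).differentiableAt
  have h4 := ((ho_iff.1 hφ).chart (chart_mem_atlas C2 y) hy).differentiableAt
  have h5 : (eqn A s x ∘ fun z => chartAt C2 x ((chartAt C2 y).symm z)) =ᶠ[𝓝 (chartAt C2 y x)]
      fun z => A.φ y ((chartAt C2 y).symm z) / A.φ x ((chartAt C2 y).symm z) * eqn A s y z := by
    filter_upwards [(isOpen_trans (chartAt C2 y) (chartAt C2 x)).mem_nhds
      (mem_trans hy (mem_chart_source C2 x))] with z hz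
    simp only [comp_apply, eqn, (chartAt C2 x).left_inv hz.2]
    field_simp [A.ne]
  have h6 := h5.fderiv_eq (𝕜 := ℂ)
  rw [fderiv_comp (chartAt C2 y x) h2 h1, fderiv_fun_mul h4 h3, (chartAt C2 y).left_inv hy] at h6
  rw [jac, jacM_mulVec (chart_mem_atlas C2 y) (chart_mem_atlas C2 x) hy (mem_chart_source C2 _)]
  simpa [eqn, (chartAt C2 y).left_inv hy, h0, A.self] using DFunLike.congr_fun h6 v

end Adj

open Adj in
/-- Adjunction. -/
theorem stAdj' {X : Type} [TopologicalSpace X] [ChartedSpace C2 X] [IsManifold 𝓘(ℂ, C2) ω X] :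
    StAdj X := by
  intro A s C _ R ι h
  choose σ h1 h2 using fun c => exists_res (h.tr c) (h.imm c) (eqn_tg h c)
  refine ⟨σ, fun c => ?_, h1⟩
  obtain ⟨v, hv⟩ : ∃ v, fderiv ℂ (eqn A s (ι c)) (chartAt C2 (ι c) (ι c)) v ≠ 0 :=
    DFunLike.ne_iff.1 (h.tr c)
  have hy := mem_chart_source C2 (ι c)
  have a1 : ∀ p, R.Hol (fun z => R.d (fun t => chartAt C2 (ι c) (ι t) p) z / R.d (R.e c) z) c :=
    fun p => RS.Hol.d_div (R.mem c) (analyticAt_pi_iff.1 (h.an c) p)
  have a2 : R.Hol (fun z => fderiv ℂ (eqn A s (ι c)) (chartAt C2 (ι c) (ι z)) v) c :=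
    RS.Hol.comp (u := fun w => fderiv ℂ (eqn A s (ι c)) w v)
      (((ContinuousLinearMap.apply ℂ ℂ v).analyticAt _).comp (AnalyticAt.fderiv (h.sec (ι c))))
      (h.an c)
  refine LB.sec_iff.2 (((((RS.hol_const (v 0)).mul (a1 1)).sub
    ((RS.hol_const (v 1)).mul (a1 0))).div a2 hv).congr ?_)
  filter_upwards [h.cont.continuousAt.eventually ((chartAt C2 (ι c)).open_source.mem_nhds hy),
    h.cont.continuousAt.eventually (A.sec_φ (ι c)), R.src_nhds c,
    a2.continuousAt.eventually_ne hv] with z b1 b2 b3 b4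
  have e := h2 z (jac (chartAt C2 (ι c)) (ι z) *ᵥ v)
  change dt _ (tg R ι (ι z) z) = σ z * fderiv ℂ (eqn A s (ι z)) _ _ at e
  rw [tg_eq h.toHolC b1, dt_mulVec, eqn_eq (h.sec _) ((h.rng _).1 ⟨_, rfl⟩) b1 b2, dt,
    tg_apply h.toHolC b1, tg_apply h.toHolC b1] at e
  have n1 := jac_det_ne_zero (chart_mem_atlas C2 (ι c)) b1
  have n2 := RS.d_e_ne b3
  have n3 := A.ne (ι c) (ι z)
  rw [LB.div_φ, HolC.pb_φ, SB.mul_φ, SB.K_φ b1, RS.K_φ b3]
  field_simp
  linear_combination e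

end Vale.Agent.P287Q.D
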