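import Vale.Agent.P287Q.D.St

/-!
# The canonical bundle from the Euler sequences
-/

namespace Vale.Agent.P287Q.D

open Set Function Topology Filter P267.FL
open scoped ContDiff Manifold

variable {X : Type} [TopologicalSpace X] [ChartedSpace C2 X]

theorem Ho.det {ι : Type} [Fintype ι] [DecidableEq ι] {Φ : X → Matrix ι ι ℂ} {x : X}
    (h : ∀ i j, Ho (fun y => Φ y i j) x) : Ho (fun y => (Φ y).det) x := by
  simp only [Matrix.det_apply']
  exact Finset.analyticAt_fun_sum _ fun σ _ => analyticAt_const.mul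
    (Finset.analyticAt_fun_prod _ fun i _ => h _ _)

variable [IsManifold 𝓘(ℂ, C2) ω X]

theorem stCan : StCan X := by
  rintro M Q ⟨Φ, h1, h2, h3⟩
  refine ⟨fun y => (Φ y y).det, fun x => (Ho.det (h1 x)).congr ?_, h2⟩
  filter_upwards [h3 x, (chartAt C2 x).open_source.mem_nhds (mem_chart_source C2 x)]
    with y ⟨U, V, e⟩ hy
  have e1 := congrArg Matrix.det e
  rw [Matrix.det_mul, Matrix.det_mul, Matrix.det_fromBlocks_zero₂₁, Matrix.det_fromBlocks_zero₂₁,
    Matrix.det_one, one_mul, Matrix.det_diagonal, Matrix.det_diagonal, ← SB.prod_φ,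
    ← SB.prod_φ] at e1
  rw [SB.div_φ, SB.mul_φ, SB.K_φ hy]
  have a1 := jac_det_ne_zero (chart_mem_atlas C2 x) hy
  have a2 := (∏ j, M j).ne x y
  have a3 := (∏ i, Q i).ne x y
  field_simp
  linear_combination e1

theorem canB_prod (A B : SB X) :
    SB.K X * (∏ j, M7 A B j) / ∏ i, Q3 A B i = SB.K X / (A * B) := by
  have h1 : ∏ j, M7 A B j = (A * B) ^ 6 := by
    simp only [M7, Fintype.prod_sum_type, Sum.elim_inl, Sum.elim_inr, Fin.prod_univ_succ,
      Matrix.cons_val_zero, Matrix.cons_val_succ, Fin.prod_univ_zero, pow_succ, pow_zero,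
      mul_one, one_mul]
    ac_rfl
  have h2 : ∏ i, Q3 A B i = (A * B) * (A * B) ^ 6 := by
    simp only [Q3, Fin.prod_univ_succ, Matrix.cons_val_zero, Matrix.cons_val_succ,
      Fin.prod_univ_zero, mul_one, ← pow_add, ← pow_succ']
  rw [h1, h2, mul_div_mul_right_eq_div]

/-- The canonical bundle of the surface is `A B`. -/
theorem can_of {A B : SB X} (h : Eul (M7 A B) (Q3 A B)) : (SB.K X / (A * B)).Triv :=
  canB_prod A B ▸ stCan _ _ h

end Vale.Agent.P287Q.D
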