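import Vale.Agent.P287Q.D.St

/-!
# Intersection forms on line bundles; trivial bundles
-/

set_option linter.unusedSectionVars false

namespace Vale.Agent.P287Q.D

open Set Function P267.FL
open scoped ContDiff Manifold

variable {X : Type} [TopologicalSpace X] [ChartedSpace C2 X]

namespace IP

variable {ip : SB X → SB X → ℤ} (h : IP ip)
include h

/-- The form as a homomorphism in the first argument. -/
noncomputable def hom (M' : SB X) : SB X →* Multiplicative ℤ :=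
  MonoidHom.mk' (fun M => .ofAdd (ip M M')) fun M N => congrArg _ (h.add M N M')

theorem one (M : SB X) : ip 1 M = 0 := congrArg Multiplicative.toAdd (h.hom M).map_one

theorem inv (M M' : SB X) : ip M⁻¹ M' = -ip M M' :=
  congrArg Multiplicative.toAdd ((h.hom M').map_inv M)

theorem div (M N M' : SB X) : ip (M / N) M' = ip M M' - ip N M' :=
  congrArg Multiplicative.toAdd ((h.hom M').map_div M N)

theorem zpow (M M' : SB X) (n : ℤ) : ip (M ^ n) M' = n * ip M M' :=
  congrArg Multiplicative.toAdd ((h.hom M').map_zpow M n)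

theorem pow (M M' : SB X) (n : ℕ) : ip (M ^ n) M' = n * ip M M' := by
  rw [← zpow_natCast, h.zpow]

theorem prod {α : Type} (T : Finset α) (M : α → SB X) (M' : SB X) :
    ip (∏ a ∈ T, M a) M' = ∑ a ∈ T, ip (M a) M' :=
  (congrArg Multiplicative.toAdd (map_prod (h.hom M') M T)).trans (toAdd_prod _ _)

theorem add' (M N M' : SB X) : ip M' (M * N) = ip M' M + ip M' N := by
  rw [h.symm, h.add, h.symm M, h.symm N]

theorem one' (M : SB X) : ip M 1 = 0 := by rw [h.symm, h.one]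

theorem inv' (M M' : SB X) : ip M' M⁻¹ = -ip M' M := by rw [h.symm, h.inv, h.symm]

theorem div' (M N M' : SB X) : ip M' (M / N) = ip M' M - ip M' N := by
  rw [h.symm, h.div, h.symm M, h.symm N]

theorem zpow' (M M' : SB X) (n : ℤ) : ip M' (M ^ n) = n * ip M' M := by
  rw [h.symm, h.zpow, h.symm]

theorem pow' (M M' : SB X) (n : ℕ) : ip M' (M ^ n) = n * ip M' M := by
  rw [h.symm, h.pow, h.symm]

theorem prod' {α : Type} (T : Finset α) (M : α → SB X) (M' : SB X) :
    ip M' (∏ a ∈ T, M a) = ∑ a ∈ T, ip M' (M a) := by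
  rw [h.symm, h.prod]
  exact Finset.sum_congr rfl fun _ _ => h.symm _ _

theorem triv' {M : SB X} (a : M.Triv) (M' : SB X) : ip M' M = 0 := by rw [h.symm, h.triv _ _ a]

theorem congr {M N : SB X} (a : (M / N).Triv) (M' : SB X) : ip M M' = ip N M' :=
  sub_eq_zero.1 ((h.div _ _ _).symm.trans (h.triv _ _ a))

theorem congr' {M N : SB X} (a : (M / N).Triv) (M' : SB X) : ip M' M = ip M' N := by
  rw [h.symm, h.congr a, h.symm]

end IP

namespace SB

variable {M N : SB X}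

theorem triv_one : (1 : SB X).Triv := ⟨1, fun _ => sec_one.2 (ho_const 1), fun _ => one_ne_zero⟩

theorem Triv.mul (a : M.Triv) (b : N.Triv) : (M * N).Triv :=
  let ⟨_, h1, h2⟩ := a
  let ⟨_, h3, h4⟩ := b
  ⟨_, mul_mem h1 h3, fun x => mul_ne_zero (h2 x) (h4 x)⟩

theorem Triv.inv (a : M.Triv) : M⁻¹.Triv :=
  let ⟨s, h1, h2⟩ := a
  ⟨s⁻¹, fun x => (h1 x).inv (h2 x), fun x => inv_ne_zero (h2 x)⟩

theorem Triv.div (a : M.Triv) (b : N.Triv) : (M / N).Triv := div_eq_mul_inv M N ▸ a.mul b.inv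

theorem Triv.symm (a : (M / N).Triv) : (N / M).Triv := inv_div M N ▸ a.inv

theorem Triv.of_eq (a : M.Triv) (e : M = N) : N.Triv := e ▸ a

/-- Multiplication by a section. -/
noncomputable def mulL {L : SB X} {s : X → ℂ} (hs : s ∈ L.Γ) (e : L * N = M) : N.Γ →ₗ[ℂ] M.Γ :=
  (LinearMap.mulLeft ℂ s).restrict fun _ a => e ▸ mul_mem hs a

theorem Triv.equiv (a : (M / N).Triv) :
    ∃ (s : X → ℂ) (e : N.Γ ≃ₗ[ℂ] M.Γ), (∀ x, s x ≠ 0) ∧ ∀ t, (e t).1 = s * t.1 := by
  obtain ⟨s, h1, h2⟩ := a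
  have e : s⁻¹ * s = 1 := funext fun x => inv_mul_cancel₀ (h2 x)
  refine ⟨s, .ofLinearMap (mulL h1 (div_mul_cancel M N)) (mulL (L := (M / N)⁻¹) (s := s⁻¹)
    (fun x => (h1 x).inv (h2 x)) (by rw [inv_div, div_mul_cancel])) ?_ ?_, h2, fun _ => rfl⟩
  · ext1 t
    exact Subtype.ext (show s * (s⁻¹ * t.1) = t.1 by rw [← mul_assoc, mul_comm s, e, one_mul])
  · ext1 t
    exact Subtype.ext (show s⁻¹ * (s * t.1) = t.1 by rw [← mul_assoc, e, one_mul])

theorem Triv.h0_eq (a : (M / N).Triv) : M.h0 = N.h0 :=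
  let ⟨_, e, _⟩ := a.equiv
  e.finrank_eq.symm

theorem h0_bot (h : M.Γ = ⊥) : M.h0 = 0 := by rw [h0, h, finrank_bot]

end SB

namespace Pk

variable [IsManifold 𝓘(ℂ, C2) ω X] {N : NF} {A B : SB X} {p : X → W7} {ip : SB X → SB X → ℤ}
  (h : Pk N A B p ip)
include h

theorem BA : ip B A = 4 := (h.ip'.symm _ _).trans h.AB

theorem ip_K (M : SB X) : ip M (SB.K X) = ip M A + ip M B := by
  rw [h.ip'.congr' h.can, h.ip'.add']

theorem K_ip (M : SB X) : ip (SB.K X) M = ip A M + ip B M := by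
  rw [h.ip'.congr h.can, h.ip'.add]

theorem h0_K (M : SB X) : (SB.K X / M).h0 = (A * B / M).h0 :=
  SB.Triv.h0_eq (h.can.of_eq (div_div_div_cancel_right _ _ _).symm)

/-- The Riemann-Roch inequality with `K = A B`. -/
theorem rr {χ : ℤ} (a : An ip χ) (M : SB X) :
    2 * χ + ip M M - (ip M A + ip M B) ≤ 2 * (M.h0 + (A * B / M).h0) := by
  rw [← h.ip_K, ← h.h0_K]
  exact a.rr M

end Pk

end Vale.Agent.P287Q.D
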