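import Vale.Agent.P287Q.D.CanB
import Vale.Agent.P287Q.D.IPa

/-!
# The holomorphic Euler characteristic of the surface
-/

set_option linter.unusedSectionVars false

namespace Vale.Agent.P287Q.D

open Set Function Topology Filter P267.FL P267.BlockC P267.RR
open scoped ContDiff Manifold

variable {X : Type} [TopologicalSpace X] [ChartedSpace C2 X] [IsManifold 𝓘(ℂ, C2) ω X]

theorem Rl.chi_canon (R : Rl (SB.K X)) : IsCanon R.A.L := by
  refine ⟨fun y => R.v y y, reg0_iff.2 fun x => ?_, fun x => (R.fr x).self_of_nhds.1.sec,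
    fun x => (R.fr x).self_of_nhds.1.ne⟩
  refine ContDiffAt.congr_of_eventuallyEq (R.fr x).self_of_nhds.1.sm ?_
  filter_upwards [(P267.H451.tendsto_chart_symm x).eventually ((R.fr x).and
    ((chartAt C2 x).open_source.mem_nhds (mem_chart_source C2 x)))] with z hz
  rw [hz.1.2, SB.K_φ hz.2, loc0, zpow_neg_one]

theorem chi_rr (hRl : StRl X) (hR : RRStmt X) {ip : SB X → SB X → ℤ} (h : IPr ip) {M : SB X}
    (R : Rl M) : 2 * chi R.A.L R.a 0 = 2 * chi (OX X) 0 0 + ip M M - ip M (SB.K X) := by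
  obtain ⟨K⟩ := hRl (SB.K X)
  have e := hR _ _ R.A.L R.a K.A.L R.hol K.chi_canon
  rw [h _ _ R R, h _ _ R K] at e
  have : ((2 * chi R.A.L R.a 0 : ℤ) : ℂ) =
      ((2 * chi (OX X) 0 0 + ip M M - ip M (SB.K X) : ℤ) : ℂ) := by
    push_cast
    linear_combination 2 * e
  exact_mod_cast this

theorem chi_noe (hRl : StRl X) (hN : NoetherStmt X) {ip : SB X → SB X → ℤ} (h : IPr ip) :
    ip (SB.K X) (SB.K X) = 10 * chi (OX X) 0 0 + chiOm X := by
  obtain ⟨K⟩ := hRl (SB.K X)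
  have e := hN _ K.A.L K.chi_canon
  rw [h _ _ K K] at e
  exact_mod_cast e

/-- `χ(𝒪) = 6` -/
theorem stChi_of (hRl : StRl X) (hAdd : StAdd X) (hR : RRStmt X) (hN : NoetherStmt X) :
    StChi X := by
  intro A B ip h hr hA hB hAB hE
  have hBA := (h.symm B A).trans hAB
  obtain ⟨f, hf⟩ : ∃ f : SB X → ℤ, ∀ M, f M = chi (hRl M⁻¹).some.A.L (hRl M⁻¹).some.a 0 :=
    ⟨_, fun _ => rfl⟩
  have e : ∑ j, f (M7 A B j) = 2 * chi (OX X) 0 0 + chiOm X + ∑ i, f (Q3 A B i) := by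
    simp only [hf]
    exact hAdd _ _ hE (fun j => (hRl _).some) fun i => (hRl _).some
  have e1 := chi_noe hRl hN hr
  have r : ∀ (a b : ℕ) (M : SB X), M = A ^ a * B ^ b →
      2 * f M = 2 * chi (OX X) 0 0 + (a * a + 8 * a * b + b * b) + 5 * (a + b) := by
    rintro a b _ rfl
    rw [hf, chi_rr hRl hR hr, h.congr' (can_of hE)]
    simp only [h.inv, h.inv', h.add, h.add', h.pow, h.pow', hA, hB, hAB, hBA]
    ring
  have b1 := r 1 0 A (by simp)
  have b2 := r 0 1 B (by simp)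
  have b3 := r 1 1 (A * B) (by simp)
  have b4 := r 2 1 (A ^ 2 * B) (by simp)
  have b5 := r 1 2 (A * B ^ 2) (by simp)
  have b6 := r 2 2 _ (mul_pow A B 2)
  have b7 := r 3 3 _ (mul_pow A B 3)
  rw [h.congr (can_of hE), h.congr' (can_of hE)] at e1
  simp only [h.add, h.add', hA, hB, hAB, hBA] at e1
  simp only [M7, Q3, Fintype.sum_sum_type, Fin.sum_univ_succ, Fin.sum_univ_zero,
    Sum.elim_inl, Sum.elim_inr, Matrix.cons_val_zero, Matrix.cons_val_succ] at e
  push_cast at b1 b2 b3 b4 b5 b6 b7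
  omega

end Vale.Agent.P287Q.D
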