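import Mathlib.Analysis.Calculus.FDeriv.Basic
import Mathlib.Analysis.Complex.Basic
import Mathlib.Algebra.MvPolynomial.Eval

/-!
# The surface of the lines meeting a line of a cubic fourfold: coordinates
-/

namespace Vale.Agent.P287Q.D

open Set Function

/-- The coordinates `y₀, y₁, y₂, w` of the planes through the line. -/
abbrev V4 : Type := Fin 4 → ℂ

/-- The coordinates `λ₀, λ₁, λ₀', λ₁', w, μ, μ'`. -/
abbrev W7 : Type := Fin 7 → ℂ

/-- The coefficients of the normal form. -/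
structure NF where
  /-- the two quadratic forms -/
  B : Fin 2 → V4 →L[ℂ] V4 →L[ℂ] ℂ
  /-- the cubic form -/
  C : V4 →L[ℂ] V4 →L[ℂ] V4 →L[ℂ] ℂ

/-- The plane of a factorisation. -/
def yy (z : W7) : V4 := ![z 0 * z 2, z 0 * z 3 + z 1 * z 2, z 1 * z 3, z 4]

/-- The plane which is tangent along the line. -/
def pp : V4 := ![0, 0, 0, 1]

/-- The characters of the coordinates. -/
def ch (a : ℂ × ℂ) : Fin 7 → ℂ :=
  ![a.1, a.1, a.2, a.2, a.1 * a.2, a.1 ^ 2 * a.2, a.1 * a.2 ^ 2]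

/-- The action of the torus. -/
def ac (a : ℂ × ℂ) (z : W7) : W7 := fun j => ch a j * z j

/-- The exchange of the two factors. -/
def sw (z : W7) : W7 := ![z 2, z 3, z 0, z 1, z 4, z 6, z 5]

namespace NF

variable (N : NF)

/-- The quadratic forms. -/
noncomputable def b (i : Fin 2) (y : V4) : ℂ := N.B i y y

/-- The cubic form. -/
noncomputable def c (y : V4) : ℂ := N.C y y y

/-- The equation of the cubic fourfold. -/
noncomputable def F (u : Fin 2 → ℂ) (y : V4) : ℂ :=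
  u 0 ^ 2 * y 0 + u 0 * u 1 * y 1 + u 1 ^ 2 * y 2 + u 0 * N.b 0 y + u 1 * N.b 1 y + N.c y

/-- The equations of the surface. -/
noncomputable def G (z : W7) : Fin 3 → ℂ :=
  ![N.b 0 (yy z) - z 0 * z 6 - z 2 * z 5, N.b 1 (yy z) - z 1 * z 6 - z 3 * z 5,
    N.c (yy z) - z 5 * z 6]

/-- The cone over the surface. -/
def Z : Set W7 := {z | yy z ≠ 0 ∧ N.G z = 0}

/-- The line is general. -/
structure Good : Prop where
  b0 : N.b 0 pp = 0
  b1 : N.b 1 pp ≠ 0
  sm : ∀ z ∈ N.Z, Surjective (fderiv ℂ N.G z)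
  sc : ∀ z ∈ N.Z, z 0 = 0 → Surjective fun v : W7 => (fderiv ℂ N.G z v, v 0)

/-- `A` are coordinates in which the cubic form `F` is the normal form. -/
def Rep (F : MvPolynomial (Fin 6) ℂ) (A : ((Fin 2 → ℂ) × V4) ≃L[ℂ] (Fin 6 → ℂ)) : Prop :=
  ∀ u y, MvPolynomial.eval (A (u, y)) F = N.F u y

theorem b_smul (i : Fin 2) (t : ℂ) (y : V4) : N.b i (t • y) = t ^ 2 * N.b i y := by
  simp only [b, map_smul, smul_apply, smul_eq_mul]; ring

theorem c_smul (t : ℂ) (y : V4) : N.c (t • y) = t ^ 3 * N.c y := by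
  simp only [c, map_smul, smul_apply, smul_eq_mul]; ring

end NF

theorem yy_ac (a : ℂ × ℂ) (z : W7) : yy (ac a z) = (a.1 * a.2) • yy z := by
  funext i
  fin_cases i <;> simp [yy, ac, ch] <;> ring

theorem yy_sw (z : W7) : yy (sw z) = yy z := by
  funext i
  fin_cases i <;> simp [yy, sw] <;> ring

theorem sw_sw (z : W7) : sw (sw z) = z := by
  funext i
  fin_cases i <;> rfl

theorem sw_ac (a : ℂ × ℂ) (z : W7) : sw (ac a z) = ac a.swap (sw z) := by
  funext i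
  fin_cases i <;> simp [sw, ac, ch] <;> ring_nf <;> simp

theorem ac_one (z : W7) : ac 1 z = z := by
  funext i
  fin_cases i <;> simp [ac, ch]

theorem ac_mul (a a' : ℂ × ℂ) (z : W7) : ac (a * a') z = ac a (ac a' z) := by
  funext i
  fin_cases i <;> simp [ac, ch] <;> ring

namespace NF

variable (N : NF)

theorem G_ac (a : ℂ × ℂ) (z : W7) : N.G (ac a z) =
    fun i => ![(a.1 * a.2) ^ 2, (a.1 * a.2) ^ 2, (a.1 * a.2) ^ 3] i * N.G z i := by
  funext i
  fin_cases i <;> simp [G, yy_ac, b_smul, c_smul, ac, ch] <;> ring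

theorem G_sw (z : W7) : N.G (sw z) = N.G z := by
  funext i
  fin_cases i <;> simp [G, yy_sw] <;> simp [sw] <;> ring

variable {N}

theorem mem_Z {z : W7} : z ∈ N.Z ↔ yy z ≠ 0 ∧ N.b 0 (yy z) = z 0 * z 6 + z 2 * z 5 ∧
    N.b 1 (yy z) = z 1 * z 6 + z 3 * z 5 ∧ N.c (yy z) = z 5 * z 6 := by
  refine and_congr_right fun _ => funext_iff.trans ?_
  simp only [G, Fin.forall_fin_succ, sub_sub]
  simp [sub_eq_zero]

theorem sw_mem {z : W7} (h : z ∈ N.Z) : sw z ∈ N.Z := ⟨yy_sw z ▸ h.1, (N.G_sw z).trans h.2⟩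

theorem ac_mem {a : ℂ × ℂ} (h1 : a.1 ≠ 0) (h2 : a.2 ≠ 0) {z : W7} (h : z ∈ N.Z) : ac a z ∈ N.Z :=
  ⟨yy_ac a z ▸ smul_ne_zero (mul_ne_zero h1 h2) h.1, by
    rw [G_ac, h.2]
    funext i
    simp⟩

end NF

end Vale.Agent.P287Q.D
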