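import Vale.Agent.P287Q.D.Line
import Vale.Agent.P287Q.D.Defs
import Mathlib.LinearAlgebra.Matrix.ToLinearEquiv

/-!
# A good line whose special point is general; the normal form
-/

noncomputable section

namespace Vale.Agent.P287Q.D

open Function Filter Topology ContinuousLinearMap

variable {T : Tri}

theorem Cub.ln_shear (h : Cub T) {x w : V6} (hl : Ln T x w) (ρ s : ℂ) : Ln T x (ρ • w + s • x) := by
  obtain ⟨a, b, c, d⟩ := hl
  refine ⟨a, ?_, ?_, ?_⟩ <;> simp [a, b, c, d, h.s23 x w x, h.s12 w x, h.s13 w w x]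

theorem Cub.f1_shear (h : Cub T) {x w : V6} (hf : F1 T x w) {ρ : ℂ} (hρ : ρ ≠ 0) (s : ℂ) :
    F1 T x (ρ • w + s • x) := fun α β γ e => by
  obtain ⟨a, b, c⟩ := hf (α + β * s + γ * s ^ 2) (ρ * (β + 2 * γ * s)) (ρ ^ 2 * γ) fun v => by
    have := e v
    simp only [map_add, map_smul, add_apply, smul_apply, smul_eq_mul, h.s12 w x] at this
    linear_combination this
  obtain rfl : γ = 0 := by simpa [hρ] using c
  obtain rfl : β = 0 := by simpa [hρ] using b
  exact ⟨by simpa using a, rfl, rfl⟩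

theorem Cub.ln_swap (h : Cub T) {x w : V6} (hl : Ln T x w) : Ln T w x :=
  ⟨hl.2.2.2, h.s13 w w x ▸ hl.2.2.1, h.s13 w x x ▸ hl.2.1, hl.1⟩

theorem Cub.f1_swap (h : Cub T) {x w : V6} (hf : F1 T x w) : F1 T w x := fun α β γ e =>
  let ⟨a, b, c⟩ := hf γ β α fun v => by rw [h.s12 x w]; linear_combination e v
  ⟨c, b, a⟩

theorem Cub.rg_nhds (h : Cub T) {x : V6} (hx : x ≠ 0) (hr : Rg T x) : ∀ᶠ x' in 𝓝 x, Rg T x' := by
  obtain ⟨j, hj⟩ := Function.ne_iff.1 hx
  have hK : IsCompact ((Metric.sphere (0 : V6) 1 ∩ {w | w j = 0}) ×ˢ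
      Metric.sphere (0 : Fin 3 → ℂ) 1) :=
    ((isCompact_sphere _ _).inter_right (isClosed_eq (continuous_apply j) continuous_const)).prod
      (isCompact_sphere _ _)
  have hC : IsClosed {z : V6 × V6 × (Fin 3 → ℂ) | Ln T z.1 z.2.1 ∧ ∀ v,
      z.2.2 0 * T z.1 z.1 v + z.2.2 1 * T z.1 z.2.1 v + z.2.2 2 * T z.2.1 z.2.1 v = 0} := by
    simp only [Ln, Set.ofPred_and, Set.ofPred_forall]
    refine IsClosed.inter (.inter ?_ (.inter ?_ (.inter ?_ ?_))) (isClosed_iInter fun v => ?_) <;>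
      exact isClosed_eq (by fun_prop) continuous_const
  filter_upwards [hK.eventually_forall_of_forall_eventually (x₀ := x) (P := fun x z =>
    ¬(Ln T x z.1 ∧ ∀ v, z.2 0 * T x x v + z.2 1 * T x z.1 v + z.2 2 * T z.1 z.1 v = 0))
    fun z hz => hC.isOpen_compl.mem_nhds fun hc => by
      have h1 : z.1 ≠ 0 := Metric.ne_of_mem_sphere hz.1.1 one_ne_zero
      obtain ⟨a, b, c⟩ := hr z.1 (fun s t e => by
        have h4 : s = 0 := by
          simpa [show z.1 j = 0 from hz.1.2, show x j ≠ 0 from hj] using congrFun e j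
        exact ⟨h4, by simpa [h4, h1] using e⟩) hc.1 _ _ _ hc.2
      exact Metric.ne_of_mem_sphere hz.2 one_ne_zero
        (funext fun i => by fin_cases i; exacts [a, b, c]),
    (continuous_apply j).continuousAt.eventually_ne hj] with y hy hj' w hi hl
  have h1 : w - (w j / y j) • y ≠ 0 := fun e =>
    one_ne_zero (hi (-(w j / y j)) 1 (by rw [← e]; module)).2
  obtain ⟨r, hr'⟩ : ∃ r : ℂ, r = Complex.ofReal ‖w - (w j / y j) • y‖ := ⟨_, rfl⟩
  have h2 : r ≠ 0 := by simpa [hr'] using h1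
  have h3 : F1 T y (r⁻¹ • w + -(r⁻¹ * (w j / y j)) • y) := fun α β γ e => by
    by_contra hn
    have h4 : (![α, β, γ] : Fin 3 → ℂ) ≠ 0 := fun e' =>
      hn ⟨congrFun e' 0, congrFun e' 1, congrFun e' 2⟩
    refine hy (r⁻¹ • w + -(r⁻¹ * (w j / y j)) • y, (‖(![α, β, γ] : Fin 3 → ℂ)‖⁻¹ : ℂ) • ![α, β, γ])
      ⟨⟨?_, ?_⟩, ?_⟩ ⟨h.ln_shear hl _ _, fun v => ?_⟩
    · rw [show r⁻¹ • w + -(r⁻¹ * (w j / y j)) • y = r⁻¹ • (w - (w j / y j) • y) by module]
      simp [norm_smul, hr', h1]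
    · simp [mul_assoc, div_mul_cancel₀ _ (show y j ≠ 0 from hj')]
    · rw [mem_sphere_zero_iff_norm, norm_smul]
      simp [h4]
    · simp only [Pi.smul_apply, smul_eq_mul, Matrix.cons_val]
      linear_combination (‖(![α, β, γ] : Fin 3 → ℂ)‖⁻¹ : ℂ) * e v
  have h5 := h.f1_shear h3 h2 (w j / y j)
  rwa [smul_add, smul_smul, smul_smul, mul_inv_cancel₀ h2, mul_neg, mul_inv_cancel_left₀ h2,
    one_smul, neg_smul, neg_add_cancel_right] at h5

theorem Pl.det {n : Type} [Fintype n] [DecidableEq n] {M : V6 → Matrix n n ℂ}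
    (h : ∀ i j, Pl fun w => M w i j) : Pl fun w => (M w).det := by
  choose p hp using h
  refine ⟨(Matrix.of p).det, fun w => ?_⟩
  rw [AlgHom.map_det]
  exact congrArg _ (Matrix.ext fun i j => hp i j w)

theorem Pl.const (c : ℂ) : Pl fun _ => c := ⟨MvPolynomial.C c, fun _ => by simp⟩

/-- The plane `p, q, e` is tangent along the line `p, q` and the residual line contains `p`. -/
def Sp (T : Tri) (p q e : V6) : Prop :=
  Ln T p q ∧ T p p e = 0 ∧ T p q e = 0 ∧ T q q e = 0 ∧ T p e e = 0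

theorem Cub.exists_sp (h : Cub T) {x : V6} (hx : x ≠ 0) (h0 : T x x x = 0) (hr : Rg T x) :
    ∃ v n, Ind3 x v n ∧ Sp T x v n := by
  obtain ⟨j, hj⟩ := Function.ne_iff.1 hx
  replace hj : x j ≠ 0 := hj
  let e : Fin 6 → V6 := fun i k => if i = k then 1 else 0
  let l : V6 → Fin 3 → V6 →L[ℂ] ℂ := fun v => ![T x x, proj j, T v v]
  let M : V6 → Matrix (Fin 6 ⊕ Fin 3) (Fin 6 ⊕ Fin 3) ℂ := fun v => Matrix.fromBlocks
    (.of fun a b => T x (e a) (e b)) (.of fun a k => l v k (e a)) (.of fun k b => l v k (e b)) 0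
  have hl : ∀ k a, Pl fun v => l v k (e a) := fun k a => by
    fin_cases k
    exacts [Pl.const (T x x (e a)), Pl.const (e a j),
      Pl.step (.id ℂ V6) (fun w => (T w).flip (e a)) fun e' =>
      Pl.lin ((T.flip e').flip (e a))]
  obtain ⟨v, h1, h2⟩ := exists_zero (k := 5) (by omega)
    ![T x x, fun w => T x w w, fun w => T w w w, fun w => w j, fun w => (M w).det]
    (fun i => by
      fin_cases i
      exacts [Pl.lin _, Pl.bil _, Pl.tri _, Pl.lin (.proj j), Pl.det fun a b => by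
        rcases a with a | a <;> rcases b with b | b
        exacts [Pl.const _, hl b a, hl a b, Pl.const _]])
    (fun i => by
      fin_cases i <;> simp
      exact Matrix.det_eq_zero_of_row_eq_zero (.inr 2) fun b => by
        rcases b with b | b <;> simp [M, l])
  have v0 : T x x v = 0 := h2 0
  have v1 : T x v v = 0 := h2 1
  have vj : v j = 0 := h2 3
  have hL : Ln T x v := ⟨h0, v0, v1, h2 2⟩
  have hf := hr v (fun s t e => by
    have h4 : s = 0 := by simpa [vj, hj] using congrFun e j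
    exact ⟨h4, by simpa [h4, h1] using e⟩) hL
  obtain ⟨u, u0, hu⟩ := Matrix.exists_mulVec_eq_zero_iff.2 (show (M v).det = 0 from h2 4)
  have ex : ∀ (f : V6 →L[ℂ] ℂ) (n : V6), f n = ∑ b, f (e b) * n b := fun f n => by
    rw [show f n = _ from f.toLinearMap.pi_apply_eq_sum_univ n]
    exact Finset.sum_congr rfl fun b _ => mul_comm _ _
  have r1 : ∀ k, l v k (u ∘ .inl) = 0 := fun k => by
    simpa [M, Matrix.mulVec, dotProduct, ex (l v k) (u ∘ .inl)] using congrFun hu (.inr k)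
  have r2 : ∀ w, T x (u ∘ .inl) w + u (.inr 0) * T x x w + u (.inr 1) * w j +
      u (.inr 2) * T v v w = 0 := fun w => by
    have := (ex (T x (u ∘ .inl) + ∑ k, u (.inr k) • l v k) w).trans
      (Finset.sum_eq_zero fun b _ => mul_eq_zero_of_left (by
        rw [add_apply, h.s23, ex]
        simpa [M, Matrix.mulVec, dotProduct, mul_comm] using congrFun hu (.inl b)) _)
    simpa [Fin.sum_univ_three, l, add_assoc] using this
  have n0 : T x x (u ∘ .inl) = 0 := r1 0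
  have n1 : (u ∘ .inl) j = 0 := r1 1
  have n2 : T v v (u ∘ .inl) = 0 := r1 2
  have c1 : u (.inr 1) = 0 := by
    simpa [h.s23 x (u ∘ .inl) x, n0, h0, h.s13 v v x, v1, hj] using r2 x
  refine ⟨v, u ∘ .inl, fun r s t e => ?_, hL, n0, ?_, n2, by simpa [n0, n2, c1] using r2 (u ∘ .inl)⟩
  · obtain rfl : r = 0 := by
      have := congrFun e j
      simp only [Pi.add_apply, Pi.smul_apply, vj, n1, smul_eq_mul] at this
      simpa [hj] using this
    by_cases ht : t = 0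
    · exact ⟨rfl, by simpa [ht, h1] using e, ht⟩
    · obtain ⟨a, b, c⟩ := hf (t * u (.inr 0)) (-s) (t * u (.inr 2)) fun w => by
        have := congrArg (fun z => T x z w) e
        simp only [map_add, map_smul, add_apply, smul_apply, smul_eq_mul, map_zero,
          zero_apply] at this
        linear_combination t * r2 w - this - t * w j * c1
      have d : u ∘ .inl = 0 := by simpa [neg_eq_zero.1 b, ht] using e
      refine (u0 (funext fun i => ?_)).elim
      rcases i with i | i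
      · exact congrFun d i
      · fin_cases i
        exacts [(mul_eq_zero.1 a).resolve_left ht, c1, (mul_eq_zero.1 c).resolve_left ht]
  · simpa [h.s23 x (u ∘ .inl) v, v0, vj, hL.2.2.2] using r2 v

/-- the total space -/
abbrev Z3 : Type := (V6 × V6) × V6

/-- the equations of `Sp` -/
def Gs (T : Tri) (z : Z3) : Fin 8 → ℂ :=
  ![T z.1.1 z.1.1 z.1.1, T z.1.1 z.1.1 z.1.2, T z.1.1 z.1.2 z.1.2, T z.1.2 z.1.2 z.1.2,
    T z.1.1 z.1.1 z.2, T z.1.1 z.1.2 z.2, T z.1.2 z.1.2 z.2, T z.1.1 z.2 z.2]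

/-- their differential -/
def dGs (T : Tri) (p q e : V6) (v : Z3) : Fin 8 → ℂ :=
  ![3 * T p p v.1.1, 2 * T p q v.1.1 + T p p v.1.2, T q q v.1.1 + 2 * T p q v.1.2, 3 * T q q v.1.2,
    2 * T p e v.1.1 + T p p v.2, T q e v.1.1 + T p e v.1.2 + T p q v.2,
    2 * T q e v.1.2 + T q q v.2, T e e v.1.1 + 2 * T p e v.2]

theorem gs_zero {z : Z3} : Gs T z = 0 ↔ Sp T z.1.1 z.1.2 z.2 :=
  ⟨fun h => ⟨⟨congrFun h 0, congrFun h 1, congrFun h 2, congrFun h 3⟩, congrFun h 4, congrFun h 5,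
    congrFun h 6, congrFun h 7⟩, fun ⟨⟨a, b, c, d⟩, e, f, g, k⟩ => by
      simp [Gs, a, b, c, d, e, f, g, k]⟩

theorem Cub.hd_gs (h : Cub T) (z : Z3) : HD (Gs T) z (dGs T z.1.1 z.1.2 z.2) := by
  let p : Z3 →L[ℂ] V6 := (fst ℂ _ _).comp (fst ℂ _ _)
  let q : Z3 →L[ℂ] V6 := (snd ℂ _ _).comp (fst ℂ _ _)
  let y : Z3 →L[ℂ] V6 := snd ℂ _ _
  refine .pi fun i => ?_
  fin_cases i
  · exact (HD.tri h p p p).congr fun v => by simp [dGs, p]; ring
  · exact (HD.tri h p p q).congr fun v => by simp [dGs, p, q]; ring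
  · exact (HD.tri h p q q).congr fun v => by simp [dGs, p, q]; ring
  · exact (HD.tri h q q q).congr fun v => by simp [dGs, q]; ring
  · exact (HD.tri h p p y).congr fun v => by simp [dGs, p, y]; ring
  · exact (HD.tri h p q y).congr fun v => by simp [dGs, p, q, y]
  · exact (HD.tri h q q y).congr fun v => by simp [dGs, q, y]; ring
  · exact (HD.tri h p y y).congr fun v => by simp [dGs, p, y]; ring

theorem Cub.nhds3 (h : Cub T) {z : Z3} (hi : Ind3 z.1.1 z.1.2 z.2) (hr : Rg T z.1.1) :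
    ∀ᶠ z : Z3 in 𝓝 z, Ind3 z.1.1 z.1.2 z.2 ∧ Rg T z.1.1 := by
  refine .and ?_ ((continuous_fst.comp continuous_fst).continuousAt.eventually
    (h.rg_nhds hi.ind.left hr))
  simp only [ind3_iff] at hi ⊢
  refine (isOpen_setOfPred_linearIndependent.preimage
    (f := fun z : Z3 => ![z.1.1, z.1.2, z.2]) ?_).mem_nhds hi
  fun_prop

theorem Cub.exists_sp' (h : Cub T) :
    ∃ p q e, Ind3 p q e ∧ Rg T p ∧ Sp T p q e ∧ T q e e ≠ 0 := by
  obtain ⟨p, hx, h0, hr⟩ := h.exists_rg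
  obtain ⟨q, e, hi, hs⟩ := h.exists_sp hx h0 hr
  by_cases h1 : T q e e = 0
  swap
  · exact ⟨p, q, e, hi, hr, hs, h1⟩
  have h2 : T e e e ≠ 0 := fun h2 => h.np hr hi hs.1 (by
    simp [Psi, hs.2.1, hs.2.2.1, hs.2.2.2.1, hs.2.2.2.2, h1, h2])
  have h3 : HD (fun (z : Z3) (_ : Fin 1) => T z.1.2 z.2 z.2) ((p, q), e)
      fun v _ => T e e v.1.2 + 2 * T q e v.2 := .pi fun _ =>
    (HD.tri h ((snd ℂ V6 V6).comp (fst ℂ _ V6)) (snd ℂ _ _) (snd ℂ _ _)).congr fun v => by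
      simp; ring
  have h4 := open_zero (h.hd_gs ((p, q), e)).1 h3.1 (gs_zero.2 hs)
    (surj_of_dual₂ ((fderiv ℂ _ _).prod (fderiv ℂ _ _)).toLinearMap fun c d hc => by
      have hc' : ∀ v, ∑ i, c i * dGs T p q e v i + d 0 * (T e e v.1.2 + 2 * T q e v.2) = 0 :=
        fun v => by simpa [(h.hd_gs _).2, h3.2] using hc v
      simp only [Fin.sum_univ_eight, dGs] at hc'
      obtain ⟨-, a4, a5, a6, a7⟩ := id hs
      obtain ⟨⟨k0, k1, k2, k3, k4, k5⟩, k6, k7, k8, -⟩ := h.k10 hi (hr q hi.ind hs.1)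
        (a₀ := 0) (a₁ := 0) (a₂ := 1) (by simp) (c000 := 3 * c 0) (c001 := c 1) (c011 := c 2)
        (c111 := 3 * c 3) (c002 := c 4) (c012 := c 5 / 2) (c112 := c 6) (c022 := c 7)
        (c122 := d 0) (c222 := 0)
        (by simpa [a4, a5, a6, a7, h1, h2] using hc' ((e, 0), 0))
        (by simpa [a4, a5, a6, a7, h1, h2] using hc' ((0, e), 0)) (by simp)
        (fun v => by have := hc' ((v, 0), 0); simp at this; linear_combination this)
        (fun v => by have := hc' ((0, v), 0); simp at this; linear_combination this)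
        (fun v => by have := hc' (0, v); simp at this; linear_combination this)
      constructor
      · funext i
        fin_cases i
        exacts [by simpa using k0, k1, k3, by simpa using k6, k2, by simpa using k4, k7, k5]
      · funext i
        fin_cases i
        exact k8) (h.nhds3 (z := ((p, q), e)) hi hr)
  obtain ⟨t, ⟨z, a1, a2, a3⟩, a4⟩ := ((h4.filter_mono nhdsWithin_le_nhds).and
    (self_mem_nhdsWithin (s := {fun _ => T q e e}ᶜ))).exists
  exact ⟨_, _, _, a1.1, a1.2, gs_zero.1 a2, fun e => a4 (a3 ▸ funext fun _ => e.trans h1.symm)⟩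

theorem Cub.sm_shear (h : Cub T) {p q : V6} (hs : Sm T p q) (τ : ℂ) : Sm T (p + τ • q) q := by
  intro y a b hi ha h0 c
  have e := fun i => congrFun h0 i
  have e0 := e 0
  have e1 := e 1
  have e2 := e 2
  have e3 := e 3
  have e4 := e 4
  have e5 := e 5
  simp only [Psi, map_add, map_smul, add_apply, smul_apply, smul_eq_mul, h.s12 q p, Pi.zero_apply,
    Matrix.cons_val] at e0 e1 e2 e3 e4 e5
  obtain ⟨y', a', b', k⟩ := hs y ![a 0 - τ * a 1, a 1, a 2] ![b 0 - τ * b 1, b 1, b 2]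
    (fun r s t e => by
      obtain ⟨e1, e2, e3⟩ := hi r (s - r * τ) t (by rw [← e]; module)
      exact ⟨e1, by simpa [e1] using e2, e3⟩)
    (fun e => ha (funext fun i => by
      have k1 : a 1 = 0 := congrFun e 1
      fin_cases i
      exacts [by simpa [k1] using congrFun e 0, k1, congrFun e 2]))
    (funext fun i => by
      fin_cases i <;> simp [Psi]
      · linear_combination e0 - τ * e1 + τ ^ 2 * e2
      · linear_combination e1 - 2 * τ * e2
      · linear_combination e2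
      · linear_combination e3 - τ * e4
      · linear_combination e4
      · linear_combination e5)
    ![c 0 - τ * c 1 + τ ^ 2 * c 2, c 1 - 2 * τ * c 2, c 2, c 3 - τ * c 4, c 4, c 5]
  have k0 := congrFun k 0
  have k1 := congrFun k 1
  have k2 := congrFun k 2
  have k3 := congrFun k 3
  have k4 := congrFun k 4
  have k5 := congrFun k 5
  simp [dPsi] at k0 k1 k2 k3 k4 k5
  refine ⟨y', ![a' 0 + τ * a' 1, a' 1, a' 2], ![b' 0 + τ * b' 1, b' 1, b' 2], funext fun i => ?_⟩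
  fin_cases i <;> simp [dPsi, h.s12 q p]
  · linear_combination k0 + τ * k1 + τ ^ 2 * k2
  · linear_combination k1 + 2 * τ * k2
  · linear_combination k2
  · linear_combination k3 + τ * k4
  · linear_combination k4
  · linear_combination k5

/-- **A good line.** -/
theorem Cub.exists_good (h : Cub T) :
    ∃ p q e, Ind3 p q e ∧ Rg T p ∧ Sp T p q e ∧ T q e e ≠ 0 ∧ Sm T p q := by
  obtain ⟨p, q, e, hi, hr, hs, h1⟩ := h.exists_sp'
  obtain ⟨R, hR⟩ := exists_compl _ (h.surj_phi (e := (p, q)) hi.ind) (m := 8) (by simp)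
  let z₀ : Z3 × ℂ := (((p, q), e), 0)
  let P : Z3 × ℂ →L[ℂ] V6 := (fst ℂ _ _).comp ((fst ℂ _ _).comp (fst ℂ _ _))
  let Q : Z3 × ℂ →L[ℂ] V6 := (snd ℂ _ _).comp ((fst ℂ _ _).comp (fst ℂ _ _))
  have h2 := (HD.lin R).comp' (z := z₀)
    (((HD.lin P).sub ((HD.lin (snd ℂ Z3 ℂ)).smul (HD.lin Q))).prod (HD.lin Q))
  have h3 := HD.comp (z := z₀) (fst ℂ Z3 ℂ) (h.hd_gs z₀.1)
  have h4 : ∀ᶠ z : Z3 × ℂ in 𝓝 z₀, (Ind3 z.1.1.1 z.1.1.2 z.1.2 ∧ Rg T z.1.1.1) ∧
      T z.1.1.2 z.1.2 z.1.2 ≠ 0 :=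
    (continuous_fst.continuousAt.eventually (h.nhds3 (z := z₀.1) hi hr)).and
      (ContinuousAt.eventually_ne (by fun_prop) h1)
  obtain ⟨t, ⟨z, ⟨⟨a1, a2⟩, a3⟩, a4, a5⟩, a6⟩ := exists_of_ae (open_zero h3.1 h2.1 (gs_zero.2 hs)
    (fun c => by
      obtain ⟨⟨p', q'⟩, b1, b2⟩ := hR ![c.1 0, c.1 1, c.1 2, c.1 3] c.2
      obtain ⟨e', b3⟩ := (hr q hi.ind hs.1).surj ![c.1 4 - 2 * T p e p',
        c.1 5 - T q e p' - T p e q', c.1 6 - 2 * T q e q']
      replace b1 := ((h.hd_phi _).2 _).symm.trans b1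
      have c0 : 3 * T p p p' = c.1 0 := congrFun b1 0
      have c1 : 2 * T p q p' + T p p q' = c.1 1 := congrFun b1 1
      have c2 : T q q p' + 2 * T p q q' = c.1 2 := congrFun b1 2
      have c3 : 3 * T q q q' = c.1 3 := congrFun b1 3
      have c4 : T p p e' = c.1 4 - 2 * T p e p' := congrFun b3 0
      have c5 : T p q e' = c.1 5 - T q e p' - T p e q' := congrFun b3 1
      have c6 : T q q e' = c.1 6 - 2 * T q e q' := congrFun b3 2
      obtain ⟨⟨-, a1, a2, a3⟩, -, a5, a6, -⟩ := id hs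
      refine ⟨(((p' + ((c.1 7 - T e e p' - 2 * T p e e') / T q e e) • q, q'), e'),
        (c.1 7 - T e e p' - 2 * T p e e') / T q e e), Prod.ext ((h3.2 _).trans (funext fun i => ?_))
          ((h2.2 _).trans (by simpa [P, Q, z₀] using b2))⟩
      fin_cases i <;>
        simp [dGs, z₀, c0, c1, c2, c3, c4, c5, c6, a1, a2, a3, a5, a6, h.s23 p e q, h.s23 q e q,
          h.s13 e e q, h1]
      ring) h4) (h.ae_sm R)
  have a7 := gs_zero.1 a4
  have a8 := a6 _ a5 (by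
      simpa [P, Q, sub_eq_add_neg] using h.ln_swap (h.ln_shear (h.ln_swap a7.1) 1 (-z.2)))
    (by simpa [P, Q, sub_eq_add_neg] using
      h.f1_swap (h.f1_shear (h.f1_swap (a2 _ a1.ind a7.1)) one_ne_zero (-z.2)))
  exact ⟨_, _, _, a1, a2, a7, a3, by simpa [P, Q] using h.sm_shear a8 z.2⟩

theorem hd_yy (z : W7) : HD yy z fun v => ![v 0 * z 2 + z 0 * v 2,
    v 0 * z 3 + z 0 * v 3 + (v 1 * z 2 + z 1 * v 2), v 1 * z 3 + z 1 * v 3, v 4] := by
  have m := fun i j => (HD.lin (z := z) (proj (R := ℂ) (φ := fun _ => ℂ) i)).mul (HD.lin (proj j))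
  refine .pi fun i => ?_
  fin_cases i
  exacts [m 0 2, (m 0 3).add (m 1 2), m 1 3, HD.lin (proj (R := ℂ) (φ := fun _ : Fin 7 => ℂ) 4)]

/-- **The normal form.** -/
theorem exists_nf {F : MvPolynomial (Fin 6) ℂ} (hF : F.IsHomogeneous 3)
    (hs : ∀ z : V6, (∀ i, MvPolynomial.eval z (MvPolynomial.pderiv i F) = 0) → z = 0) :
    ∃ (N : NF) (A : ((Fin 2 → ℂ) × V4) ≃L[ℂ] (Fin 6 → ℂ)), N.Good ∧ N.Rep F A := by
  obtain ⟨T, h, hT, -⟩ := exists_tri hF hs
  obtain ⟨p, q, e, hi, hr, ⟨hl, w0, w1, w2, w3⟩, w4, hm⟩ := h.exists_good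
  obtain ⟨ι, g, he⟩ := h.gd_of hi hl hr hm w0 w1 w2
  let N : NF := ⟨fun i => (1 / 3 : ℂ) • (T (![p, q] i)).bilinearComp ι ι, (1 / 27 : ℂ) •
    (compL ℂ V4 _ _ ((compL ℂ V4 V6 ℂ).flip ι)).comp (T.bilinearComp ι ι)⟩
  have b0 : ∀ y, N.b 0 y = T p (ι y) (ι y) / 3 := fun y => by simp [N, NF.b]; ring
  have b1 : ∀ y, N.b 1 y = T q (ι y) (ι y) / 3 := fun y => by simp [N, NF.b]; ring
  have c0 : ∀ y, N.c y = T (ι y) (ι y) (ι y) / 27 := fun y => by simp [N, NF.c]; ring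
  let M : (Fin 2 → ℂ) × V4 →ₗ[ℂ] V6 := (Fintype.linearCombination ℂ ![p, q]).coprod
    ((1 / 3 : ℂ) • ι.toLinearMap)
  have hM : ∀ u y, M (u, y) = u 0 • p + u 1 • q + ι ((1 / 3 : ℂ) • y) := fun u y => by
    simp [M, Fintype.linearCombination_apply]
  have hM' : Injective M := (injective_iff_map_eq_zero M).2 fun z e => by
    obtain ⟨a1, a2, a3⟩ := g.inj _ _ _ ((hM z.1 z.2).symm.trans e)
    exact Prod.ext (funext fun i => by fin_cases i; exacts [a1, a2]) (by simpa using a3)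
  have hd : ∀ z, HD N.G z fun v => ![dPsi T p q (ι (yy z)) ![z 0, z 1, 3 * z 5] ![z 2, z 3, 3 * z 6]
      0 0 (ι (fderiv ℂ yy z v)) ![v 0, v 1, 3 * v 5] ![v 2, v 3, 3 * v 6] 3 / 3,
      dPsi T p q (ι (yy z)) ![z 0, z 1, 3 * z 5] ![z 2, z 3, 3 * z 6]
      0 0 (ι (fderiv ℂ yy z v)) ![v 0, v 1, 3 * v 5] ![v 2, v 3, 3 * v 6] 4 / 3,
      dPsi T p q (ι (yy z)) ![z 0, z 1, 3 * z 5] ![z 2, z 3, 3 * z 6]
      0 0 (ι (fderiv ℂ yy z v)) ![v 0, v 1, 3 * v 5] ![v 2, v 3, 3 * v 6] 5 / 27] := fun z => by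
    have m := fun i j =>
      (HD.lin (z := z) (proj (R := ℂ) (φ := fun _ => ℂ) i)).mul (HD.lin (proj j))
    have y : HD yy z (fderiv ℂ yy z) := ⟨(hd_yy z).1, fun _ => rfl⟩
    have k : ∀ x, HD (fun w => T x w w) (ι (yy z)) fun v => 2 * T x (ι (yy z)) v := fun x =>
      .of ((T x).analyticAt_bilinear _ |>.comp (analyticAt_id.prod analyticAt_id))
        ((T x).hasFDerivAt.clm_apply (hasFDerivAt_id _)) fun v => by simp [h.s23 x v]; ring
    refine .pi fun i => ?_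
    fin_cases i
    · simp only [NF.G, b0, div_eq_inv_mul]
      exact (((((k p).comp ι).comp' y).cmul _ |>.sub (m 0 6)).sub (m 2 5)).congr fun v => by
        simp [dPsi]; ring
    · simp only [NF.G, b1, div_eq_inv_mul]
      exact (((((k q).comp ι).comp' y).cmul _ |>.sub (m 1 6)).sub (m 3 5)).congr fun v => by
        simp [dPsi]; ring
    · simp only [NF.G, c0, div_eq_inv_mul]
      exact ((((HD.tri h ι ι ι).comp' y).cmul _).sub (m 5 6)).congr fun v => by
        simp [dPsi]; ring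
  have hz : ∀ z ∈ N.Z, Psi T p q (ι (yy z)) ![z 0, z 1, 3 * z 5] ![z 2, z 3, 3 * z 6] = 0 :=
    fun z hz => by
      obtain ⟨-, a1, a2, a3⟩ := NF.mem_Z.1 hz
      rw [b0] at a1
      rw [b1] at a2
      rw [c0] at a3
      funext i
      fin_cases i <;> simp only [Psi, g.n0, g.n1, g.n2] <;> simp [yy] at a1 a2 a3 ⊢
      · linear_combination 3 * a1
      · linear_combination 3 * a2
      · linear_combination 27 * a3
  have key : ∀ z (c : Fin 3 → ℂ) y' a' b', dPsi T p q (ι (yy z)) ![z 0, z 1, 3 * z 5]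
      ![z 2, z 3, 3 * z 6] 0 0 (ι y') a' b' = ![0, 0, 0, 3 * c 0, 3 * c 1, 27 * c 2] →
      fderiv ℂ N.G z ![a' 0, a' 1, b' 0, b' 1, y' 3, a' 2 / 3, b' 2 / 3] = c := by
    intro z c y' a' b' k
    have k0 := congrFun k 0
    have k1 := congrFun k 1
    have k2 := congrFun k 2
    simp only [dPsi, map_zero, zero_add, mul_zero, g.n0, g.n1, g.n2] at k0 k1 k2
    simp at k0 k1 k2
    have e1 : fderiv ℂ yy z ![a' 0, a' 1, b' 0, b' 1, y' 3, a' 2 / 3, b' 2 / 3] = y' := by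
      rw [(hd_yy z).2]
      funext i
      fin_cases i <;> simp
      · linear_combination -k0
      · linear_combination -k1
      · linear_combination -k2
    have e2 : ∀ a : Fin 3 → ℂ, ![a 0, a 1, 3 * (a 2 / 3)] = a := fun a => funext fun i => by
      fin_cases i <;> simp
      ring
    rw [(hd z).2]
    simp only [Matrix.cons_val, e1, e2, k]
    funext i
    fin_cases i <;> simp
  refine ⟨N, (LinearEquiv.ofBijective M ⟨hM', (LinearMap.injective_iff_surjective_of_finrank_eq_finrank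
    (by simp)).1 hM'⟩).toContinuousLinearEquiv, ⟨?_, ?_, fun z a c => ?_, fun z a a0 c => ?_⟩,
    fun u y => ?_⟩
  · rw [b0, pp, he, w3, zero_div]
  · rw [b1, pp, he]
    simpa using w4
  · obtain ⟨y', a', b', k⟩ := g.sm _ _ _ a.1 (hz z a) _
    exact ⟨_, key z c y' a' b' k⟩
  · have h1 : ∀ d, ∃ v, fderiv ℂ N.G z v = d ∧ v 0 = 0 := fun d =>
      let ⟨y', a', b', k0, k⟩ := g.sc _ _ _ a.1 (hz z a) a0 _
      ⟨_, key z d y' a' b' k, k0⟩
    obtain ⟨v, k, k0⟩ := h1 (c.1 - fderiv ℂ N.G z (Pi.single 0 c.2))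
    exact ⟨v + Pi.single 0 c.2, Prod.ext (by simp [k]) (by simp [k0])⟩
  · change MvPolynomial.eval (M (u, y)) F = _
    rw [hT, hM, NF.F, b0, b1, c0, ← g.n0 y, ← g.n1 y, ← g.n2 y]
    obtain ⟨a0, a1, a2, a3⟩ := hl
    simp only [map_add, map_smul, add_apply, smul_apply, smul_eq_mul, a0, a1, a2, a3, h.s12 q p,
      h.s23 p q p, h.s13 q q p, h.s12 (ι y) p, h.s12 (ι y) q, h.s23 p (ι y) p, h.s23 p (ι y) q,
      h.s23 q (ι y) p, h.s23 q (ι y) q, h.s13 (ι y) (ι y) p, h.s13 (ι y) (ι y) q]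
    ring

end Vale.Agent.P287Q.D
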