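import Vale.Agent.P287Q.D.Defs
import Vale.Agent.P287Q.Hb.QM

/-!
# The surface of the lines meeting a line is a compact complex manifold
-/

namespace Vale.Agent.P287Q.D

open Set Function Topology Filter Module P269 P269.Holo P269.Mono P269.Tq

theorem unit_iff {a : ℂ × ℂ} : IsUnit a ↔ a.1 ≠ 0 ∧ a.2 ≠ 0 := by
  rw [Prod.isUnit_iff, isUnit_iff_ne_zero, isUnit_iff_ne_zero]

theorem an_ch (j : Fin 7) (a : ℂ × ℂ) : AnalyticAt ℂ (fun a => ch a j) a := by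
  have h1 : AnalyticAt ℂ (fun a : ℂ × ℂ => a.1) a := analyticAt_fst
  have h2 : AnalyticAt ℂ (fun a : ℂ × ℂ => a.2) a := analyticAt_snd
  fin_cases j
  exacts [h1, h1, h2, h2, h1.mul h2, (h1.pow 2).mul h2, h1.mul (h2.pow 2)]

theorem an_co (j : Fin 7) (z : W7) : AnalyticAt ℂ (fun z : W7 => z j) z :=
  (ContinuousLinearMap.proj (R := ℂ) (φ := fun _ : Fin 7 => ℂ) j).analyticAt z

theorem an_ac (p : (ℂ × ℂ) × W7) : AnalyticAt ℂ (fun p : (ℂ × ℂ) × W7 => ac p.1 p.2) p :=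
  analyticAt_pi_iff.2 fun j =>
    ((an_ch j _).comp analyticAt_fst).mul ((an_co j _).comp analyticAt_snd)

instance isAct_ac : IsAct ac univ :=
  ⟨fun z _ => ac_one z, fun a b _ _ z _ => ac_mul a b z, fun _ _ _ _ => trivial,
    fun _ _ _ _ => an_ac _⟩

theorem an_yy (z : W7) : AnalyticAt ℂ yy z := analyticAt_pi_iff.2 fun i => by
  fin_cases i
  exacts [(an_co 0 z).mul (an_co 2 z), ((an_co 0 z).mul (an_co 3 z)).add
    ((an_co 1 z).mul (an_co 2 z)), (an_co 1 z).mul (an_co 3 z), an_co 4 z]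

theorem an_sw (z : W7) : AnalyticAt ℂ sw z := analyticAt_pi_iff.2 fun i => by
  fin_cases i
  exacts [an_co 2 z, an_co 3 z, an_co 0 z, an_co 1 z, an_co 4 z, an_co 6 z, an_co 5 z]

theorem ch_ne {a : ℂ × ℂ} (h : IsUnit a) (j : Fin 7) : ch a j ≠ 0 := by
  obtain ⟨h1, h2⟩ := unit_iff.1 h
  fin_cases j <;> simp [ch, h1, h2]

theorem lin_ac (a : ℂ × ℂ) : IsLinearMap ℂ (ac a) :=
  ⟨fun _ _ => funext fun _ => mul_add _ _ _, fun _ _ => funext fun _ => mul_left_comm _ _ _⟩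

namespace NF

variable (N : NF)

theorem an_b (i : Fin 2) (y : V4) : AnalyticAt ℂ (N.b i) y :=
  ((N.B i).analyticAt_bilinear _).comp (f := fun y => (y, y)) (analyticAt_id.prod analyticAt_id)

theorem an_c (y : V4) : AnalyticAt ℂ N.c y :=
  ((ContinuousLinearMap.id ℂ (V4 →L[ℂ] ℂ)).analyticAt_bilinear _).comp
    (f := fun y => (N.C y y, y)) (((N.C.analyticAt_bilinear _).comp (f := fun y => (y, y))
      (analyticAt_id.prod analyticAt_id)).prod analyticAt_id)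

theorem an_G (z : W7) : AnalyticAt ℂ N.G z := analyticAt_pi_iff.2 fun i => by
  fin_cases i
  exacts [(((N.an_b 0 _).comp (an_yy z)).sub ((an_co 0 z).mul (an_co 6 z))).sub
      ((an_co 2 z).mul (an_co 5 z)), (((N.an_b 1 _).comp (an_yy z)).sub
      ((an_co 1 z).mul (an_co 6 z))).sub ((an_co 3 z).mul (an_co 5 z)),
    ((N.an_c _).comp (an_yy z)).sub ((an_co 5 z).mul (an_co 6 z))]

variable {N} (h : N.Good) {z : W7}
include h

/-- The points where the first line is the given line. -/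
theorem Good.spec (hz : z ∈ N.Z) (h0 : z 0 = 0) (h1 : z 1 = 0) :
    z 2 = 0 ∧ z 3 ≠ 0 ∧ z 4 ≠ 0 ∧ z 5 ≠ 0 := by
  obtain ⟨a, b, c, -⟩ := mem_Z.1 hz
  have e : yy z = z 4 • pp := by
    funext i
    fin_cases i <;> simp [yy, pp, h0, h1]
  have d : z 4 ≠ 0 := fun k => a (by rw [e, k, zero_smul])
  rw [e, b_smul, h.b0, h0, mul_zero, zero_mul, zero_add] at b
  rw [e, b_smul, h1, zero_mul, zero_add] at c
  have k := mul_ne_zero_iff.1 (c ▸ mul_ne_zero (pow_ne_zero 2 d) h.b1)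
  exact ⟨(mul_eq_zero.1 b.symm).resolve_right k.2, k.1, d, k.2⟩

theorem Good.fst (hz : z ∈ N.Z) : z 0 ≠ 0 ∨ z 1 ≠ 0 ∨ z 5 ≠ 0 := by
  by_contra! k
  exact (h.spec hz k.1 k.2.1).2.2.2 k.2.2

theorem Good.snd (hz : z ∈ N.Z) : z 2 ≠ 0 ∨ z 3 ≠ 0 ∨ z 6 ≠ 0 := h.fst (sw_mem hz)

/-- A function of weight `(1, 0)` which does not vanish at `z`. -/
theorem Good.exists_wt (hz : z ∈ N.Z) : ∃ f : W7 → ℂ, f z ≠ 0 ∧
    (∀ w (t : ℂ), t ≠ 0 → yy w = t • yy z → AnalyticAt ℂ f w) ∧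
    ∀ a, IsUnit a → ∀ w, f (ac a w) = a.1 * f w := by
  rcases h.fst hz with k | k | k
  · exact ⟨_, k, fun w _ _ _ => an_co 0 w, fun _ _ _ => rfl⟩
  · exact ⟨_, k, fun w _ _ _ => an_co 1 w, fun _ _ _ => rfl⟩
  · obtain ⟨i, hi⟩ := Function.ne_iff.1 hz.1
    refine ⟨fun w => w 5 / yy w i, div_ne_zero k hi, fun w t ht e => (an_co 5 w).div
      (analyticAt_pi_iff.1 (an_yy w) i) (e ▸ mul_ne_zero ht hi), fun a ha w => ?_⟩
    obtain ⟨h1, h2⟩ := unit_iff.1 ha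
    simp only [yy_ac, Pi.smul_apply, smul_eq_mul, show ac a w 5 = a.1 ^ 2 * a.2 * w 5 from rfl]
    by_cases e : yy w i = 0
    · simp [e]
    · field_simp

theorem Good.exists_wt' (hz : z ∈ N.Z) : ∃ f : W7 → ℂ, f z ≠ 0 ∧
    (∀ w (t : ℂ), t ≠ 0 → yy w = t • yy z → AnalyticAt ℂ f w) ∧
    ∀ a, IsUnit a → ∀ w, f (ac a w) = a.2 * f w := by
  obtain ⟨f, h1, h2, h3⟩ := h.exists_wt (sw_mem hz)
  refine ⟨fun w => f (sw w), h1, fun w t ht e => (h2 _ t ht (by rwa [yy_sw, yy_sw])).comp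
    (an_sw w), fun a ha w => ?_⟩
  exact (congrArg f (sw_ac a w)).trans (h3 _ (unit_iff.2 (unit_iff.1 ha).symm) _)

theorem Good.free {a : ℂ × ℂ} (ha : IsUnit a) (hz : z ∈ N.Z) (e : ac a z = z) : a = 1 := by
  obtain ⟨f, h1, -, h2⟩ := h.exists_wt hz
  obtain ⟨g, h3, -, h4⟩ := h.exists_wt' hz
  exact Prod.ext ((mul_eq_right₀ h1).1 ((h2 a ha z).symm.trans (congrArg f e)))
    ((mul_eq_right₀ h3).1 ((h4 a ha z).symm.trans (congrArg g e)))

theorem Good.fp : FP ac N.Z := by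
  have cy : Continuous yy := continuous_iff_continuousAt.2 fun z => (an_yy z).continuousAt
  refine fp_of (fun a ha _ => ac_mem (unit_iff.1 ha).1 (unit_iff.1 ha).2)
    ((isOpen_ne_fun cy continuous_const).isLocallyClosed.inter (isClosed_eq
      (continuous_iff_continuousAt.2 fun z => (N.an_G z).continuousAt)
      continuous_const).isLocallyClosed) (fun _ ha _ => h.free ha)
    fun x a x₀ x₁ ha _ h0 h1 t0 t1 => ?_
  have key : ∀ (f : W7 → ℂ) (c : ℕ → ℂ), f x₀ ≠ 0 → ContinuousAt f x₀ → ContinuousAt f x₁ →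
      (∀ n, f (ac (a n) (x n)) = c n * f (x n)) → Tendsto c atTop (𝓝 (f x₁ / f x₀)) :=
    fun f c b c0 c1 e => ((c1.tendsto.comp t1).div (c0.tendsto.comp t0) b).congr'
      (((c0.tendsto.comp t0).eventually_ne b).mono fun n k => by
        simp only [Pi.div_apply, comp_apply, e]
        exact mul_div_cancel_right₀ _ k)
  obtain ⟨i, hi⟩ := Function.ne_iff.1 h0.1
  have ci := (continuous_apply i).comp cy
  have k := key (fun w => yy w i) (fun n => (a n).1 * (a n).2) hi ci.continuousAt ci.continuousAt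
    fun n => congrFun (yy_ac _ _) i
  have e : yy x₁ = (yy x₁ i / yy x₀ i) • yy x₀ := tendsto_nhds_unique ((cy.tendsto _).comp t1)
    ((k.smul ((cy.tendsto _).comp t0)).congr fun n => (yy_ac _ _).symm)
  have e' : yy x₁ i / yy x₀ i ≠ 0 := fun b => h1.1 (by rw [e, b, zero_smul])
  obtain ⟨f, f1, f2, f3⟩ := h.exists_wt h0
  obtain ⟨g, g1, g2, g3⟩ := h.exists_wt' h0
  exact not_tendsto_atTop_of_tendsto_nhds (Tendsto.norm (Tendsto.prodMk_nhds
    (key f _ f1 (f2 _ 1 one_ne_zero (one_smul _ _).symm).continuousAt (f2 _ _ e' e).continuousAt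
      fun n => f3 _ (ha n) _)
    (key g _ g1 (g2 _ 1 one_ne_zero (one_smul _ _).symm).continuousAt (g2 _ _ e' e).continuousAt
      fun n => g3 _ (ha n) _)))

omit h in
theorem ev_mem (hz : z ∈ N.Z) : ∀ᶠ w in 𝓝 z, w ∈ N.Z ↔ N.G w = 0 :=
  ((an_yy z).continuousAt.eventually_ne hz.1).mono fun _ => and_iff_right

theorem Good.mfd (hz : z ∈ N.Z) : IsMfd (Subtype.val : N.Z → W7) 4 ⟨z, hz⟩ ∧
    tan (Subtype.val : N.Z → W7) ⟨z, hz⟩ = LinearMap.ker (fderiv ℂ N.G z : W7 →ₗ[ℂ] Fin 3 → ℂ) :=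
  IsMfd.zeroSet IsEmbedding.subtypeVal (N.an_G z) (h.sm z hz)
    (by rw [Subtype.range_coe]; exact ev_mem hz) (by simp)

theorem Good.dim : Dim ac N.Z 2 := fun z hz => ⟨hz, by
  rw [show finrank ℂ (ℂ × ℂ) + 2 = 4 by simp]
  exact (h.mfd hz).1⟩

omit h in
theorem norm_le_of_sym {p q : Fin 3 → ℂ} {i : Fin 3} {M : ℝ} (h1 : p i = 1) (h2 : ∀ j, ‖p j‖ ≤ 1)
    (h3 : ∀ j k, ‖p j * q k + p k * q j‖ ≤ 2 * M) (j : Fin 3) : ‖q j‖ ≤ 3 * M := by
  have a := h3 i i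
  have b := h3 i j
  rw [h1, one_mul, ← two_mul, norm_mul, Complex.norm_two] at a
  rw [h1, one_mul] at b
  have c := norm_sub_le (q j + p j * q i) (p j * q i)
  rw [add_sub_cancel_right, norm_mul] at c
  nlinarith [h2 j, norm_nonneg (q i)]

theorem Good.bd : ∃ R : ℝ, ∀ z ∈ N.Z, ∃ a, IsUnit a ∧ ‖yy (ac a z)‖ = 1 ∧ ‖ac a z‖ ≤ R := by
  obtain ⟨M', hM⟩ := (isCompact_sphere (0 : V4) 1).exists_bound_of_continuousOn
    fun y _ => (N.an_c y).continuousAt.continuousWithinAt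
  let M := 1 + ‖N.B 0‖ + ‖N.B 1‖ + |M'|
  have n0 := norm_nonneg (N.B 0)
  have n1 := norm_nonneg (N.B 1)
  have n2 := abs_nonneg M'
  refine ⟨3 * M, fun z hz => ?_⟩
  have hn := norm_ne_zero_iff.2 hz.1
  let t : ℂ := (‖yy z‖ : ℂ)⁻¹
  have ht : t ≠ 0 := inv_ne_zero (Complex.ofReal_ne_zero.2 hn)
  let p : Fin 3 → ℂ := ![z 0, z 1, t * z 5]
  obtain ⟨i, hi⟩ := Finite.exists_max fun i => ‖p i‖
  have hp : p i ≠ 0 := fun e => by
    have k : ∀ j, p j = 0 := fun j => norm_le_zero_iff.1 ((hi j).trans_eq (by rw [e, norm_zero]))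
    rcases h.fst hz with b | b | b
    exacts [b (k 0), b (k 1), mul_ne_zero ht b (k 2)]
  have ha : IsUnit ((p i)⁻¹, t * p i) := unit_iff.2 ⟨inv_ne_zero hp, mul_ne_zero ht hp⟩
  have hy : ‖yy (ac ((p i)⁻¹, t * p i) z)‖ = 1 := by
    rw [yy_ac, mul_left_comm, inv_mul_cancel₀ hp, mul_one, norm_smul, norm_inv, Complex.norm_real,
      norm_norm, inv_mul_cancel₀ hn]
  refine ⟨_, ha, hy, ?_⟩
  have hp' : ∀ j, ![ac ((p i)⁻¹, t * p i) z 0, ac ((p i)⁻¹, t * p i) z 1,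
      ac ((p i)⁻¹, t * p i) z 5] j = p j / p i := fun j => by
    fin_cases j <;> simp [ac, ch, p] <;> field_simp
  obtain ⟨-, e0, e1, e2⟩ := mem_Z.1 (ac_mem (unit_iff.1 ha).1 (unit_iff.1 ha).2 hz)
  generalize ac ((p i)⁻¹, t * p i) z = w at *
  have y := fun j => (norm_le_pi_norm (yy w) j).trans_eq hy
  have b := fun j => (N.B j).le_opNorm₂ (yy w) (yy w)
  have c := (hM _ (mem_sphere_zero_iff_norm.2 hy)).trans (le_abs_self _)
  simp only [hy, mul_one] at b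
  have l : ∀ j, ‖![w 0, w 1, w 5] j‖ ≤ 1 := fun j => by
    rw [hp', norm_div]
    exact div_le_one_of_le₀ (hi j) (norm_nonneg _)
  have d : ∀ u : ℂ, ‖u‖ ≤ M → ‖u + u‖ ≤ 2 * M := fun u k => (norm_add_le _ _).trans (by linarith)
  have b0 : ‖w 0 * w 6 + w 5 * w 2‖ ≤ 2 * M := by
    rw [mul_comm (w 5), ← e0]; exact (b 0).trans (by linarith)
  have b1 : ‖w 1 * w 6 + w 5 * w 3‖ ≤ 2 * M := by
    rw [mul_comm (w 5), ← e1]; exact (b 1).trans (by linarith)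
  have y1 : ‖w 0 * w 3 + w 1 * w 2‖ ≤ 2 * M := (y 1).trans (by linarith)
  have q := norm_le_of_sym (q := ![w 2, w 3, w 6]) (M := M) ((hp' i).trans (div_self hp)) l
    fun j k => by
      fin_cases j <;> fin_cases k
      exacts [d _ ((y 0).trans (by linarith)), y1, b0, add_comm (w 0 * w 3) _ ▸ y1,
        d _ ((y 2).trans (by linarith)), b1, add_comm (w 0 * w 6) _ ▸ b0,
        add_comm (w 1 * w 6) _ ▸ b1, d _ (e2 ▸ c.trans (by linarith))]
  have m : (1 : ℝ) ≤ 3 * M := by linarith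
  refine (pi_norm_le_iff_of_nonneg (by linarith)).2 fun j => ?_
  fin_cases j
  exacts [(l 0).trans m, (l 1).trans m, q 0, q 1, (y 3).trans m, (l 2).trans m, q 2]

theorem Good.cpt : CompactSpace (Quo ac N.Z) := by
  obtain ⟨R, hR⟩ := h.bd
  have cy : Continuous yy := continuous_iff_continuousAt.2 fun z => (an_yy z).continuousAt
  have k : IsCompact (Metric.closedBall (0 : W7) R ∩ ({z | ‖yy z‖ = 1} ∩ {z | N.G z = 0})) :=
    (isCompact_closedBall _ _).inter_right ((isClosed_eq cy.norm continuous_const).inter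
      (isClosed_eq (continuous_iff_continuousAt.2 fun z => (N.an_G z).continuousAt)
        continuous_const))
  have k' := (IsInducing.subtypeVal (t := N.Z)).isCompact_preimage' k fun z hz =>
    ⟨⟨z, fun e =>
      zero_ne_one (norm_zero.symm.trans ((congrArg _ e).symm.trans hz.2.1)), hz.2.2⟩, rfl⟩
  refine ⟨(k'.image (continuous_mk (act := ac))).of_isClosed_subset isClosed_univ fun x _ => ?_⟩
  obtain ⟨z, rfl⟩ := mk_surj x
  obtain ⟨a, h1, h2, h3⟩ := hR z z.2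
  have h4 := ac_mem (unit_iff.1 h1).1 (unit_iff.1 h1).2 z.2
  exact ⟨⟨_, h4⟩, ⟨mem_closedBall_zero_iff.2 h3, h2, h4.2⟩, mk_act h1 z.2 h4⟩

/-- **The surface.** -/
theorem Good.qm : QM ac N.Z 2 :=
  ⟨h.fp, fun a _ => lin_ac a, h.cpt, h.dim, fun k => absurd k (by decide)⟩

end NF

end Vale.Agent.P287Q.D
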