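import Vale.Agent.P287Q.D.IPa
import Vale.Agent.P287Q.D.Mod0
import Vale.Agent.P287Q.D.Line2
import Vale.Agent.P247.H558.VF.Inj

/-!
# The curve of the lines through a general point is a canonical curve of genus four
-/

set_option linter.unusedSectionVars false

namespace Vale.Agent.P287Q.D

open Set Function Topology Filter Module P267.FL P269.Cv ContinuousLinearMap
open scoped ContDiff Manifold

namespace Crv'

theorem loc_inj {E F : Type} [NormedAddCommGroup E] [NormedSpace ℂ E] [FiniteDimensional ℂ E]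
    [NormedAddCommGroup F] [NormedSpace ℂ F] {f : E → F} {D : E →L[ℂ] F} {z : E}
    (h : HasStrictFDerivAt f D z) (i : ∀ v, D v = 0 → v = 0) : ∃ U ∈ 𝓝 z, InjOn f U := by
  obtain ⟨K, k0, hK⟩ := (D : E →ₗ[ℂ] F).exists_antilipschitzWith (LinearMap.ker_eq_bot'.2 i)
  have k1 : (0 : ℝ) < K := k0
  have a := h.isLittleO.def (c := 1 / (2 * K)) (by positivity)
  rw [nhds_prod_eq] at a
  obtain ⟨U, u, b⟩ := mem_prod_self_iff.1 a
  refine ⟨U, u, fun x hx y hy e => ?_⟩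
  have c : ‖f x - f y - D (x - y)‖ ≤ 1 / (2 * K) * ‖x - y‖ := b (mk_mem_prod hx hy)
  have d := ZeroHomClass.bound_of_antilipschitz _ hK (x - y)
  simp only [e, sub_self, zero_sub, norm_neg] at c
  change _ ≤ _ * ‖D (x - y)‖ at d
  have g := mul_le_mul_of_nonneg_left c k1.le
  rw [← mul_assoc, show (K : ℝ) * (1 / (2 * K)) = 1 / 2 by field_simp] at g
  exact sub_eq_zero.1 (norm_le_zero_iff.1 (by linarith))

variable {N : NF} {z w v : W7}

/-- An injective curve in a one dimensional slice is an immersion. -/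
theorem deriv_ne {F : Type} [NormedAddCommGroup F] [NormedSpace ℂ F] {δ : ℂ → W7}
    (Λ : W7 →L[ℂ] F) (l : W7 →L[ℂ] ℂ) (h : AnalyticAt ℂ δ 0) {U : Set ℂ} (hU : U ∈ 𝓝 0)
    (i : InjOn δ U) {c : F} (e : ∀ᶠ t in 𝓝 0, N.G (δ t) = 0 ∧ Λ (δ t) = c)
    (k : ∀ v, fderiv ℂ N.G (δ 0) v = 0 → Λ v = 0 → l v = 0 → v = 0) :
    deriv (fun t => l (δ t)) 0 ≠ 0 := by
  obtain ⟨V, a, b⟩ := loc_inj ((N.an_G (δ 0)).hasStrictFDerivAt.prodMk
    (Λ.prod l).hasStrictFDerivAt) fun v hv =>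
      k v (congrArg (·.1) hv) (congrArg (·.2.1) hv) (congrArg (·.2.2) hv)
  obtain ⟨W, w1, w2, w3⟩ := eventually_nhds_iff.1 ((e.and (h.eventually_analyticAt)).and
    (Eventually.and hU (h.continuousAt.eventually a)))
  refine P247.H558.VF.injOn_deriv_ne_zero w2 (fun t ht =>
    ((l.analyticAt _).comp (w1 t ht).1.2).differentiableAt.differentiableWithinAt)
    (fun s hs t ht d => i (w1 s hs).2.1 (w1 t ht).2.1 (b (w1 s hs).2.2 (w1 t ht).2.2 ?_)) w3
  exact Prod.ext ((w1 s hs).1.1.1.trans (w1 t ht).1.1.1.symm)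
    (Prod.ext ((w1 s hs).1.1.2.trans (w1 t ht).1.1.2.symm) d)

theorem dG (h : fderiv ℂ N.G z v = 0) (h0 : v 0 = 0) (h1 : v 1 = 0) (h2 : v 2 = 0) (h3 : v 3 = 0)
    (h4 : v 4 = 0) : z 1 * v 6 + z 3 * v 5 = 0 ∧ v 5 * z 6 + z 5 * v 6 = 0 := by
  have m := fun i j => (HD.lin (z := z) (proj (R := ℂ) (φ := fun _ => ℂ) i)).mul (HD.lin (proj j))
  have y : ∀ f : V4 → ℂ, AnalyticAt ℂ f (yy z) → HD (fun z => f (yy z)) z _ := fun f a =>
    HD.comp' ⟨a, fun _ => rfl⟩ (hd_yy z)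
  have c : ∀ i, fderiv ℂ (fun z => N.G z i) z v = 0 := fun i => by
    rw [fderiv_apply (N.an_G z).differentiableAt]
    exact congrFun h i
  have a := (c 1).symm.trans ((((y _ (N.an_b 1 _)).sub (m 1 6)).sub (m 3 5)).2 v)
  have b := (c 2).symm.trans (((y _ (N.an_c _)).sub (m 5 6)).2 v)
  have e : (![v 0 * z 2 + z 0 * v 2, v 0 * z 3 + z 0 * v 3 + (v 1 * z 2 + z 1 * v 2),
      v 1 * z 3 + z 1 * v 3, v 4] : V4) = 0 := by simp [h0, h1, h2, h3, h4]
  simp only [e, map_zero] at a b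
  simp only [proj_apply, h1, h3] at a b
  exact ⟨by linear_combination a, by linear_combination b⟩

theorem dG_wt (hz : z ∈ N.Z) (a : ℂ → ℂ × ℂ) (n : Fin 7 → ℕ) (h : ∀ t i, ch (a t) i = t ^ n i) :
    fderiv ℂ N.G z (fun i => n i * z i) = 0 := by
  have d : HasDerivAt (fun t => ac (a t) z) (fun i => n i * z i) 1 := hasDerivAt_pi.2 fun i => by
    simpa [ac, h] using (hasDerivAt_pow (n i) (1 : ℂ)).mul_const (z i)
  have b := (N.an_G z).differentiableAt.hasFDerivAt.comp_hasDerivAt_of_eq 1 d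
    (funext fun i => by simp [ac, h])
  have c : N.G ∘ (fun t => ac (a t) z) = fun _ => 0 := funext fun t => by
    rw [comp_apply, N.G_ac, hz.2]
    exact funext fun _ => mul_zero _
  rw [c] at b
  exact b.unique (hasDerivAt_const _ _)

/-- The indices of the coordinates of the canonical embedding. -/
def ix : Fin 4 → Fin 7 := ![2, 3, 4, 5]

/-- The slice is a curve. -/
theorem exists_gen (g : N.Good) (hz : z ∈ N.Z) (h0 : z 0 = 0) (h1 : z 1 = 1) {j : Fin 4}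
    (hj : j ≠ 3) (h2 : z (ix j) = 1) : ∃ i, ∀ v, fderiv ℂ N.G z v = 0 →
      (v 0, v 1, v (ix j)) = 0 → v (ix i) - z (ix i) * v (ix j) = 0 → v = 0 := by
  let pr := fun i : Fin 7 => proj (R := ℂ) (φ := fun _ : Fin 7 => ℂ) i
  let T := ((fderiv ℂ N.G z).prod ((pr 0).prod ((pr 1).prod (pr (ix j))))).toLinearMap
  have a1 := dG_wt hz (fun t => (t, 1)) ![1, 1, 0, 0, 1, 2, 1] fun t i => by
    fin_cases i <;> simp [ch]
  have a2 := dG_wt hz (fun t => (1, t)) ![0, 0, 1, 1, 1, 1, 2] fun t i => by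
    fin_cases i <;> simp [ch]
  have a3 : (![0, 0, 1, 1, 1, 1, 2] : Fin 7 → ℕ) (ix j) = 1 := by
    fin_cases j <;> simp [ix] at hj ⊢
  have s : Surjective T := fun q => by
    obtain ⟨u, hu⟩ := g.sc z hz h0 (q.1, q.2.1)
    generalize he : (fun i => ((![1, 1, 0, 0, 1, 2, 1] : Fin 7 → ℕ) i : ℂ) * z i) = e at a1
    generalize hf : (fun i => ((![0, 0, 1, 1, 1, 1, 2] : Fin 7 → ℕ) i : ℂ) * z i) = f at a2
    have e0 : e 0 = 0 := by simp [← he, h0]
    have e1 : e 1 = 1 := by simp [← he, h1]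
    have f0 : f 0 = 0 := by simp [← hf]
    have f1 : f 1 = 0 := by simp [← hf]
    have f2 : f (ix j) = 1 := by simp [← hf, a3, h2]
    obtain ⟨u1, u2⟩ := Prod.ext_iff.1 hu
    refine ⟨u + (q.2.2.1 - u 1) • e + (q.2.2.2 - u (ix j) - (q.2.2.1 - u 1) * e (ix j)) • f,
      Prod.ext ?_ (Prod.ext ?_ (Prod.ext ?_ ?_))⟩
    · simpa [T, a1, a2] using u1
    · simpa [T, pr, e0, f0] using u2
    · simp [T, pr, e1, f1]
    · simp [T, pr, f2]
  have r := T.finrank_range_add_finrank_ker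
  rw [LinearMap.range_eq_top.2 s, finrank_top] at r
  obtain ⟨⟨u, hu⟩, u0, k⟩ := finrank_eq_one_iff'.1 (show finrank ℂ (LinearMap.ker T) = 1 by
    simp only [finrank_prod, finrank_fin_fun, finrank_self] at r
    omega)
  have u1 : fderiv ℂ N.G z u = 0 := congrArg (·.1) hu
  have u2 : u 0 = 0 := congrArg (·.2.1) hu
  have u3 : u 1 = 0 := congrArg (·.2.2.1) hu
  obtain ⟨i, hi⟩ : ∃ i, u (ix i) ≠ 0 := by
    by_contra! e
    have := (dG u1 u2 u3 (e 0) (e 1) (e 2)).1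
    rw [h1, show u 5 = 0 from e 3, mul_zero, add_zero, one_mul] at this
    refine u0 (Subtype.ext (funext fun i => ?_))
    fin_cases i
    exacts [u2, u3, e 0, e 1, e 2, e 3, this]
  refine ⟨i, fun v a b c => ?_⟩
  obtain ⟨t, ht⟩ := k ⟨v, Prod.ext a b⟩
  obtain rfl : t • u = v := congrArg Subtype.val ht
  rw [show (t • u) (ix j) = 0 from congrArg (·.2.2) b, mul_zero, sub_zero] at c
  rw [(mul_eq_zero.1 c).resolve_right hi, zero_smul]

/-- The canonical embedding. -/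
def ph (z : W7) : V4 := ![z 1 ^ 2 * z 2, z 1 ^ 2 * z 3, z 1 * z 4, z 5]

theorem ph_ac (a : ℂ × ℂ) (z : W7) (i : Fin 4) : ph (ac a z) i = a.1 ^ 2 * a.2 * ph z i := by
  fin_cases i <;> simp [ph, ac, ch] <;> ring

theorem an_ph (i : Fin 4) (z : W7) : AnalyticAt ℂ (fun z => ph z i) z := by
  fin_cases i
  exacts [((an_co 1 z).pow 2).mul (an_co 2 z), ((an_co 1 z).pow 2).mul (an_co 3 z),
    (an_co 1 z).mul (an_co 4 z), an_co 5 z]

theorem ph_one (h : z 1 = 1) (i : Fin 4) : ph z i = z (ix i) := by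
  fin_cases i <;> simp [ph, ix, h]

theorem ph_ne (hz : z ∈ N.Z) (h0 : z 0 = 0) (h1 : z 1 ≠ 0) : ∃ j, j ≠ 3 ∧ ph z j ≠ 0 := by
  by_contra! e
  have a := e 0 (by decide)
  have b := e 1 (by decide)
  have c := e 2 (by decide)
  simp [ph, h1] at a b c
  exact hz.1 (by simp [yy, h0, a, b, c])

theorem eq_of (g : N.Good) (hz : z ∈ N.Z) (hw : w ∈ N.Z) (h0 : z 0 = 0) (e0 : w 0 = z 0)
    (e1 : w 1 = z 1) (e2 : w 2 = z 2) (e3 : w 3 = z 3) (e4 : w 4 = z 4)
    (e5 : z 1 = 0 ∨ w 5 = z 5) : w = z := by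
  obtain ⟨-, -, a, b⟩ := NF.mem_Z.1 hz
  obtain ⟨-, -, c, d⟩ := NF.mem_Z.1 hw
  rw [show yy w = yy z by simp only [yy, e0, e1, e2, e3, e4], e1, e3, a] at c
  rw [show yy w = yy z by simp only [yy, e0, e1, e2, e3, e4], b] at d
  have k : w 5 = z 5 ∧ w 6 = z 6 := by
    by_cases h : z 1 = 0
    · obtain ⟨-, s3, -, s5⟩ := g.spec hz h0 h
      have : w 5 = z 5 := mul_left_cancel₀ s3 (by rw [h] at c; linear_combination -c)
      exact ⟨this, mul_left_cancel₀ s5 (by rw [this] at d; exact d.symm)⟩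
    · have := e5.resolve_left h
      exact ⟨this, mul_left_cancel₀ h (by rw [this] at c; linear_combination -c)⟩
  funext i
  fin_cases i
  exacts [e0, e1, e2, e3, e4, k.1, k.2]

/-- Normalisation. -/
noncomputable def nm (j : Fin 4) (z : W7) : W7 := ac ((z 1)⁻¹, z 1 ^ 2 / ph z j) z

theorem nm_one {j : Fin 4} (h : z 1 ≠ 0) : nm j z 1 = 1 := inv_mul_cancel₀ h

theorem nm_ix {j : Fin 4} (h : z 1 ≠ 0) (i : Fin 4) : nm j z (ix i) = ph z i / ph z j := by
  rw [← ph_one (nm_one h), nm, ph_ac]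
  field_simp

theorem an_nm {j : Fin 4} (h : z 1 ≠ 0) (h' : ph z j ≠ 0) : AnalyticAt ℂ (nm j) z :=
  (an_ac _).comp (f := fun z : W7 => (((z 1)⁻¹, z 1 ^ 2 / ph z j), z))
    ((((an_co 1 z).inv h).prod (((an_co 1 z).pow 2).div (an_ph j z) h')).prod analyticAt_id)

end Crv'

open Crv'

variable {X : Type} [TopologicalSpace X] [ChartedSpace C2 X] [IsManifold 𝓘(ℂ, C2) ω X]
  {N : NF} {A B : SB X} {p : X → W7} {ip : SB X → SB X → ℤ} {x y : X}

theorem Md.crv_inj (h : Md N A B p) {a b : ℂ × ℂ} (h1 : b.1 ≠ 0) (h2 : b.2 ≠ 0)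
    (e : ac a (p x) = ac b (p y)) : x = y := h.inj x y ((b.1⁻¹, b.2⁻¹) * a) (by
  rw [ac_mul, e, ← ac_mul, show (b.1⁻¹, b.2⁻¹) * b = 1 from
    Prod.ext (inv_mul_cancel₀ h1) (inv_mul_cancel₀ h2), ac_one])

/-- The pencil has only one base point. -/
theorem Md.crv_uniq (h : Md N A B p) (g : N.Good) (x0 : p x 0 = 0) (x1 : p x 1 = 0) (y0 : p y 0 = 0)
    (y1 : p y 1 = 0) : x = y := by
  obtain ⟨a2, a3, a4, -⟩ := g.spec (h.mem x) x0 x1
  obtain ⟨b2, b3, b4, -⟩ := g.spec (h.mem y) y0 y1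
  refine h.inj x y (p y 4 * p x 3 / (p x 4 * p y 3), p y 3 / p x 3) (eq_of g (h.mem y)
    (NF.ac_mem (by simp [*]) (by simp [*]) (h.mem x)) y0 ?_ ?_ ?_ ?_ ?_ (.inl y1)).symm <;>
  simp only [ac, ch, Matrix.cons_val, x0, x1, y0, y1, a2, b2, mul_zero] <;> field_simp

theorem Md.crv_ph (h : Md N A B p) (i : Fin 4) : (fun x => ph (p x) i) ∈ (A ^ 2 * B).Γ := fun x =>
  (Ho.comp (an_ph i _) (h.hol x)).congr (.of_forall fun y => by
    simp only [ph_ac, SB.mul_φ, SB.pow_φ]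
    field_simp [A.ne, B.ne])

theorem Md.crv_sec1 (h : Md N A B p) : (fun x => p x 1) ∈ A.Γ := fun x =>
  ((h.hol x).apply 1).congr (.of_forall fun _ => inv_mul_eq_div _ _)

theorem Md.crv_sec2 (h : Md N A B p) : (fun x => p x 2) ∈ B.Γ := fun x =>
  ((h.hol x).apply 2).congr (.of_forall fun _ => inv_mul_eq_div _ _)

theorem Md.crv_sec3 (h : Md N A B p) : (fun x => p x 3) ∈ B.Γ := h.swap.crv_sec1

theorem Md.crv_sec4 (h : Md N A B p) : (fun x => p x 4) ∈ (A * B).Γ := fun x =>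
  ((h.hol x).apply 4).congr (.of_forall fun y => by
    simp only [ac, ch, Matrix.cons_val, SB.mul_φ]
    field_simp [A.ne, B.ne])

variable {C : Type} [TopologicalSpace C] {R : RS C} {ι : C → X}

theorem crv_one {L : LB R} {s η : C → ℂ} {c : C} (a : L.Sec s c) (b : L.Sec η c) (h : η c ≠ 0)
    (h0 : s c = 0) (d : deriv (fun t => s (R.i c t) / η (R.i c t)) 0 ≠ 0) : L.ord s c = 1 := by
  rw [← (R.cmp_e c).ord_eq (R.mem c) a b h, R.zero]
  exact AnalyticAt.analyticOrderAt_eq_one_of_zero_deriv_ne_zero (a.hol_div b h)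
    (by rw [show (R.e c).symm 0 = c from R.i_zero c, h0, zero_div]) d

theorem Md.crv_ord (h : Md N A B p) (k : Crv A (fun x => p x 0) R ι) {c : C} {i j : Fin 4}
    (h1 : p (ι c) 1 ≠ 0) (h2 : ph (p (ι c)) j ≠ 0) {F : Type} [NormedAddCommGroup F]
    [NormedSpace ℂ F] (Λ : W7 →L[ℂ] F) {u : F}
    (e : ∀ c, p (ι c) 1 ≠ 0 → ph (p (ι c)) j ≠ 0 → Λ (nm j (p (ι c))) = u)
    (f : ∀ v, fderiv ℂ N.G (nm j (p (ι c))) v = 0 → Λ v = 0 →
      v (ix i) - nm j (p (ι c)) (ix i) * v (ix j) = 0 → v = 0) :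
    (k.toHolC.pb (A ^ 2 * B)).ord ((fun c => ph (p (ι c)) i) -
      nm j (p (ι c)) (ix i) • fun c => ph (p (ι c)) j) c = 1 := by
  have s := fun i => k.toHolC.mem_Γ (h.crv_ph i) c
  have n := R.ev_iff.1 (((k.toHolC.mem_Γ h.crv_sec1 c).ev_ne h1).and ((s j).ev_ne h2))
  let l := fun t => ac ((A.φ (ι c) (ι (R.i c t)))⁻¹, (B.φ (ι c) (ι (R.i c t)))⁻¹) (p (ι (R.i c t)))
  have q : ∀ t, nm j (l t) = nm j (p (ι (R.i c t))) := fun t => by
    simp only [nm, l, ph_ac, ← ac_mul]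
    refine congrArg (ac · _) (Prod.ext ?_ ?_) <;>
      simp only [ac, ch, Matrix.cons_val, Prod.mk_mul_mk] <;> field_simp [A.ne, B.ne]
  have l0 : l 0 = p (ι c) := by
    simp only [l, R.i_zero, A.self, B.self, inv_one]
    exact ac_one _
  have a : AnalyticAt ℂ (fun t => nm j (p (ι (R.i c t)))) 0 :=
    ((an_nm h1 h2).comp_of_eq (k.toHolC.comp (h.hol (ι c))) l0).congr (.of_forall q)
  have b := deriv_ne (N := N) Λ (proj (ix i) - nm j (p (ι c)) (ix i) • proj (ix j)) a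
    (n.and (R.tgt_nhds c)) (fun t ht t' ht' d => (R.e c).symm.injOn ht.2 ht'.2
      (k.inj (h.crv_inj (inv_ne_zero ht'.1.1) (div_ne_zero (pow_ne_zero 2 ht'.1.1) ht'.1.2) d)))
    (n.mono fun t ht => ⟨(NF.ac_mem (inv_ne_zero ht.1)
      (div_ne_zero (pow_ne_zero 2 ht.1) ht.2) (h.mem _)).2, e _ ht.1 ht.2⟩)
    (by rw [R.i_zero]; exact f)
  refine crv_one ((s i).sub ((s j).smul _)) (s j) h2 ?_ ((EventuallyEq.deriv_eq
    (n.mono fun t ht => ?_)).trans_ne b)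
  · simp only [Pi.sub_apply, Pi.smul_apply, smul_eq_mul, nm_ix h1, div_mul_cancel₀ _ h2, sub_self]
  · simp only [Pi.sub_apply, Pi.smul_apply, smul_eq_mul, sub_apply, smul_apply, proj_apply,
      nm_ix ht.1, Function.comp_apply, sub_div, mul_div_assoc]

variable [T2Space C] [CompactSpace C]

theorem crv_deg {L : LB R} {s : C → ℂ} (a : s ∈ L.Γ) (u : ∀ x y, s x = 0 → s y = 0 → x = y) :
    (∀ x, s x = 0 → deg L = (L.ord s x).toNat) ∧ ((∀ x, s x ≠ 0) → deg L = 0) :=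
  ⟨fun x hx => by
    rw [deg_eq_sum a (Z := {x}) (eq_univ_of_forall fun y => ?_) fun y hy e =>
      hy (Finset.mem_singleton.2 (u _ _ e hx)), Finset.sum_singleton]
    by_cases e : s y = 0
    exacts [eventually_nhdsWithin_iff.2 (.of_forall fun t b c => b (u _ _ c e)), (a y).mem_gen e],
   deg_of_ne a⟩

theorem Pk.crv_va (h : Pk N A B p ip) (k : Crv A (fun x => p x 0) R ι)
    (d : deg (k.toHolC.pb A) = 1) : VA (k.toHolC.pb (A ^ 2 * B)) := by
  have z : ∀ c, p (ι c) 0 = 0 := fun c => (k.rng _).1 ⟨c, rfl⟩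
  have s := fun i => k.toHolC.mem_Γ (h.md.crv_ph i)
  have u : ∀ x y, p (ι x) 1 = 0 → p (ι y) 1 = 0 → x = y := fun x y a b =>
    k.inj (h.md.crv_uniq h.gd (z x) a (z y) b)
  have n : ∀ x, ∃ j, ph (p (ι x)) j ≠ 0 := fun x => by
    by_cases e : p (ι x) 1 = 0
    · exact ⟨3, (h.gd.spec (h.md.mem _) (z x) e).2.2.2⟩
    · exact (ph_ne (h.md.mem _) (z x) e).imp fun _ a => a.2
  refine ⟨fun x y e => by_contra fun c => e ?_, fun x => ?_⟩
  · obtain ⟨j, hj⟩ := n x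
    obtain ⟨κ, b⟩ : ∃ κ, ∀ i, ph (p (ι y)) i = κ * ph (p (ι x)) i :=
      ⟨ph (p (ι y)) j / ph (p (ι x)) j, fun i => by_contra fun b => c ⟨_, sub_mem
        (Submodule.smul_mem _ (ph (p (ι x)) j) (s i)) (Submodule.smul_mem _ (ph (p (ι x)) i) (s j)),
        sub_eq_zero.2 (mul_comm _ _), fun f => b (by
          have : ph (p (ι x)) j * ph (p (ι y)) i - ph (p (ι x)) i * ph (p (ι y)) j = 0 := f
          field_simp
          linear_combination this)⟩⟩
    have k0 : κ ≠ 0 := fun f => let ⟨i, hi⟩ := n y; hi (by rw [b, f, zero_mul])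
    have t : ∀ z : W7, z 1 = 0 → ∀ j, j ≠ 3 → ph z j = 0 := fun z a j b => by
      fin_cases j <;> simp [ph, a] at b ⊢
    have hxy : p (ι x) 1 = 0 ↔ p (ι y) 1 = 0 := not_iff_not.1
      ⟨fun a f => let ⟨i, i1, i2⟩ := ph_ne (h.md.mem _) (z x) a
        mul_ne_zero k0 i2 ((b i).symm.trans (t _ f i i1)),
       fun a f => let ⟨i, i1, i2⟩ := ph_ne (h.md.mem _) (z y) a
        i2 (by rw [b, t _ f i i1, mul_zero])⟩
    by_cases f : p (ι x) 1 = 0
    · exact u x y f (hxy.1 f)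
    have g := mt hxy.2 f
    have b0 := b 0
    have b1 := b 1
    have b2 := b 2
    have b3 := b 3
    simp only [ph, Matrix.cons_val] at b0 b1 b2 b3
    refine k.inj (h.md.inj _ _ (p (ι y) 1 / p (ι x) 1, κ * (p (ι x) 1 / p (ι y) 1) ^ 2)
      (eq_of h.gd (h.md.mem _) (NF.ac_mem (by simp [f, g]) (by simp [f, g, k0]) (h.md.mem _)) (z y)
        ?_ ?_ ?_ ?_ ?_ (.inr ?_)).symm) <;>
      simp only [ac, ch, Matrix.cons_val, z, mul_zero] <;> field_simp
    exacts [by linear_combination -b0, by linear_combination -b1, by linear_combination -b2,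
      by linear_combination -b3]
  · by_cases e : p (ι x) 1 = 0
    · have a := k.toHolC.mem_Γ h.md.crv_sec1
      have b := k.toHolC.mem_Γ h.md.crv_sec4
      have c := LB.ord_mul (a x) (b x)
      rw [(LB.ord_eq_zero (b x)).2 (h.gd.spec (h.md.mem _) (z x) e).2.2.1, add_zero,
        (ENat.toNat_eq_iff one_ne_zero).1 (Int.natCast_inj.1 (((crv_deg a u).1 x e).symm.trans d)),
        ← map_mul, ← mul_assoc, ← sq] at c
      exact ⟨_, s 2, c⟩
    · obtain ⟨j, j1, j2⟩ := ph_ne (h.md.mem _) (z x) e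
      obtain ⟨i, hi⟩ := exists_gen h.gd (z := nm j (p (ι x))) (NF.ac_mem (inv_ne_zero e)
        (div_ne_zero (pow_ne_zero 2 e) j2) (h.md.mem _)) (mul_eq_zero_of_right _ (z x)) (nm_one e)
        j1 ((nm_ix e j).trans (div_self j2))
      exact ⟨_, sub_mem (s i) (Submodule.smul_mem _ _ (s j)), h.md.crv_ord k e j2
        ((proj 0).prod ((proj 1).prod (proj (ix j)))) (u := (0, 1, 1)) (fun c a b => Prod.ext
          (mul_eq_zero_of_right _ (z c)) (Prod.ext (nm_one a) ((nm_ix a j).trans (div_self b)))) hi⟩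

theorem Pk.crv_ne2 (h : Pk N A B p ip) (k : Crv A (fun x => p x 0) R ι)
    (d : deg (k.toHolC.pb B) = 4) : ∃ c, p (ι c) 2 ≠ 0 := by
  by_contra! e
  have z : ∀ c, p (ι c) 0 = 0 := fun c => (k.rng _).1 ⟨c, rfl⟩
  have a := k.toHolC.mem_Γ h.md.crv_sec3
  obtain ⟨b, c⟩ := crv_deg a fun x y f g => k.inj (h.md.swap.crv_uniq h.gd (e x) f (e y) g)
  obtain ⟨x, hx⟩ : ∃ x, p (ι x) 3 = 0 := by_contra fun f => by
    rw [c fun x g => f ⟨x, g⟩] at d
    omega
  obtain ⟨-, s1, s4, s6⟩ := h.gd.spec (NF.sw_mem (h.md.mem (ι x))) (e x) hx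
  have s2 : ph (p (ι x)) 2 ≠ 0 := mul_ne_zero s1 s4
  have n3 : nm 2 (p (ι x)) (ix 1) = 0 := mul_eq_zero_of_right _ hx
  have o := h.md.crv_ord k (i := 1) s1 s2
    ((proj 0).prod ((proj 1).prod ((proj 2).prod (proj 4)))) (u := (0, 1, 0, 1))
    (fun c a b => Prod.ext (mul_eq_zero_of_right _ (z c)) (Prod.ext (nm_one a) (Prod.ext
      (mul_eq_zero_of_right _ (e c)) ((nm_ix a 2).trans (div_self b))))) fun v a b c => by
      rw [n3, zero_mul, sub_zero] at c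
      have v0 : v 0 = 0 := congrArg (·.1) b
      have v1 : v 1 = 0 := congrArg (·.2.1) b
      have v2 : v 2 = 0 := congrArg (·.2.2.1) b
      have v4 : v 4 = 0 := congrArg (·.2.2.2) b
      obtain ⟨f, g⟩ := dG a v0 v1 v2 c v4
      rw [nm_one s1, show nm 2 (p (ι x)) 3 = 0 from n3, zero_mul, add_zero, one_mul] at f
      rw [f, mul_zero, add_zero] at g
      have v5 := (mul_eq_zero.1 g).resolve_right (mul_ne_zero (ch_ne (unit_iff.2
        ⟨inv_ne_zero s1, div_ne_zero (pow_ne_zero 2 s1) s2⟩) 6) s6)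
      funext i
      fin_cases i
      exacts [v0, v1, v2, c, v4, v5, f]
  have a' := k.toHolC.mem_Γ (SB.pow_mem h.md.crv_sec1 2)
  have m := LB.ord_mul (a' x) (a x)
  rw [n3, zero_smul, sub_zero] at o
  rw [(LB.ord_eq_zero (a' x)).2 (pow_ne_zero 2 s1), zero_add, ← map_mul] at m
  rw [b x hx, m.symm.trans o] at d
  exact absurd d (by decide)

/-- **The curve of the lines through a general point.** -/
theorem stCrv (hA : StAdj X) : StCrv X := fun N A B p ip h C _ _ _ R ι k d => by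
  obtain ⟨σ, s1, s2⟩ := hA A _ C R ι k
  obtain ⟨τ, t1, t2⟩ := h.can
  have m : σ * τ ∘ ι ∈ (R.K / k.toHolC.pb (A ^ 2 * B)).Γ := by
    have := LB.mul_mem s1 (k.toHolC.mem_Γ t1)
    rwa [div_mul_comm, ← map_div, show SB.K X / (A * B) / (SB.K X * A) = (A ^ 2 * B)⁻¹ by
      rw [div_div, mul_left_comm, div_mul_cancel_left, mul_right_comm, sq], map_inv,
      inv_mul_eq_div] at this
  have n : ∀ c, (σ * τ ∘ ι) c ≠ 0 := fun c => mul_ne_zero (s2 c) (t2 _)
  have dA := (d A).trans h.AA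
  have v := (h.crv_va k dA).iso m n
  have e : deg R.K = 6 := by
    have := deg_of_ne m n
    rw [deg_div, d, h.ip'.add, h.ip'.pow, h.AA, h.BA] at this
    omega
  have a := k.toHolC.mem_Γ h.md.crv_sec1
  obtain ⟨x, hx⟩ : ∃ x, p (ι x) 1 = 0 := by_contra fun f => by
    rw [deg_of_ne a fun x g => f ⟨x, g⟩] at dA
    omega
  have c : ConnectedSpace C := { v.conn (by omega) with toNonempty := ⟨x⟩ }
  refine ⟨c, v, e, fun α β f => ?_⟩
  have s := add_mem (Submodule.smul_mem _ α (k.toHolC.mem_Γ h.md.crv_sec2))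
    (Submodule.smul_mem _ β (k.toHolC.mem_Γ h.md.crv_sec3))
  obtain ⟨y, hy⟩ : ∃ y, α * p (ι y) 2 + β * p (ι y) 3 ≠ 0 := by
    obtain ⟨s2, s3, -⟩ := h.gd.spec (h.md.mem _) ((k.rng _).1 ⟨x, rfl⟩) hx
    by_cases g : β = 0
    · obtain ⟨y, hy⟩ := h.crv_ne2 k ((d B).trans h.BA)
      exact ⟨y, by simpa [g, hy] using f⟩
    · exact ⟨x, by simp [g, s2, s3]⟩
  exact LB.finite_zeros s (gen_univ s hy)

end Vale.Agent.P287Q.D
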