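import Vale.Agent.P287Q.D.St
import Vale.Agent.P269.Holo.Osg
import Vale.Agent.P269.Holo.Morse

/-!
# Division by the equation of a curve; adjunction
-/

namespace Vale.Agent.P287Q.D

open Set Function Topology Filter P267.FL P269.Cv P269.Holo
open scoped ContDiff Manifold Matrix

namespace Dv0

theorem loc {f g : C2 → ℂ} {a : C2} (hf : AnalyticAt ℂ f a) (hg : AnalyticAt ℂ g a) (h0 : g a = 0)
    (h1 : fderiv ℂ g a ≠ 0) (h : ∀ᶠ z in 𝓝 a, g z = 0 → f z = 0) :
    ∃ q, AnalyticAt ℂ q a ∧ ∀ᶠ z in 𝓝 a, f z = g z * q z := by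
  obtain ⟨σ, s1, s2, -, s3, s4⟩ := (IsParam.self a).submersion (f := g) hg (Osg.surj h1) (n := 1)
    (by simp)
  rw [h0] at s1 s2 s3 s4
  obtain ⟨w, w1, w2, -, w4, -⟩ := s3.exists_inv
  rw [s2] at w1 w2 w4
  obtain ⟨Q, q1, q2⟩ := exists_div (f := fun p : ℂ × (Fin 1 → ℂ) => f (σ p.swap)) (w := 0)
    (hf.comp_of_eq (s1.comp_of_eq (analyticAt_snd.prod analyticAt_fst) rfl) s2)
  have t1 : Tendsto σ (𝓝 (0, 0)) (𝓝 a) := s1.continuousAt.tendsto.mono_right (by rw [s2])
  have t2 : Tendsto w (𝓝 a) (𝓝 (0, 0)) := w1.continuousAt.tendsto.mono_right (by rw [w2])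
  refine ⟨fun z => Q (w z).swap, q1.comp_of_eq ((analyticAt_snd.prod analyticAt_fst).comp w1)
    (congrArg Prod.swap w2), ?_⟩
  filter_upwards [w4, t2.eventually s4, ((tendsto_inl 0 0).comp
    ((continuous_fst.tendsto _).comp t2)).eventually (s4.and (t1.eventually h))] with z e1 e2 e3
  have e := q2 (w z).swap
  rw [Prod.swap_swap, e1, show f (σ (0, (w z).swap.2).swap) = 0 from e3.2 e3.1, zero_add] at e
  rw [e, ← e1, e2, e1]
  rfl

theorem freq {g : C2 → ℂ} {a : C2} (h1 : fderiv ℂ g a ≠ 0) : ∃ᶠ z in 𝓝 a, g z ≠ 0 := fun h =>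
  h1 ((EventuallyEq.fderiv_eq (h.mono fun _ => not_not.1 : g =ᶠ[𝓝 a] fun _ => 0)).trans
    (fderiv_const_apply 0))

/-- the determinant -/
def dt (u v : C2) : ℂ := u 0 * v 1 - u 1 * v 0

theorem dt_mulVec (J : Matrix (Fin 2) (Fin 2) ℂ) (u v : C2) :
    dt (J *ᵥ u) (J *ᵥ v) = J.det * dt u v := by
  simp only [dt, Matrix.mulVec, dotProduct, Fin.sum_univ_two, Matrix.det_fin_two]
  ring

theorem dt_mul {l : C2 →L[ℂ] ℂ} {u : C2} (h : l u = 0) (v w : C2) :
    dt u w * l v = dt u v * l w := by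
  have e : dt u w • v = dt u v • w - dt w v • u := funext fun i => by
    fin_cases i <;> simp [dt] <;> ring
  simpa [h] using congrArg l e

variable {X : Type} [TopologicalSpace X] [ChartedSpace C2 X] {x : X}

theorem ev_iff {p : X → Prop} : (∀ᶠ y in 𝓝 x, p y) ↔
    ∀ᶠ z in 𝓝 (chartAt C2 x x), p ((chartAt C2 x).symm z) := by
  rw [← (chartAt C2 x).symm_map_nhds_eq (mem_chart_source C2 x), eventually_map]

theorem ho_chart {q : C2 → ℂ} (h : AnalyticAt ℂ q (chartAt C2 x x)) :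
    Ho (fun y => q (chartAt C2 x y)) x :=
  h.congr (Eventually.mono (chart_target_mem_nhds C2 x) fun _ hz =>
    congrArg q ((chartAt C2 x).right_inv hz).symm)

variable {A : SB X} {s : X → ℂ} {C : Type} [TopologicalSpace C] {R : RS C} {ι : C → X}

/-- the local equation of the curve -/
noncomputable def eqn (A : SB X) (s : X → ℂ) (x : X) (z : C2) : ℂ :=
  s ((chartAt C2 x).symm z) / A.φ x ((chartAt C2 x).symm z)

/-- the tangent vector of the curve at `c` in the chart at `x` -/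
noncomputable def tg (R : RS C) (ι : C → X) (x : X) (c : C) : C2 :=
  deriv (fun t => chartAt C2 x (ι (R.i c t))) 0

theorem tg_apply {c : C} (h : R.Hol (fun t => chartAt C2 x (ι t)) c) (i : Fin 2) :
    tg R ι x c i = R.d (fun t => chartAt C2 x (ι t) i) c :=
  (hasDerivAt_pi.1 (AnalyticAt.differentiableAt h).hasDerivAt i).deriv.symm

theorem ev_src (h : HolC R ι) {c : C} (hx : ι c ∈ (chartAt C2 x).source) :
    ∀ᶠ t in 𝓝 0, ι (R.i c t) ∈ (chartAt C2 x).source :=
  R.ev_iff.1 (h.cont.continuousAt.eventually ((chartAt C2 x).open_source.mem_nhds hx))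

theorem tg_zero (h : Crv A s R ι) (c : C) :
    fderiv ℂ (eqn A s (ι c)) (chartAt C2 (ι c) (ι c)) (tg R ι (ι c) c) = 0 := by
  refine ((AnalyticAt.differentiableAt (h.sec (ι c))).hasFDerivAt.comp_hasDerivAt_of_eq 0
    (AnalyticAt.differentiableAt (h.an c)).hasDerivAt (by rw [R.i_zero])).unique
    ((hasDerivAt_const 0 0).congr_of_eventuallyEq ?_)
  filter_upwards [ev_src h.toHolC (mem_chart_source C2 (ι c))] with t e
  rw [comp_apply, (chartAt C2 (ι c)).left_inv e, (h.rng _).1 ⟨_, rfl⟩, zero_div]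

variable [IsManifold 𝓘(ℂ, C2) ω X]

theorem tg_eq (h : HolC R ι) {c : C} (hx : ι c ∈ (chartAt C2 x).source) :
    tg R ι x c = jacM (chartAt C2 (ι c)) (chartAt C2 x) (ι c) *ᵥ tg R ι (ι c) c := by
  have a := chart_mem_atlas C2 (ι c)
  have b := mem_chart_source C2 (ι c)
  rw [jacM_mulVec a (chart_mem_atlas C2 x) b hx]
  refine (((trans_analyticAt a (chart_mem_atlas C2 x) b hx).differentiableAt.hasFDerivAt
    |>.comp_hasDerivAt_of_eq 0 (AnalyticAt.differentiableAt (h.an c)).hasDerivAt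
      (by rw [R.i_zero])).congr_of_eventuallyEq ?_).deriv
  filter_upwards [ev_src h b] with t e
  rw [comp_apply, (chartAt C2 (ι c)).left_inv e]

theorem eqn_eq {y : X} (hx : y ∈ (chartAt C2 x).source) (h0 : s y = 0)
    (h1 : AnalyticAt ℂ (eqn A s x) (chartAt C2 x y)) (h2 : A.Sec (A.φ x) y) (w : C2) :
    fderiv ℂ (eqn A s y) (chartAt C2 y y) w = A.φ x y *
      fderiv ℂ (eqn A s x) (chartAt C2 x y) (jacM (chartAt C2 y) (chartAt C2 x) y *ᵥ w) := by
  have a := chart_mem_atlas C2 y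
  have b := mem_chart_source C2 y
  have e := ((AnalyticAt.differentiableAt h2).hasFDerivAt.mul
    (HasFDerivAt.comp (chartAt C2 y y) (by rw [symm_chart]; exact h1.differentiableAt.hasFDerivAt)
      (trans_analyticAt a (chart_mem_atlas C2 x) b hx).differentiableAt.hasFDerivAt)
    ).congr_of_eventuallyEq (f₁ := eqn A s y) (by
      filter_upwards [ev_iff.1 ((chartAt C2 x).open_source.eventually_mem hx)] with z hz
      simp only [Pi.mul_apply, comp_apply, eqn, (chartAt C2 x).left_inv hz]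
      field_simp [A.ne])
  rw [e.fderiv, jacM_mulVec a (chart_mem_atlas C2 x) b hx]
  simp [A.self, eqn, (chartAt C2 x).left_inv hx, h0]

end Dv0

open Dv0

variable {X : Type} [TopologicalSpace X] [ChartedSpace C2 X] [IsManifold 𝓘(ℂ, C2) ω X]

theorem stDiv : StDiv X := fun A s C _ R ι h M t ht h0 => by
  have k : ∀ x, (∃ᶠ y in 𝓝 x, s y ≠ 0) ∧ ∃ u, (M / A).Sec u x ∧ ∀ᶠ y in 𝓝 x, t y = s y * u y := by
    intro x
    by_cases hx : s x = 0
    swap
    · exact ⟨((h.sec x).ev_ne hx).frequently, _, (ht x).div (h.sec x) hx,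
        ((h.sec x).ev_ne hx).mono fun y e => (mul_div_cancel₀ _ e).symm⟩
    obtain ⟨c, rfl⟩ := (h.rng x).2 hx
    obtain ⟨q, q1, q2⟩ := loc (ht (ι c)) (h.sec (ι c)) (by simp [hx]) (h.tr c)
      (.of_forall fun z e => by
        obtain ⟨c', e'⟩ := (h.rng _).2 ((div_eq_zero_iff.1 e).resolve_right (A.ne _ _))
        exact div_eq_zero_iff.2 (.inl (e' ▸ h0 c')))
    refine ⟨fun e => freq (h.tr c) ((ev_iff.1 e).mono fun z d d' => d (div_ne_zero_iff.1 d').1),
      _, SB.Sec.hol_mul (ho_chart q1) ((M / A).sec_φ (ι c)).self_of_nhds, ev_iff.2 ?_⟩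
    filter_upwards [q2, chart_target_mem_nhds C2 (ι c)] with z e1 e2
    rw [Pi.mul_apply, (chartAt C2 (ι c)).right_inv e2, SB.div_φ, (div_eq_iff (M.ne _ _)).1 e1]
    ring
  choose k1 u k2 k3 using k
  refine ⟨fun x => u x x, fun x => (k2 x).congr ?_, funext fun x => (k3 x).self_of_nhds⟩
  filter_upwards [(k2 x).eventually, (k3 x).eventually_nhds] with y e1 e2
  have e := tendsto_nhds_unique_of_frequently_eq (Ho.continuousAt e1) (Ho.continuousAt (k2 y))
    (((k1 y).and_eventually (e2.and (k3 y))).mono fun z d =>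
      congrArg (· / _) (mul_left_cancel₀ d.1 (d.2.1.symm.trans d.2.2)))
  rwa [SB.self, div_one, div_one] at e

theorem stAdj : StAdj X := fun A s C _ R ι h => by
  choose v hv using fun c => DFunLike.ne_iff.1 (h.tr c)
  replace hv : ∀ c, fderiv ℂ (eqn A s (ι c)) (chartAt C2 (ι c) (ι c)) (v c) ≠ 0 := hv
  refine ⟨fun c => dt (tg R ι (ι c) c) (v c) /
    fderiv ℂ (eqn A s (ι c)) (chartAt C2 (ι c) (ι c)) (v c), fun c => ?_, fun c => div_ne_zero
      (fun e => h.imm c ?_) (hv c)⟩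
  · have a1 := fun i => RS.Hol.sec_d (R := R) (f := fun t => chartAt C2 (ι c) (ι t) i)
      (analyticAt_pi_iff.1 (h.an c) i)
    have a2 : R.Hol (fun t => fderiv ℂ (eqn A s (ι c)) (chartAt C2 (ι c) (ι t)) (v c)) c :=
      RS.Hol.comp (f := fun t => chartAt C2 (ι c) (ι t))
        (((ContinuousLinearMap.apply ℂ ℂ (v c)).analyticAt _).comp
          (AnalyticAt.fderiv (h.sec (ι c)))) (h.an c)
    refine ((((a1 0).smul (v c 1)).sub ((a1 1).smul (v c 0))).div (LB.Sec.hol_mul a2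
      ((h.toHolC.pb (SB.K X * A)).sec_φ c).self_of_nhds)
      (mul_ne_zero (hv c) (LB.ne _ _ _))).congr ?_
    filter_upwards [(h.an c).eventually, a2.continuousAt.eventually_ne (hv c),
      h.cont.continuousAt.eventually (((chartAt C2 (ι c)).open_source.eventually_mem
        (mem_chart_source C2 _)).and (A.sec_φ (ι c))),
      (h.an c).continuousAt.eventually (AnalyticAt.eventually_analyticAt (h.sec (ι c)))]
      with d e1 e2 ⟨e3, e4⟩ e5
    have b1 := eqn_eq e3 ((h.rng _).1 ⟨d, rfl⟩) e5 e4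
    have b2 := tg_eq h.toHolC e3
    have b3 := dt_mul ((mul_eq_zero.1 ((b1 _).symm.trans (tg_zero h d))).resolve_left (A.ne _ _))
      (v c) (jacM (chartAt C2 (ι d)) (chartAt C2 (ι c)) (ι d) *ᵥ v d)
    have b4 := congrArg Matrix.det (jacM_mul_inv (chart_mem_atlas C2 (ι c))
      (chart_mem_atlas C2 (ι d)) e3 (mem_chart_source C2 _))
    rw [dt_mulVec, ← b2] at b3
    rw [Matrix.det_mul, Matrix.det_one] at b4
    simp only [Pi.div_apply, Pi.sub_apply, Pi.smul_apply, Pi.mul_apply, HolC.pb_φ, SB.mul_φ,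
      SB.K_φ e3, ← tg_apply e1, jac, ← eq_inv_of_mul_eq_one_left b4, smul_eq_mul]
    rw [div_eq_div_iff (mul_ne_zero e2 (mul_ne_zero (left_ne_zero_of_mul_eq_one b4) (A.ne _ _)))
      (hv d), b1]
    simp only [dt] at b3 ⊢
    linear_combination (-A.φ (ι c) (ι d)) * b3
  · have k := fun w => (mul_eq_zero.1 ((dt_mul (tg_zero h c) (v c) w).trans
      (by rw [e, zero_mul]))).resolve_right (hv c)
    exact show tg R ι (ι c) c = 0 from funext (Fin.forall_fin_two.2
      ⟨by simpa [dt] using k ![0, 1], by simpa [dt] using k ![1, 0]⟩)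

end Vale.Agent.P287Q.D
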