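import Vale.Agent.P287Q.D.IPa

/-!
# Discriminant two
-/

namespace Vale.Agent.P287Q.D

open P267.FL
open scoped ContDiff Manifold

variable {X : Type} [TopologicalSpace X] [ChartedSpace C2 X] [IsManifold 𝓘(ℂ, C2) ω X]

theorem stEnd2 (hR : StRes X) : StEnd2 X := by
  intro N A B p ip h a L h1 h2 h3
  have i := h.ip'
  have r1 := hR N A B p ip h a.fin
  have r2 := hR N B A _ ip h.swap a.fin
  have e1 : L.h0 = 0 := SB.h0_bot ((r2 L).1 (by omega))
  have e2 : L⁻¹.h0 = 0 := SB.h0_bot ((r1 L⁻¹).1 (by rw [i.inv]; omega))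
  have e3 := (r1 (A * L)).2.2.1 (by rw [i.add, h.AA, h2]; rfl)
  have e4 := (r2 (B / L)).2.2.1 (by rw [i.div, h.BB, h3]; rfl)
  have e5 := h.rr a (A * L)
  rw [mul_div_cancel_left, e1] at e3
  rw [div_div_cancel_left, e2] at e4
  rw [mul_div_mul_left_eq_div, i.add, i.add, i.add, i.add', i.add', h.AA, h.AB, i.symm A L] at e5
  omega

end Vale.Agent.P287Q.D
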