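import Vale.Agent.P287Q.D.St

/-!
# Discriminant six is impossible
-/

set_option linter.unusedSectionVars false

namespace Vale.Agent.P287Q.D

open Set Function Topology Filter P267.FL MvPolynomial
open scoped ContDiff Manifold

namespace End6

/-! ### algebra -/

/-- Forms of bidegree `(1, 1)`. -/
def pl (a : Fin 5 → ℂ) (z : W7) : ℂ :=
  a 0 * (z 0 * z 2) + a 1 * (z 0 * z 3) + a 2 * (z 1 * z 2) + a 3 * (z 1 * z 3) + a 4 * z 4

/-- Binary quadratic forms. -/
def qd (b : Fin 3 → ℂ) (s t : ℂ) : ℂ := b 0 * (s * s) + b 1 * (s * t) + b 2 * (t * t)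

/-- Binary linear forms. -/
def ln (l : ℂ × ℂ) (s t : ℂ) : ℂ := l.1 * s + l.2 * t

theorem dg_add {P Q : R5} {n : ℕ} (a : P.degreeOf 4 ≤ n) (b : Q.degreeOf 4 ≤ n) :
    (P + Q).degreeOf 4 ≤ n := (degreeOf_add_le _ _ _).trans (max_le a b)

theorem dg_mul {P Q : R5} {m n : ℕ} (a : P.degreeOf 4 ≤ m) (b : Q.degreeOf 4 ≤ n) :
    (P * Q).degreeOf 4 ≤ m + n := (degreeOf_mul_le _ _ _).trans (add_le_add a b)

theorem dg_mon (c : ℂ) {i j : Fin 5} (hi : 4 ≠ i) (hj : 4 ≠ j) (n : ℕ) :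
    (C c * (X i * X j) : R5).degreeOf 4 ≤ n :=
  (degreeOf_C_mul_le _ _ _).trans (by rw [degreeOf_mul_X_of_ne _ hj, degreeOf_X_of_ne hi]; simp)

/-- The polynomial of `pl`. -/
noncomputable def plP (a : Fin 5 → ℂ) : R5 :=
  C (a 0) * (X 0 * X 2) + C (a 1) * (X 0 * X 3) + C (a 2) * (X 1 * X 2) + C (a 3) * (X 1 * X 3) +
    C (a 4) * X 4

/-- The polynomial of `qd`. -/
noncomputable def qdP (b : Fin 3 → ℂ) (i j : Fin 5) : R5 :=
  C (b 0) * (X i * X i) + C (b 1) * (X i * X j) + C (b 2) * (X j * X j)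

theorem dg_pl (a : Fin 5 → ℂ) : (plP a).degreeOf 4 ≤ 1 :=
  dg_add (dg_add (dg_add (dg_add (dg_mon _ (by decide) (by decide) _)
    (dg_mon _ (by decide) (by decide) _)) (dg_mon _ (by decide) (by decide) _))
    (dg_mon _ (by decide) (by decide) _)) ((degreeOf_C_mul_le _ _ _).trans (degreeOf_X_self _).le)

theorem dg_qd (b : Fin 3 → ℂ) {i j : Fin 5} (hi : 4 ≠ i) (hj : 4 ≠ j) :
    (qdP b i j).degreeOf 4 ≤ 1 :=
  dg_add (dg_add (dg_mon _ hi hi _) (dg_mon _ hi hj _)) (dg_mon _ hj hj _)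

theorem key0 (hPI : StPI) {N : NF} (hN : N.Good) {a a' : Fin 5 → ℂ} {b b' : Fin 3 → ℂ}
    (h : ∀ z ∈ N.Z, pl a z * pl a' z = qd b (z 0) (z 1) * qd b' (z 2) (z 3)) (z : W7) :
    pl a z * pl a' z = qd b (z 0) (z 1) * qd b' (z 2) (z 3) := by
  have e : ∀ z, ev5 z (plP a * plP a' - qdP b 0 1 * qdP b' 2 3) =
      pl a z * pl a' z - qd b (z 0) (z 1) * qd b' (z 2) (z 3) := fun z => by
    simp [ev5, plP, qdP, pl, qd]
  have h0 := hPI N hN _ ((degreeOf_sub_le _ _ _).trans (max_le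
    ((dg_mul (dg_pl a) (dg_pl a')).trans (by norm_num))
    ((dg_mul (dg_qd b (i := 0) (j := 1) (by decide) (by decide))
      (dg_qd b' (i := 2) (j := 3) (by decide) (by decide))).trans (by norm_num))))
    fun z hz => (e z).trans (sub_eq_zero.2 (h z hz))
  rw [← sub_eq_zero, ← e, h0]
  simp [ev5]

theorem fac (b : Fin 3 → ℂ) : ∃ l l' : ℂ × ℂ, (∀ s t, qd b s t = ln l s t * ln l' s t) ∧
    (l = (0, 1) ∨ l.1 = 1) := by
  by_cases h : b 0 = 0
  · exact ⟨(0, 1), (b 1, b 2), fun s t => by simp only [qd, ln, h]; ring, .inl rfl⟩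
  · obtain ⟨r, hr⟩ := exists_quadratic_eq_zero h (b := b 1) (c := b 2)
      (IsAlgClosed.exists_eq_mul_self _)
    exact ⟨(1, -r), (b 0, b 1 + b 0 * r), fun s t => by
      simp only [qd, ln]; linear_combination (t * t) * hr, .inr rfl⟩

theorem dvd {a : Fin 5 → ℂ} {l : ℂ × ℂ} (hl : l = (0, 1) ∨ l.1 = 1) (h4 : a 4 = 0)
    (h0 : a 2 * l.1 = a 0 * l.2) (h1 : a 3 * l.1 = a 1 * l.2) :
    ∃ m, ∀ z, pl a z = ln l (z 0) (z 1) * ln m (z 2) (z 3) := by
  rcases hl with rfl | hl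
  · refine ⟨(a 2, a 3), fun z => ?_⟩
    simp only [pl, ln, h4] at *
    linear_combination (-(z 0 * z 2)) * h0 - (z 0 * z 3) * h1
  · refine ⟨(a 0, a 1), fun z => ?_⟩
    simp only [pl, ln, h4, hl] at *
    linear_combination (z 1 * z 2) * h0 + (z 1 * z 3) * h1

theorem w_zero {a : Fin 5 → ℂ} {z : W7} (h : ∀ w, pl a (update z 4 w) ≠ 0) : a 4 = 0 := by
  by_contra h4
  refine h (z 4 - pl a z / a 4) ?_
  simp only [pl, update_self, ne_eq, Fin.reduceEq, not_false_eq_true, update_of_ne]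
  field_simp
  ring

theorem alg {a a' : Fin 5 → ℂ} {b b' : Fin 3 → ℂ}
    (h : ∀ z, pl a z * pl a' z = qd b (z 0) (z 1) * qd b' (z 2) (z 3)) {z : W7}
    (hz : pl a z * pl a' z ≠ 0) : ∃ l l' m, (∀ s t, qd b s t = ln l s t * ln l' s t) ∧
      ((∀ z, pl a z = ln l (z 0) (z 1) * ln m (z 2) (z 3)) ∨
        ∀ z, pl a' z = ln l (z 0) (z 1) * ln m (z 2) (z 3)) := by
  have hw : ∀ w, pl a (update z 4 w) * pl a' (update z 4 w) ≠ 0 := fun w => by
    rw [h] at hz ⊢
    simpa using hz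
  have h4 := w_zero fun w => left_ne_zero_of_mul (hw w)
  have h4' := w_zero fun w => right_ne_zero_of_mul (hw w)
  obtain ⟨l, l', e, hl⟩ := fac b
  have k : ∀ s t, ((a 2 * l.1 - a 0 * l.2) * s + (a 3 * l.1 - a 1 * l.2) * t) *
      ((a' 2 * l.1 - a' 0 * l.2) * s + (a' 3 * l.1 - a' 1 * l.2) * t) = 0 := fun s t => by
    have := h ![-l.2, l.1, s, t, 0, 0, 0]
    rw [e] at this
    simp only [pl, ln] at this
    simp only [Matrix.cons_val] at this
    linear_combination this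
  have k1 := k 1 0
  have k2 := k 0 1
  have k3 := k 1 1
  simp only [mul_one, mul_zero, add_zero, zero_add] at k1 k2 k3
  have L := fun u v => (dvd hl h4 (sub_eq_zero.1 u) (sub_eq_zero.1 v)).imp
    fun m hm => (⟨e, .inl hm⟩ : (∀ s t, qd b s t = ln l s t * ln l' s t) ∧
      ((∀ z, pl a z = ln l (z 0) (z 1) * ln m (z 2) (z 3)) ∨
        ∀ z, pl a' z = ln l (z 0) (z 1) * ln m (z 2) (z 3)))
  have R := fun u v => (dvd hl h4' (sub_eq_zero.1 u) (sub_eq_zero.1 v)).imp
    fun m hm => (⟨e, .inr hm⟩ : (∀ s t, qd b s t = ln l s t * ln l' s t) ∧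
      ((∀ z, pl a z = ln l (z 0) (z 1) * ln m (z 2) (z 3)) ∨
        ∀ z, pl a' z = ln l (z 0) (z 1) * ln m (z 2) (z 3)))
  refine ⟨l, l', ?_⟩
  rcases mul_eq_zero.1 k1 with u | u <;> rcases mul_eq_zero.1 k2 with v | v
  · exact L u v
  · rw [u, v, zero_add, add_zero] at k3
    exact (mul_eq_zero.1 k3).elim (L u) (R · v)
  · rw [u, v, zero_add, add_zero] at k3
    exact (mul_eq_zero.1 k3).elim (L · v) (R u)
  · exact R u v

/-! ### sections -/

variable {X : Type} [TopologicalSpace X] [ChartedSpace C2 X] [IsManifold 𝓘(ℂ, C2) ω X]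

theorem eq_zero [PreconnectedSpace X] {M : SB X} {s : X → ℂ} (hs : s ∈ M.Γ) {x : X}
    (hx : s =ᶠ[𝓝 x] 0) : s = 0 := by
  have hc : IsClopen {y | s =ᶠ[𝓝 y] 0} := by
    refine ⟨isClosed_of_closure_subset fun y hy => ?_,
      isOpen_iff_mem_nhds.2 fun y hy => eventually_eventually_nhds.2 hy⟩
    set e := chartAt C2 y
    have hy0 : y ∈ e.source := mem_chart_source C2 y
    obtain ⟨r, hr, hb⟩ := Metric.eventually_nhds_iff_ball.1
      ((AnalyticAt.eventually_analyticAt (hs y)).and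
        (e.open_target.mem_nhds (e.map_source hy0)))
    have hU : ∀ᶠ t in 𝓝 y, t ∈ e.source ∧ e t ∈ Metric.ball (e y) r :=
      (e.open_source.eventually_mem hy0).and ((e.continuousAt hy0).eventually_mem
        (Metric.ball_mem_nhds _ hr))
    obtain ⟨t, ht, ht'⟩ := mem_closure_iff_nhds.1 hy _ hU
    have h0 := AnalyticOnNhd.eqOn_zero_of_preconnected_of_eventuallyEq_zero
      (fun z hz => (hb z hz).1) (convex_ball (e y) r).isPreconnected ht.2 (by
        have := (e.continuousAt_symm (e.map_source ht.1)).eventually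
          (p := fun u => s u = 0) (by rw [e.left_inv ht.1]; exact ht')
        exact this.mono fun z hz => div_eq_zero_iff.2 (.inl hz))
    refine hU.mono fun u hu => ?_
    have : s (e.symm (e u)) = 0 := (div_eq_zero_iff.1 (h0 hu.2)).resolve_right (M.ne _ _)
    rwa [e.left_inv hu.1] at this
  funext y
  exact Eventually.self_of_nhds (p := fun u => s u = (0 : X → ℂ) u)
    (show y ∈ {y | s =ᶠ[𝓝 y] 0} from (hc.eq_univ ⟨x, hx⟩).symm ▸ mem_univ y)

theorem mul_ne [PreconnectedSpace X] {M M' : SB X} {s t : X → ℂ} (hs : s ∈ M.Γ) (ht : t ∈ M'.Γ)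
    (h : s ≠ 0) (h' : t ≠ 0) : s * t ≠ 0 := fun e => by
  obtain ⟨x, hx⟩ := ne_iff.1 h
  exact h' (eq_zero ht (((hs x).ev_ne hx).mono fun y hy =>
    (mul_eq_zero.1 (congrFun e y)).resolve_left hy))

theorem span {V : Type} [AddCommGroup V] [Module ℂ V] {Γ : Submodule ℂ V}
    [FiniteDimensional ℂ Γ] {n : ℕ} (h : Module.finrank ℂ Γ ≤ n) {v : Fin n → V}
    (hv : ∀ i, v i ∈ Γ) (li : ∀ c : Fin n → ℂ, ∑ i, c i • v i = 0 → ∀ i, c i = 0) {s : V}
    (hs : s ∈ Γ) : ∃ c : Fin n → ℂ, ∑ i, c i • v i = s := by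
  have e : Submodule.span ℂ (range v) = Γ :=
    Submodule.eq_of_le_of_finrank_le (Submodule.span_le.2 (range_subset_iff.2 hv)) (by
      rwa [finrank_span_eq_card (Fintype.linearIndependent_iff.2 li), Fintype.card_fin])
  exact (Submodule.mem_span_range_iff_exists_fun ℂ).1 (e ▸ hs)

theorem h0_bot {M : SB X} (h : M.Γ = ⊥) : M.h0 = 0 := by rw [SB.h0, h, finrank_bot]

theorem ex_ne {M : SB X} (h : 1 ≤ M.h0) : ∃ s ∈ M.Γ, s ≠ 0 :=
  Submodule.exists_mem_ne_zero_of_ne_bot fun e => by simp [h0_bot e] at h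

variable {N : NF} {A B L : SB X} {p : X → W7} {ip : SB X → SB X → ℤ}

theorem ip_one (h : IP ip) (M : SB X) : ip 1 M = 0 := by
  have := h.add 1 1 M
  rw [one_mul] at this
  omega

theorem ip_inv (h : IP ip) (M M' : SB X) : ip M⁻¹ M' = -ip M M' := by
  have := h.add M⁻¹ M M'
  rw [inv_mul_cancel, ip_one h] at this
  omega

theorem ip_div (h : IP ip) (M M' M'' : SB X) : ip (M / M') M'' = ip M M'' - ip M' M'' := by
  rw [div_eq_mul_inv, h.add, ip_inv h, sub_eq_add_neg]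

theorem ip_K (h : Pk N A B p ip) (M : SB X) : ip (SB.K X) M = ip A M + ip B M := by
  have := h.ip'.triv _ M h.can
  rw [ip_div h.ip', h.ip'.add] at this
  omega

theorem sec0 (h : Md N A B p) : (fun x => p x 0) ∈ A.Γ := fun x =>
  ((h.hol x).apply 0).congr (.of_forall fun y => by simp [ac, ch, div_eq_inv_mul])

theorem sec1 (h : Md N A B p) : (fun x => p x 1) ∈ A.Γ := fun x =>
  ((h.hol x).apply 1).congr (.of_forall fun y => by simp [ac, ch, div_eq_inv_mul])

theorem sec4 (h : Md N A B p) : (fun x => p x 4) ∈ (A * B).Γ := fun x =>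
  ((h.hol x).apply 4).congr (.of_forall fun y => by simp [ac, ch, div_eq_inv_mul, mul_comm])

theorem secl (h : Md N A B p) (l : ℂ × ℂ) : (fun x => ln l (p x 0) (p x 1)) ∈ A.Γ :=
  A.Γ.add_mem (A.Γ.smul_mem l.1 (sec0 h)) (A.Γ.smul_mem l.2 (sec1 h))

theorem key (hPI : StPI) (h : Pk N A B p ip) {a a' : Fin 5 → ℂ} {b b' : Fin 3 → ℂ}
    (e : ∀ x, pl a (p x) * pl a' (p x) = qd b (p x 0) (p x 1) * qd b' (p x 2) (p x 3)) (z : W7) :
    pl a z * pl a' z = qd b (z 0) (z 1) * qd b' (z 2) (z 3) := by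
  refine key0 hPI h.gd (fun z hz => ?_) z
  obtain ⟨x, c, rfl⟩ := h.md.surj z hz
  have := e x
  simp only [pl, qd, ac, ch, Matrix.cons_val] at this ⊢
  linear_combination (c.1 * c.2) ^ 2 * this

/-- The numerical type to be excluded. -/
structure Bad (ip : SB X → SB X → ℤ) (A B L : SB X) : Prop where
  LL : ip L L = -4
  LA : ip L A = 0
  LB : ip L B = 0

theorem Bad.inv (h : IP ip) (b : Bad ip A B L) : Bad ip A B L⁻¹ :=
  ⟨by rw [ip_inv h, h.symm, ip_inv h, b.LL]; rfl, by rw [ip_inv h, b.LA]; rfl,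
    by rw [ip_inv h, b.LB]; rfl⟩

/-- The statements used. -/
structure Hy (X : Type) [TopologicalSpace X] [ChartedSpace C2 X] [IsManifold 𝓘(ℂ, C2) ω X] :
    Prop where
  res : StRes X
  zf : StZF X
  meet : StMeet X
  hart : StHart X
  conn : StConn X
  pi : StPI

theorem Bad.bot (H : Hy X) (h : Pk N A B p ip) (an : An ip 6) (b : Bad ip A B L) : L.Γ = ⊥ := by
  refine (Submodule.eq_bot_iff _).2 fun s hs => by_contra fun s0 => ?_
  have h0 := ((H.res _ _ _ _ _ h an.fin L).2.1 b.LA s hs).resolve_right s0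
  have h2 := ((H.res _ _ _ _ _ h.swap an.fin L).2.1 b.LB s hs).resolve_right s0
  have := h.ip'.triv L L ⟨s, hs, H.zf L s (fun x => (p x 1 / p x 0, p x 3 / p x 2)) hs s0
    (fun x hx => AnalyticAt.prod ((sec1 h.md x).hol_div (sec0 h.md x) fun e => h0 x e hx)
      ((sec1 h.md.swap x).hol_div (sec0 h.md.swap x) fun e => h2 x e hx))
    fun v => (H.meet _ _ _ _ _ h v.1 (-1) v.2 (-1) (by simp) (by simp)).subset fun x hx => ?_⟩
  · rw [b.LL] at this
    omega
  · have a0 : p x 0 ≠ 0 := fun e => h0 x e hx.1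
    have a2 : p x 2 ≠ 0 := fun e => h2 x e hx.1
    obtain ⟨-, rfl⟩ := hx
    constructor <;> field_simp <;> ring

theorem Bad.ex (H : Hy X) (h : Pk N A B p ip) (an : An ip 6) (b : Bad ip A B L) :
    (∃ s ∈ (A * L).Γ, s ≠ 0) ∧ ∃ t ∈ (B * L⁻¹).Γ, t ≠ 0 := by
  have i := h.ip'
  have BA := (i.symm B A).trans h.AB
  have AL := (i.symm A L).trans b.LA
  have BL := (i.symm B L).trans b.LB
  have h1 := (H.res _ _ _ _ _ h an.fin (A * L)).2.2.1 (by rw [i.add, h.AA, b.LA]; omega)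
  rw [mul_div_cancel_left, h0_bot (b.bot H h an)] at h1
  have hA : ip (SB.K X / (A * L) / B) A = 0 := by
    rw [ip_div i, ip_div i, i.add, ip_K h, h.AA, BA, b.LA]; rfl
  have hB : ip (SB.K X / (A * L) / B) B = 0 := by
    rw [ip_div i, ip_div i, i.add, ip_K h, h.BB, h.AB, b.LB]; rfl
  have hL : ip (SB.K X / (A * L) / B) L = 4 := by
    rw [ip_div i, ip_div i, i.add, ip_K h, AL, BL, b.LL]; rfl
  have b' : Bad ip A B (SB.K X / (A * L) / B) := ⟨by
    rw [ip_div i, ip_div i, i.add, ip_K h, i.symm A, i.symm B, i.symm L, hA, hB, hL]; rfl, hA, hB⟩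
  have h2 := (H.res _ _ _ _ _ h.swap an.fin (SB.K X / (A * L))).2.2.1 (by
    rw [ip_div i, i.add, ip_K h, h.BB, h.AB, b.LB]; omega)
  rw [h0_bot (b'.bot H h an)] at h2
  have h3 := an.rr (A * L)
  rw [i.symm _ (SB.K X), ip_K h, i.add, i.symm A, i.symm B, i.symm L, i.add, i.add, i.add, h.AA,
    h.AB, b.LA, b.LB, AL, b.LL] at h3
  refine ⟨ex_ne (by omega), ?_⟩
  obtain ⟨t, ht, t0⟩ := ex_ne (M := SB.K X / (A * L)) (by omega)
  obtain ⟨u, hu, u0⟩ := h.can
  have e : SB.K X / (A * L) / (SB.K X / (A * B)) = B * L⁻¹ := by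
    rw [div_div_div_cancel_left, mul_div_mul_left_eq_div, div_eq_mul_inv]
  refine ⟨t / u, e ▸ SB.div_mem ht hu u0, fun e => t0 (funext fun x => ?_)⟩
  exact (div_eq_zero_iff.1 (congrFun e x)).resolve_right (u0 x)

theorem quad (H : Hy X) (h : Pk N A B p ip) (an : An ip 6) :
    A.h0 ≤ 2 ∧ ∀ s ∈ (A * A).Γ, ∃ b, ∀ x, s x = qd b (p x 0) (p x 1) := by
  have i := h.ip'
  have r := H.res _ _ _ _ _ h an.fin
  have h0 := (r 1).2.2.1 (by rw [ip_one i]; omega)
  rw [h0_bot ((r (1 / A)).1 (by rw [ip_div i, ip_one i, h.AA]; omega))] at h0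
  have h1 := (r A).2.2.1 (by rw [h.AA]; omega)
  rw [div_self'] at h1
  have h2 := (r (A * A)).2.2.1 (by rw [i.add, h.AA]; omega)
  rw [mul_div_cancel_left] at h2
  refine ⟨by omega, fun s hs => ?_⟩
  have := an.fin (A * A)
  obtain ⟨c, rfl⟩ := span (n := 3) (show (A * A).h0 ≤ 3 by omega)
    (v := ![fun x => p x 0 * p x 0, fun x => p x 0 * p x 1, fun x => p x 1 * p x 1]) (fun i => by
      fin_cases i
      exacts [SB.mul_mem (sec0 h.md) (sec0 h.md), SB.mul_mem (sec0 h.md) (sec1 h.md),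
        SB.mul_mem (sec1 h.md) (sec1 h.md)]) (fun c hc => by
      have k := key H.pi h (a := 0) (a' := 0) (b := c) (b' := ![1, 0, 0]) fun x => by
        have := congrFun hc x
        simp only [Fin.sum_univ_three, Matrix.cons_val, Pi.add_apply, Pi.smul_apply,
          smul_eq_mul, Pi.zero_apply] at this
        rw [show qd c (p x 0) (p x 1) = 0 from this]
        simp [pl]
      have k0 := k ![1, 0, 1, 0, 0, 0, 0]
      have k1 := k ![0, 1, 1, 0, 0, 0, 0]
      have k2 := k ![1, 1, 1, 0, 0, 0, 0]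
      simp only [pl, qd, Matrix.cons_val, Pi.zero_apply] at k0 k1 k2
      intro i
      fin_cases i
      · show c 0 = 0
        linear_combination -k0
      · show c 1 = 0
        linear_combination k0 + k1 - k2
      · show c 2 = 0
        linear_combination -k1) hs
  exact ⟨c, fun x => by simp [Fin.sum_univ_three, qd]⟩

theorem bil (H : Hy X) (h : Pk N A B p ip) (an : An ip 6) {s : X → ℂ} (hs : s ∈ (A * B).Γ) :
    ∃ a, ∀ x, s x = pl a (p x) := by
  have i := h.ip'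
  have h1 := (quad H h.swap an).1
  have h2 := (H.res _ _ _ _ _ h an.fin (A * B)).2.2.2 (by
    rw [i.add, h.AA, i.symm, h.AB]; rfl)
  rw [mul_div_cancel_left] at h2
  have := an.fin (A * B)
  obtain ⟨c, rfl⟩ := span (n := 5) (show (A * B).h0 ≤ 5 by omega)
    (v := ![fun x => p x 0 * p x 2, fun x => p x 0 * p x 3, fun x => p x 1 * p x 2,
      fun x => p x 1 * p x 3, fun x => p x 4]) (fun i => by
      fin_cases i
      exacts [SB.mul_mem (sec0 h.md) (sec0 h.md.swap), SB.mul_mem (sec0 h.md) (sec1 h.md.swap),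
        SB.mul_mem (sec1 h.md) (sec0 h.md.swap), SB.mul_mem (sec1 h.md) (sec1 h.md.swap),
        sec4 h.md]) (fun c hc => by
      have k := key H.pi h (a := c) (a' := ![1, 0, 0, 0, 0]) (b := 0) (b' := 0) fun x => by
        have := congrFun hc x
        simp only [Fin.sum_univ_five, Matrix.cons_val, Pi.add_apply, Pi.smul_apply,
          smul_eq_mul, Pi.zero_apply] at this
        rw [show pl c (p x) = 0 from this]
        simp [qd]
      have k0 := k ![1, 0, 1, 0, 0, 0, 0]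
      have k1 := k ![1, 0, 1, 1, 0, 0, 0]
      have k2 := k ![1, 1, 1, 0, 0, 0, 0]
      have k3 := k ![1, 1, 1, 1, 0, 0, 0]
      have k4 := k ![1, 0, 1, 0, 1, 0, 0]
      simp only [pl, qd, Matrix.cons_val, Pi.zero_apply] at k0 k1 k2 k3 k4
      intro i
      fin_cases i
      · show c 0 = 0
        linear_combination k0
      · show c 1 = 0
        linear_combination k1 - k0
      · show c 2 = 0
        linear_combination k2 - k0
      · show c 3 = 0
        linear_combination k3 - k1 - k2 + k0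
      · show c 4 = 0
        linear_combination k4 - k0) hs
  exact ⟨c, fun x => by simp [Fin.sum_univ_five, pl]⟩

theorem last (H : Hy X) (h : Pk N A B p ip) (hL : L.Γ = ⊥) {M : SB X} {s s' t : X → ℂ}
    (hs : s ∈ M.Γ) (hs' : s' ∈ (A * L).Γ) (ht : t ∈ (B * L).Γ) (s0 : s ≠ 0) (s0' : s' ≠ 0)
    (t0 : t ≠ 0) {l l' m : ℂ × ℂ}
    (e : ∀ x, s x * s' x = ln l (p x 0) (p x 1) * ln l' (p x 0) (p x 1))
    (e' : ∀ x, s x * t x = ln l (p x 0) (p x 1) * ln m (p x 2) (p x 3)) : False := by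
  classical
  have := H.conn _ _ _ _ _ h
  set f : X → ℂ := fun x => ln l' (p x 0) (p x 1)
  set g : X → ℂ := fun x => ln m (p x 2) (p x 3)
  have hf : f ∈ A.Γ := secl h.md l'
  have hg : g ∈ B.Γ := secl h.md.swap m
  have f0 : f ≠ 0 := fun a => mul_ne hs hs' s0 s0' (funext fun x =>
    (e x).trans (mul_eq_zero_of_right _ (congrFun a x)))
  have g0 : g ≠ 0 := fun a => mul_ne hs ht s0 t0 (funext fun x =>
    (e' x).trans (mul_eq_zero_of_right _ (congrFun a x)))
  have k : t * f - g * s' = 0 := by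
    have a : B * L * A = B * (A * L) := by rw [mul_assoc, mul_comm L]
    refine by_contra fun k => mul_ne hs ((B * (A * L)).Γ.sub_mem (a ▸ SB.mul_mem ht hf)
      (SB.mul_mem hg hs')) s0 k (funext fun x => ?_)
    simp only [Pi.mul_apply, Pi.sub_apply, Pi.zero_apply]
    linear_combination f x * e' x - g x * e x
  obtain ⟨u, hu, hu'⟩ := H.hart L (fun x => if f x = 0 then t x / g x else s' x / f x) _
    (H.meet _ _ _ _ _ h l'.1 l'.2 m.1 m.2 (fun a => f0 (funext fun x => by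
      simp [f, ln, show l' = 0 from a])) fun a => g0 (funext fun x => by
      simp [g, ln, show m = 0 from a])) fun x hx => by
    by_cases a : f x = 0
    · have b : g x ≠ 0 := fun b => hx ⟨a, b⟩
      have c := (ht x).div (hg x) b
      rw [mul_div_cancel_left] at c
      refine c.congr (((hg x).ev_ne b).mono fun y hy => ?_)
      show t y / g y = if f y = 0 then t y / g y else s' y / f y
      split_ifs with d
      · rfl
      · rw [div_eq_div_iff hy d, mul_comm (s' y)]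
        exact sub_eq_zero.1 (congrFun k y)
    · have c := (hs' x).div (hf x) a
      rw [mul_div_cancel_left] at c
      exact c.congr (((hf x).ev_ne a).mono fun y hy => (if_neg hy).symm)
  rw [hL, Submodule.mem_bot] at hu
  refine mul_ne hs' hf s0' f0 (funext fun x => ?_)
  by_cases a : f x = 0
  · exact mul_eq_zero_of_right _ a
  · have := hu' x fun b => a b.1
    rw [hu, if_neg a] at this
    exact mul_eq_zero_of_left ((div_eq_zero_iff.1 this.symm).resolve_right a) _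

theorem main (H : Hy X) : StEnd6 X := fun N A B p ip h an L h1 h2 h3 => by
  have b : Bad ip A B L := ⟨h1, h2, h3⟩
  have b' := b.inv h.ip'
  have := H.conn _ _ _ _ _ h
  obtain ⟨⟨s, hs, s0⟩, t', ht', t0'⟩ := b.ex H h an
  obtain ⟨⟨s', hs', s0'⟩, t, ht, t0⟩ := b'.ex H h an
  rw [inv_inv] at ht
  have c : ∀ M M' : SB X, M * L * (M' * L⁻¹) = M * M' := fun M M' => by
    rw [mul_mul_mul_comm, mul_inv_cancel, mul_one]
  obtain ⟨q, hq⟩ := (quad H h an).2 _ (c A A ▸ SB.mul_mem hs hs')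
  obtain ⟨q', hq'⟩ := (quad H h.swap an).2 _ (c B B ▸ SB.mul_mem ht ht')
  obtain ⟨a, ha⟩ := bil H h an (c A B ▸ SB.mul_mem hs ht')
  obtain ⟨a', ha'⟩ := bil H h an (mul_comm B A ▸ c B A ▸ SB.mul_mem ht hs')
  simp only [Pi.mul_apply] at hq hq' ha ha'
  obtain ⟨x, hx⟩ := ne_iff.1 (mul_ne (SB.mul_mem hs ht') (SB.mul_mem ht hs')
    (mul_ne hs ht' s0 t0') (mul_ne ht hs' t0 s0'))
  obtain ⟨l, l', m, e, e' | e'⟩ := alg (key H.pi h (a := a) (a' := a') (b := q) (b' := q')
    fun x => by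
      rw [← ha, ← ha', ← hq, show qd q' (p x 2) (p x 3) = t x * t' x from (hq' x).symm]
      ring) (z := p x) (by rw [← ha, ← ha']; exact hx)
  · exact last H h (b'.bot H h an) hs hs' ht' s0 s0' t0' (fun x => (hq x).trans (e _ _))
      fun x => (ha x).trans (e' _)
  · exact last H h (b.bot H h an) hs' hs ht s0' s0 t0
      (fun x => (mul_comm _ _).trans ((hq x).trans (e _ _)))
      fun x => (mul_comm _ _).trans ((ha' x).trans (e' _))

end End6

/-- Discriminant six is impossible. -/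
theorem stEnd6 {X : Type} [TopologicalSpace X] [ChartedSpace C2 X] [IsManifold 𝓘(ℂ, C2) ω X]
    (hRes : StRes X) (hZF : StZF X) (hMeet : StMeet X) (hHart : StHart X) (hConn : StConn X)
    (hPI : StPI) : StEnd6 X := End6.main ⟨hRes, hZF, hMeet, hHart, hConn, hPI⟩

end Vale.Agent.P287Q.D
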