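import Vale.Agent.P287Q.D.St

/-!
# Discriminants 2 and 6: finiteness of the fibres, factorisations of a conic
-/

namespace Vale.Agent.P287Q.D

open Set Function Matrix

namespace Fin'

theorem fin4 {a₄ : ℂ} (h : a₄ ≠ 0) (a₃ a₂ a₁ a₀ : ℂ) :
    {w : ℂ | a₄ * w ^ 4 + a₃ * w ^ 3 + a₂ * w ^ 2 + a₁ * w + a₀ = 0}.Finite := by
  have h0 : (Polynomial.C a₄ * Polynomial.X ^ 4 + Polynomial.C a₃ * Polynomial.X ^ 3 +
      Polynomial.C a₂ * Polynomial.X ^ 2 + Polynomial.C a₁ * Polynomial.X + Polynomial.C a₀ :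
      Polynomial ℂ) ≠ 0 := fun e => h (by
    simpa [Polynomial.coeff_X, Polynomial.coeff_C] using congrArg (Polynomial.coeff · 4) e)
  refine (Polynomial.finite_setOfPred_isRoot h0).subset fun w hw => ?_
  simpa using hw

theorem fin2 {a₂ : ℂ} (h : a₂ ≠ 0) (a₁ a₀ : ℂ) : {w : ℂ | a₂ * w ^ 2 + a₁ * w + a₀ = 0}.Finite :=
  (fin4 h a₁ a₀ 0 0).subset fun w hw => by
    have hw' : a₂ * w ^ 2 + a₁ * w + a₀ = 0 := hw
    change _ = _
    linear_combination w ^ 2 * hw'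

theorem b_exp (N : NF) (i : Fin 2) (y : V4) (w : ℂ) : N.b i (y + w • pp) =
    N.b i pp * w ^ 2 + (N.B i y pp + N.B i pp y) * w + N.b i y := by
  simp only [NF.b, map_add, map_smul, _root_.add_apply,
    _root_.smul_apply, smul_eq_mul]
  ring

theorem c_exp (N : NF) (y : V4) : ∃ c₃ c₂ c₁ c₀ : ℂ, ∀ w : ℂ, N.c (y + w • pp) =
    c₃ * w ^ 3 + c₂ * w ^ 2 + c₁ * w + c₀ := by
  refine ⟨N.c pp, N.C y pp pp + N.C pp y pp + N.C pp pp y, N.C y y pp + N.C y pp y + N.C pp y y,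
    N.c y, fun w => ?_⟩
  simp only [NF.c, map_add, map_smul, _root_.add_apply,
    _root_.smul_apply, smul_eq_mul]
  ring

theorem yy_eq (z : W7) :
    yy z = ![z 0 * z 2, z 0 * z 3 + z 1 * z 2, z 1 * z 3, 0] + z 4 • pp := by
  funext i
  fin_cases i <;> simp [yy, pp]

theorem two_sub {L L' M : Fin 3 → ℂ} (h : ∀ v, M ⬝ᵥ v = 0 → L ⬝ᵥ v * L' ⬝ᵥ v = 0) :
    (∀ v, M ⬝ᵥ v = 0 → L ⬝ᵥ v = 0) ∨ ∀ v, M ⬝ᵥ v = 0 → L' ⬝ᵥ v = 0 := by
  by_contra hc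
  push Not at hc
  obtain ⟨⟨v, h1, h2⟩, v', h3, h4⟩ := hc
  have e1 := (mul_eq_zero.1 (h v h1)).resolve_left h2
  have e2 := (mul_eq_zero.1 (h v' h3)).resolve_right h4
  have e3 := h (v + v') (by rw [dotProduct_add, h1, h3, add_zero])
  rw [dotProduct_add, dotProduct_add, e1, e2, add_zero, zero_add] at e3
  exact mul_ne_zero h2 h4 e3

theorem eq_zero {L : Fin 3 → ℂ} (h : ∀ v, L ⬝ᵥ v = 0) : L = 0 :=
  funext fun i => by simpa using h (Pi.single i 1)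

theorem half {L L' M M' : Fin 3 → ℂ} {t : ℂ} (hL : L ≠ 0) (hM : M ≠ 0)
    (h : ∀ v, M ⬝ᵥ v * M' ⬝ᵥ v = t * (L ⬝ᵥ v * L' ⬝ᵥ v)) (hk : ∀ v, M ⬝ᵥ v = 0 → L ⬝ᵥ v = 0) :
    ∃ a b : ℂ, a * b = t ∧ M = a • L ∧ M' = b • L' := by
  obtain ⟨i, hi⟩ := Function.ne_iff.1 hM
  have hi' : M i ≠ 0 := hi
  have e : ∀ j, L j * M i = L i * M j := fun j => by
    have := hk (Pi.single j (M i) - Pi.single i (M j)) (by simp [mul_comm])
    simpa [sub_eq_zero] using this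
  have hLi : L i ≠ 0 := fun h0 => hL (funext fun j => by simpa [h0, hi'] using e j)
  have ha : M i / L i ≠ 0 := div_ne_zero hi' hLi
  have e1 : M = (M i / L i) • L := funext fun j => by
    simp only [Pi.smul_apply, smul_eq_mul]
    field_simp
    linear_combination - e j
  refine ⟨M i / L i, t / (M i / L i), mul_div_cancel₀ _ ha, e1, ?_⟩
  generalize M i / L i = a at ha e1
  subst e1
  have := two_sub (M := 0) (L := L) (L' := a • M' - t • L') fun v _ => by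
    have := h v
    simp only [smul_dotProduct, sub_dotProduct, smul_eq_mul] at this ⊢
    linear_combination this
  have e2 := eq_zero fun v => (this.resolve_left fun h0 => hL (eq_zero fun v => h0 v (by simp))) v
    (by simp)
  funext j
  have e3 := congrFun e2 j
  simp only [Pi.sub_apply, Pi.smul_apply, smul_eq_mul, Pi.zero_apply] at e3 ⊢
  field_simp
  linear_combination e3

theorem uf {L L' M M' : Fin 3 → ℂ} {t : ℂ} (ht : t ≠ 0) (h0 : ∃ v, L ⬝ᵥ v * L' ⬝ᵥ v ≠ 0)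
    (h : ∀ v, M ⬝ᵥ v * M' ⬝ᵥ v = t * (L ⬝ᵥ v * L' ⬝ᵥ v)) :
    ∃ a b : ℂ, a * b = t ∧ (M = a • L ∧ M' = b • L' ∨ M = a • L' ∧ M' = b • L) := by
  obtain ⟨v, hv⟩ := h0
  have hL : L ≠ 0 := by rintro rfl; simp at hv
  have hL' : L' ≠ 0 := by rintro rfl; simp at hv
  have hM : M ≠ 0 := by
    rintro rfl
    exact mul_ne_zero ht hv (by simpa using (h v).symm)
  rcases two_sub (M := M) (L := L) (L' := L') fun v hv => (mul_eq_zero.1 ((h v).symm.trans (by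
    rw [hv, zero_mul]))).resolve_left ht with h1 | h1
  · obtain ⟨a, b, e1, e2⟩ := half hL hM h h1
    exact ⟨a, b, e1, Or.inl e2⟩
  · obtain ⟨a, b, e1, e2⟩ := half hL' hM (fun v => by rw [h v, mul_comm (L ⬝ᵥ v)]) h1
    exact ⟨a, b, e1, Or.inr e2⟩

theorem ac_of {z z' : W7} {a b : ℂ} (ht : a * b ≠ 0) (h4 : z' 4 = a * b * z 4)
    (h : ![z' 0, z' 1, z' 5 / (a * b)] = a • ![z 0, z 1, z 5])
    (h' : ![z' 2, z' 3, z' 6 / (a * b)] = b • ![z 2, z 3, z 6]) : z' = ac (a, b) z := by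
  have e0 : z' 0 = a * z 0 := congrFun h 0
  have e1 : z' 1 = a * z 1 := congrFun h 1
  have e5 : z' 5 / (a * b) = a * z 5 := congrFun h 2
  have e2 : z' 2 = b * z 2 := congrFun h' 0
  have e3 : z' 3 = b * z 3 := congrFun h' 1
  have e6 : z' 6 / (a * b) = b * z 6 := congrFun h' 2
  rw [div_eq_iff ht] at e5 e6
  funext i
  fin_cases i
  exacts [e0, e1, e2, e3, h4, e5.trans (by simp [ac, ch]; ring), e6.trans (by simp [ac, ch]; ring)]

end Fin'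

open Fin'

theorem stFin : StFin := by
  intro N h1 h0 l l' hl hl'
  let y : V4 := ![l 0 * l' 0, l 0 * l' 1 + l 1 * l' 0, l 1 * l' 1, 0]
  obtain ⟨c₃, c₂, c₁, c₀, hc⟩ := c_exp N y
  have hb0 := b_exp N 0 y
  have hb1 := b_exp N 1 y
  rw [h0] at hb0
  generalize N.B 0 y pp + N.B 0 pp y = p₁, N.b 0 y = p₀ at hb0
  generalize N.B 1 y pp + N.B 1 pp y = q₁, N.b 1 y = q₀ at hb1
  generalize N.b 1 pp = β at hb1 h1
  have hW := fin4 (a₄ := l' 0 * l 0 * β ^ 2) (mul_ne_zero (mul_ne_zero hl' hl) (pow_ne_zero 2 h1))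
    (β * (l' 0 * (l 0 * q₁ - l 1 * p₁) - l 0 * (l' 1 * p₁ - l' 0 * q₁)) +
      (l 0 * l' 1 - l 1 * l' 0) ^ 2 * c₃)
    (β * (l' 0 * (l 0 * q₀ - l 1 * p₀) - l 0 * (l' 1 * p₀ - l' 0 * q₀)) -
      (l' 1 * p₁ - l' 0 * q₁) * (l 0 * q₁ - l 1 * p₁) + (l 0 * l' 1 - l 1 * l' 0) ^ 2 * c₂)
    (-(l' 1 * p₁ - l' 0 * q₁) * (l 0 * q₀ - l 1 * p₀) -
      (l' 1 * p₀ - l' 0 * q₀) * (l 0 * q₁ - l 1 * p₁) + (l 0 * l' 1 - l 1 * l' 0) ^ 2 * c₁)
    (-(l' 1 * p₀ - l' 0 * q₀) * (l 0 * q₀ - l 1 * p₀) + (l 0 * l' 1 - l 1 * l' 0) ^ 2 * c₀)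
  refine (hW.biUnion fun w _ => (fin2 hl' (-(p₁ * w + p₀))
    (l 0 * (c₃ * w ^ 3 + c₂ * w ^ 2 + c₁ * w + c₀))).image fun μ =>
      (![l 0, l 1, l' 0, l' 1, w, μ, (p₁ * w + p₀ - l' 0 * μ) / l 0] : W7)).subset ?_
  rintro z ⟨hz, e0, e1, e2, e3⟩
  obtain ⟨-, a0, a1, a2⟩ := NF.mem_Z.1 hz
  rw [yy_eq, e0, e1, e2, e3] at a0 a1 a2
  rw [hb0] at a0
  rw [hb1] at a1
  rw [hc] at a2
  refine mem_biUnion (x := z 4) ?_ ⟨z 5, ?_, ?_⟩
  · change _ = _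
    linear_combination (l 0 * l' 1 - l 1 * l' 0) ^ 2 * a2 -
      (l' 1 * (l 0 * (β * z 4 ^ 2 + q₁ * z 4 + q₀) - l 1 * (p₁ * z 4 + p₀)) -
        l 1 * (l 0 * l' 1 - l 1 * l' 0) * z 6) * a0 +
      (l' 0 * (l 0 * (β * z 4 ^ 2 + q₁ * z 4 + q₀) - l 1 * (p₁ * z 4 + p₀)) -
        l 0 * (l 0 * l' 1 - l 1 * l' 0) * z 6) * a1
  · change _ = _
    linear_combination l 0 * a2 - z 5 * a0
  · funext i
    fin_cases i
    exacts [e0.symm, e1.symm, e2.symm, e3.symm, rfl, rfl, by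
      change (p₁ * z 4 + p₀ - l' 0 * z 5) / l 0 = z 6
      rw [div_eq_iff hl]
      linear_combination a0]

theorem stTwo : StTwo := by
  intro N h1 z hz z' hz' t e
  obtain ⟨n, a0, a1, a2⟩ := NF.mem_Z.1 hz
  obtain ⟨n', b0, b1, b2⟩ := NF.mem_Z.1 hz'
  have ht : t ≠ 0 := by
    rintro rfl
    exact n' (by rw [e, zero_smul])
  rw [e, NF.b_smul] at b0 b1
  rw [e, NF.c_smul] at b2
  have y0 : z' 0 * z' 2 = t * (z 0 * z 2) := congrFun e 0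
  have y1 : z' 0 * z' 3 + z' 1 * z' 2 = t * (z 0 * z 3 + z 1 * z 2) := congrFun e 1
  have y2 : z' 1 * z' 3 = t * (z 1 * z 3) := congrFun e 2
  have y3 : z' 4 = t * z 4 := congrFun e 3
  have key := uf (L := ![z 0, z 1, z 5]) (L' := ![z 2, z 3, z 6])
    (M := ![z' 0, z' 1, z' 5 / t]) (M' := ![z' 2, z' 3, z' 6 / t]) ht ?_ ?_
  · obtain ⟨a, b, rfl, h | h⟩ := key
    · exact Or.inl ⟨_, ac_of ht y3 h.1 h.2⟩
    · exact Or.inr ⟨_, ac_of (z := sw z) ht y3 h.1 h.2⟩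
  · by_contra hc
    push Not at hc
    have c0 : z 0 * z 2 = 0 := by simpa using hc ![1, 0, 0]
    have c1 : z 1 * z 3 = 0 := by simpa using hc ![0, 1, 0]
    have c2 : z 5 * z 6 = 0 := by simpa using hc ![0, 0, 1]
    have c3 : (z 0 + z 1) * (z 2 + z 3) = 0 := by simpa using hc ![1, 1, 0]
    have c4 : (z 1 + z 5) * (z 3 + z 6) = 0 := by simpa using hc ![0, 1, 1]
    have d : yy z = z 4 • pp := by
      rw [yy_eq, c0, c1, show z 0 * z 3 + z 1 * z 2 = 0 by linear_combination c3 - c0 - c1]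
      funext i
      fin_cases i <;> simp [pp]
    have d4 : z 4 ≠ 0 := fun h0 => n (by rw [d, h0, zero_smul])
    rw [d, NF.b_smul] at a1
    exact mul_ne_zero (pow_ne_zero 2 d4) h1 (by linear_combination a1 + c4 - c1 - c2)
  · intro v
    simp only [dotProduct, Fin.sum_univ_three, cons_val_zero, cons_val_one, cons_val_two,
      Nat.succ_eq_add_one, Nat.reduceAdd, tail_cons, head_cons]
    field_simp
    linear_combination t ^ 2 * v 0 ^ 2 * y0 + t ^ 2 * v 0 * v 1 * y1 + t ^ 2 * v 1 ^ 2 * y2 +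
      t * v 0 * v 2 * (t ^ 2 * a0 - b0) + t * v 1 * v 2 * (t ^ 2 * a1 - b1) +
      v 2 ^ 2 * (t ^ 3 * a2 - b2)

end Vale.Agent.P287Q.D
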