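import Vale.Agent.P287Q.D.Defs
import Vale.Agent.P287Q.D.Sard
import Mathlib.Analysis.Calculus.Deriv.Polynomial
import Mathlib.Analysis.Complex.Polynomial.Basic
import Mathlib.Topology.Algebra.MvPolynomial
import Mathlib.Tactic.ComputeDegree

/-!
# General fibres of the surface of incident lines over the product of the two pencils
-/

namespace Vale.Agent.P287Q.D.Gen

open Set Function Filter MeasureTheory Polynomial

theorem cd_yy : ContDiff ℂ ⊤ yy := by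
  refine contDiff_pi.2 fun i => ?_
  fin_cases i <;> simp only [yy] <;> simp <;> fun_prop

variable (N : NF)

theorem cd_G : ContDiff ℂ ⊤ N.G := by
  have hb : ∀ i, ContDiff ℂ ⊤ fun z => N.b i (yy z) := fun i =>
    ((N.B i).contDiff.comp cd_yy).clm_apply cd_yy
  have h0 : ContDiff ℂ ⊤ fun y => N.C y :=
    ContinuousLinearMap.contDiff (𝕜 := ℂ) (E := V4) (F := V4 →L[ℂ] V4 →L[ℂ] ℂ) N.C
  have hc : ContDiff ℂ ⊤ fun z => N.c (yy z) :=
    ((h0.comp cd_yy).clm_apply cd_yy).clm_apply cd_yy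
  have h : ∀ i j : Fin 7, ContDiff ℂ ⊤ fun z : W7 => z i * z j := fun i j => by fun_prop
  refine contDiff_pi.2 fun i => ?_
  fin_cases i
  exacts [((hb 0).sub (h 0 6)).sub (h 2 5), ((hb 1).sub (h 1 6)).sub (h 3 5), hc.sub (h 5 6)]

theorem fd_G (z : W7) : HasFDerivAt N.G (fderiv ℂ N.G z) z :=
  ((cd_G N).differentiable (by simp) z).hasFDerivAt

theorem fd_curve {γ : ℂ → W7} {v : W7} {t : ℂ} (hγ : HasDerivAt γ v t) {u : Fin 3 → ℂ}
    (h : HasDerivAt (fun s => N.G (γ s)) u t) : fderiv ℂ N.G (γ t) v = u :=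
  ((fd_G N (γ t)).comp_hasDerivAt t hγ).unique h

variable {N}

theorem G_ac0 {z : W7} (h : N.G z = 0) (a : ℂ × ℂ) : N.G (ac a z) = 0 := by
  rw [NF.G_ac, h]
  funext i
  simp

theorem euler1 {z : W7} (h : N.G z = 0) :
    fderiv ℂ N.G z ![z 0, z 1, 0, 0, z 4, 2 * z 5, z 6] = 0 := by
  have h1 : HasDerivAt (fun t : ℂ => ac (t, 1) z) ![z 0, z 1, 0, 0, z 4, 2 * z 5, z 6] 1 := by
    have a : ∀ c : ℂ, HasDerivAt (fun t : ℂ => t * c) c 1 := fun c => by
      simpa using (hasDerivAt_id (1 : ℂ)).mul_const c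
    have b : ∀ c : ℂ, HasDerivAt (fun t : ℂ => t ^ 2 * c) (2 * c) 1 := fun c => by
      simpa using (hasDerivAt_pow 2 (1 : ℂ)).mul_const c
    refine hasDerivAt_pi.2 fun i => ?_
    fin_cases i <;> simp [ac, ch, a, b, hasDerivAt_const]
  have h2 := fd_curve N h1 (u := 0) (by simpa only [G_ac0 h] using hasDerivAt_const (1 : ℂ) _)
  rwa [show ((1 : ℂ), (1 : ℂ)) = 1 from rfl, ac_one] at h2

theorem euler2 {z : W7} (h : N.G z = 0) :
    fderiv ℂ N.G z ![0, 0, z 2, z 3, z 4, z 5, 2 * z 6] = 0 := by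
  have h1 : HasDerivAt (fun t : ℂ => ac (1, t) z) ![0, 0, z 2, z 3, z 4, z 5, 2 * z 6] 1 := by
    have a : ∀ c : ℂ, HasDerivAt (fun t : ℂ => t * c) c 1 := fun c => by
      simpa using (hasDerivAt_id (1 : ℂ)).mul_const c
    have b : ∀ c : ℂ, HasDerivAt (fun t : ℂ => t ^ 2 * c) (2 * c) 1 := fun c => by
      simpa using (hasDerivAt_pow 2 (1 : ℂ)).mul_const c
    refine hasDerivAt_pi.2 fun i => ?_
    fin_cases i <;> simp [ac, ch, a, b, hasDerivAt_const]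
  have h2 := fd_curve N h1 (u := 0) (by simpa only [G_ac0 h] using hasDerivAt_const (1 : ℂ) _)
  rwa [show ((1 : ℂ), (1 : ℂ)) = 1 from rfl, ac_one] at h2

theorem ae_reg (h : N.Good) : ∀ᵐ q : ℂ × ℂ, ∀ z ∈ N.Z, z 0 = 1 → z 1 = q.1 → z 2 = 1 →
    z 3 = q.2 → Surjective fun v : W7 => (fderiv ℂ N.G z v, v 0, v 1, v 2, v 3) := by
  let pr : Fin 7 → W7 →L[ℂ] ℂ := fun i => ContinuousLinearMap.proj i
  let T : W7 →L[ℂ] Fin 2 → ℂ := ContinuousLinearMap.pi ![pr 1, pr 3]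
  let G' : W7 → (Fin 3 → ℂ) × ℂ × ℂ := fun z => (N.G z, z 0 - 1, z 2 - 1)
  have hG : ∀ z, HasFDerivAt G' ((fderiv ℂ N.G z).prod ((pr 0).prod (pr 2))) z := fun z =>
    (fd_G N z).prodMk (((pr 0).hasFDerivAt.sub_const 1).prodMk ((pr 2).hasFDerivAt.sub_const 1))
  have hA : ∀ z, AnalyticAt ℂ G' z := fun z =>
    ((cd_G N).contDiffAt.analyticAt).prod ((((pr 0).analyticAt z).sub analyticAt_const).prod
      (((pr 2).analyticAt z).sub analyticAt_const))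
  have h1 := sard_zero (U := {z | yy z ≠ 0}) (G := G') (T := T) (fun z _ => hA z)
    (fun z _ => T.analyticAt z) fun z hz h0 w => by
      have e0 : N.G z = 0 := congrArg Prod.fst h0
      have e1 : z 0 = 1 := sub_eq_zero.1 (congrArg (fun p => p.2.1) h0)
      have e2 : z 2 = 1 := sub_eq_zero.1 (congrArg (fun p => p.2.2) h0)
      obtain ⟨v, hv⟩ := h.sm z ⟨hz, e0⟩ w.1
      refine ⟨v + (w.2.1 - v 0) • ![z 0, z 1, 0, 0, z 4, 2 * z 5, z 6] +
        (w.2.2 - v 2) • ![0, 0, z 2, z 3, z 4, z 5, 2 * z 6], ?_⟩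
      rw [(hG z).fderiv]
      refine Prod.ext ?_ (Prod.ext ?_ ?_)
      · change fderiv ℂ N.G z _ = _
        simp only [map_add, map_smul, euler1 e0, euler2 e0, hv, smul_zero, add_zero]
      · change v 0 + (w.2.1 - v 0) * z 0 + (w.2.2 - v 2) * 0 = _
        rw [e1]
        ring
      · change v 2 + (w.2.1 - v 0) * 0 + (w.2.2 - v 2) * z 2 = _
        rw [e2]
        ring
  filter_upwards [(volume_preserving_finTwoArrow ℂ).symm.quasiMeasurePreserving.ae h1]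
    with q hq z hz e0 e1 e2 e3 w
  obtain ⟨v, hv⟩ := hq z hz.1 (by simp [G', hz.2, e0, e2]) (by
    funext i
    fin_cases i <;> simp [T, pr, e1, e3]) ((w.1, w.2.1, w.2.2.2.1), ![w.2.2.1, w.2.2.2.2])
  rw [(hG z).fderiv, T.fderiv] at hv
  have a0 : fderiv ℂ N.G z v = w.1 := congrArg (fun p => p.1.1) hv
  have a1 : v 0 = w.2.1 := congrArg (fun p => p.1.2.1) hv
  have a2 : v 1 = w.2.2.1 := congrArg (fun p => p.2 0) hv
  have a3 : v 2 = w.2.2.2.1 := congrArg (fun p => p.1.2.2) hv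
  have a4 : v 3 = w.2.2.2.2 := congrArg (fun p => p.2 1) hv
  exact ⟨v, by simp only [a0, a1, a2, a3, a4]⟩

theorem ae_ne : ∀ᵐ q : ℂ × ℂ, q.1 ≠ q.2 := by
  have : (volume : Measure (ℂ × ℂ)).IsAddHaarMeasure := Measure.prod.instIsAddHaarMeasure _ _
  have := Measure.addHaar_submodule (volume : Measure (ℂ × ℂ))
    (LinearMap.ker (LinearMap.fst ℝ ℂ ℂ - LinearMap.snd ℝ ℂ ℂ)) fun e => by
      have : ((1 : ℂ), (0 : ℂ)) ∈ LinearMap.ker (LinearMap.fst ℝ ℂ ℂ - LinearMap.snd ℝ ℂ ℂ) :=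
        e ▸ Submodule.mem_top
      simp at this
  refine measure_mono_null (fun q hq => ?_) this
  simpa [sub_eq_zero] using hq

variable (N)

theorem exists_b (i : Fin 2) (y : V4) : ∃ P : ℂ[X], P.natDegree ≤ 2 ∧ P.coeff 2 = N.b i pp ∧
    ∀ w, P.eval w = N.b i (y + w • pp) := by
  refine ⟨C (N.b i pp) * X ^ 2 + C (N.B i y pp + N.B i pp y) * X + C (N.b i y), by compute_degree,
    by simp [-map_add], fun w => ?_⟩
  simp only [NF.b, eval_add, eval_mul, eval_C, eval_X, eval_pow, map_add, map_smul,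
    add_apply, smul_apply, smul_eq_mul]
  ring

theorem exists_c (y : V4) : ∃ P : ℂ[X], P.natDegree ≤ 3 ∧ ∀ w, P.eval w = N.c (y + w • pp) := by
  refine ⟨C (N.c pp) * X ^ 3 + C (N.C y pp pp + N.C pp y pp + N.C pp pp y) * X ^ 2 +
    C (N.C y y pp + N.C y pp y + N.C pp y y) * X + C (N.c y), by compute_degree, fun w => ?_⟩
  simp only [NF.c, eval_add, eval_mul, eval_C, eval_X, eval_pow, map_add, map_smul,
    add_apply, smul_apply, smul_eq_mul]
  ring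

variable {N}

/-- The fibre over `(x, y)` is parametrised by the roots of a quartic. -/
theorem exists_q (h0 : N.b 0 pp = 0) (h1 : N.b 1 pp ≠ 0) {x y : ℂ} (hxy : x ≠ y) :
    ∃ (q : ℂ[X]) (ζ ζ' : ℂ → W7), q.natDegree = 4 ∧ (∀ w, ζ w 4 = w) ∧ (∀ w, ζ' w 4 = 1) ∧
      (∀ w, ζ' w 0 = 0 ∧ ζ' w 1 = 0 ∧ ζ' w 2 = 0 ∧ ζ' w 3 = 0) ∧
      (∀ w, fderiv ℂ N.G (ζ w) (ζ' w) = ![0, 0, q.derivative.eval w]) ∧
      ∀ z, (z ∈ N.Z ∧ z 0 = 1 ∧ z 1 = x ∧ z 2 = 1 ∧ z 3 = y) ↔ ∃ w, q.eval w = 0 ∧ ζ w = z := by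
  have hx : x - y ≠ 0 := sub_ne_zero.2 hxy
  have hy : y - x ≠ 0 := sub_ne_zero.2 hxy.symm
  obtain ⟨P0, a1, a2, a3⟩ := exists_b N 0 ![1, y + x, x * y, 0]
  obtain ⟨P1, b1, b2, b3⟩ := exists_b N 1 ![1, y + x, x * y, 0]
  obtain ⟨Pc, c1, c3⟩ := exists_c N ![1, y + x, x * y, 0]
  let R : ℂ → ℂ → ℂ[X] := fun s t => C (t - s)⁻¹ * (P1 - C s * P0)
  have hR : ∀ s t, t - s ≠ 0 → (R s t).natDegree = 2 := fun s t e => by
    rw [natDegree_C_mul (inv_ne_zero e)]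
    refine natDegree_eq_of_le_of_coeff_ne_zero
      ((natDegree_sub_le _ _).trans (max_le b1 ((natDegree_C_mul_le _ _).trans a1))) ?_
    simpa [a2, b2, h0] using h1
  have hR0 : ∀ s t, t - s ≠ 0 → R s t ≠ 0 := fun s t e e' => by simpa [e'] using hR s t e
  have hd : (R x y * R y x).natDegree = 4 := by
    rw [natDegree_mul (hR0 _ _ hy) (hR0 _ _ hx), hR _ _ hy, hR _ _ hx]
  let ζ : ℂ → W7 := fun w => ![1, x, 1, y, w, (R x y).eval w, (R y x).eval w]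
  have hy' : ∀ z : W7, z 0 = 1 → z 1 = x → z 2 = 1 → z 3 = y →
      yy z = ![1, y + x, x * y, 0] + z 4 • pp := fun z e0 e1 e2 e3 => by
    funext i
    fin_cases i <;> simp [yy, pp, e0, e1, e2, e3]
  have hζ : ∀ w, yy (ζ w) = ![1, y + x, x * y, 0] + w • pp := fun w => hy' _ rfl rfl rfl rfl
  have hG : ∀ w, N.G (ζ w) = ![0, 0, (Pc - R x y * R y x).eval w] := fun w => by
    funext i
    fin_cases i <;> simp only [NF.G, hζ, ← a3, ← b3, ← c3] <;> simp [ζ, R]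
    · field_simp
      ring
    · field_simp
      ring
  refine ⟨Pc - R x y * R y x, ζ, fun w => ![0, 0, 0, 0, 1, (R x y).derivative.eval w,
    (R y x).derivative.eval w], ?_, fun _ => rfl, fun _ => rfl, fun _ => ⟨rfl, rfl, rfl, rfl⟩,
    fun w => fd_curve N (hasDerivAt_pi.2 fun i => ?_) ?_, fun z => ⟨?_, ?_⟩⟩
  · rw [natDegree_sub_eq_right_of_natDegree_lt (by omega), hd]
  · fin_cases i
    exacts [hasDerivAt_const _ _, hasDerivAt_const _ _, hasDerivAt_const _ _, hasDerivAt_const _ _,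
      hasDerivAt_id _, (R x y).hasDerivAt w, (R y x).hasDerivAt w]
  · simp only [hG]
    refine hasDerivAt_pi.2 fun i => ?_
    fin_cases i
    exacts [hasDerivAt_const _ _, hasDerivAt_const _ _, (Pc - R x y * R y x).hasDerivAt w]
  · rintro ⟨hz, e0, e1, e2, e3⟩
    obtain ⟨-, f0, f1, -⟩ := NF.mem_Z.1 hz
    rw [hy' z e0 e1 e2 e3] at f0 f1
    rw [← a3, e0, e2] at f0
    rw [← b3, e1, e3] at f1
    have e : ζ (z 4) = z := by
      funext i
      fin_cases i <;> simp [ζ, R, e0, e1, e2, e3, f0, f1]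
      · field_simp
        ring
      · field_simp
        ring
    exact ⟨z 4, by simpa [e, hz.2] using (congrFun (hG (z 4)) 2).symm, e⟩
  · rintro ⟨w, hw, rfl⟩
    refine ⟨⟨fun e => ?_, ?_⟩, rfl, rfl, rfl, rfl⟩
    · simpa [yy, ζ] using congrFun e 0
    · rw [hG, hw]
      funext i
      fin_cases i <;> rfl

theorem four {x y : ℂ} (h0 : N.b 0 pp = 0) (h1 : N.b 1 pp ≠ 0) (hxy : x ≠ y)
    (hs : ∀ z ∈ N.Z, z 0 = 1 → z 1 = x → z 2 = 1 → z 3 = y →
      Surjective fun v : W7 => (fderiv ℂ N.G z v, v 0, v 1, v 2, v 3)) :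
    ∃ z : Fin 4 → W7, (Injective fun i => z i 4) ∧
      ∀ u, u ∈ range z ↔ u ∈ N.Z ∧ u 0 = 1 ∧ u 1 = x ∧ u 2 = 1 ∧ u 3 = y := by
  classical
  obtain ⟨q, ζ, ζ', a1, a2, a3, a4, a5, a6⟩ := exists_q h0 h1 hxy
  have hq : q ≠ 0 := fun e => by simp [e] at a1
  have hn : q.roots.Nodup := Multiset.nodup_iff_count_le_one.2 fun w => by
    rw [count_roots]
    by_contra hc
    obtain ⟨b1, b2⟩ := (one_lt_rootMultiplicity_iff_isRoot hq).1 (not_le.1 hc)
    obtain ⟨c1, c2, c3, c4, c5⟩ := (a6 _).2 ⟨w, b1, rfl⟩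
    let L : W7 →ₗ[ℂ] (Fin 3 → ℂ) × ℂ × ℂ × ℂ × ℂ :=
      (fderiv ℂ N.G (ζ w)).toLinearMap.prod ((LinearMap.proj 0).prod ((LinearMap.proj 1).prod
        ((LinearMap.proj 2).prod (LinearMap.proj 3))))
    have hL : Injective L := (LinearMap.injective_iff_surjective_of_finrank_eq_finrank
      (by simp)).2 (hs _ c1 c2 c3 c4 c5)
    have e : ζ' w = 0 := (injective_iff_map_eq_zero L).1 hL _ (Prod.ext ((a5 w).trans (by
      rw [show q.derivative.eval w = 0 from b2]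
      funext i
      fin_cases i <;> rfl)) (Prod.ext (a4 w).1 (Prod.ext (a4 w).2.1
        (Prod.ext (a4 w).2.2.1 (a4 w).2.2.2))))
    simpa [e] using a3 w
  have hc : q.roots.toFinset.card = 4 := by
    rw [Multiset.toFinset_card_of_nodup hn, IsAlgClosed.card_roots_eq_natDegree, a1]
  let e := (Finset.equivFinOfCardEq hc).symm
  refine ⟨fun i => ζ (e i), fun i j hij => e.injective (Subtype.ext (by simpa [a2] using hij)),
    fun u => ?_⟩
  rw [a6]
  refine ⟨fun ⟨i, hi⟩ => ⟨e i, ((mem_roots hq).1 (Multiset.mem_toFinset.1 (e i).2)), hi⟩,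
    fun ⟨w, hw, hu⟩ => ⟨e.symm ⟨w, Multiset.mem_toFinset.2 ((mem_roots hq).2 hw)⟩, ?_⟩⟩
  simpa using hu

/-- A polynomial of degree at most three in the last variable with four roots. -/
theorem eval_eq_zero (P : MvPolynomial (Fin 5) ℂ) (hP : P.degreeOf 4 ≤ 3) (a b c d : ℂ)
    (w : Fin 4 → ℂ) (hw : Injective w)
    (h : ∀ i, MvPolynomial.eval ![a, b, c, d, w i] P = 0) (t : ℂ) :
    MvPolynomial.eval ![a, b, c, d, t] P = 0 := by
  let Q : ℂ[X] := ∑ m ∈ P.support,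
    C (P.coeff m * (a ^ m 0 * b ^ m 1 * c ^ m 2 * d ^ m 3)) * X ^ m 4
  have h1 : ∀ t, Q.eval t = MvPolynomial.eval ![a, b, c, d, t] P := fun t => by
    rw [MvPolynomial.eval_eq', eval_finsetSum]
    refine Finset.sum_congr rfl fun m _ => ?_
    simp [Fin.prod_univ_five, mul_assoc]
  have h2 : Q.natDegree ≤ 3 := natDegree_sum_le_of_forall_le _ _ fun m hm =>
    (natDegree_C_mul_X_pow_le _ _).trans ((MvPolynomial.monomial_le_degreeOf 4 hm).trans hP)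
  have h3 : Q = 0 := eq_zero_of_natDegree_lt_card_of_eval_eq_zero Q hw
    (fun i => (h1 _).trans (h i)) (by simpa using Nat.lt_succ_of_le h2)
  rw [← h1, h3, eval_zero]

theorem pi_zero (hN : ∀ᵐ q : ℂ × ℂ, ∃ z : Fin 4 → W7, (Injective fun i => z i 4) ∧
      ∀ i, z i ∈ N.Z ∧ z i 0 = 1 ∧ z i 1 = q.1 ∧ z i 2 = 1 ∧ z i 3 = q.2)
    (P : MvPolynomial (Fin 5) ℂ) (hP : P.degreeOf 4 ≤ 3)
    (h : ∀ z ∈ N.Z, MvPolynomial.eval ![z 0, z 1, z 2, z 3, z 4] P = 0) : P = 0 := by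
  have h1 : ∀ s s' t : ℂ, s ≠ 0 → s' ≠ 0 → ∀ q : ℂ × ℂ,
      MvPolynomial.eval ![s, s * q.1, s', s' * q.2, t] P = 0 := fun s s' t hs hs' => by
    have hc : Continuous fun q : ℂ × ℂ =>
        MvPolynomial.eval ![s, s * q.1, s', s' * q.2, t] P :=
      (MvPolynomial.continuous_eval P).comp (continuous_pi fun i => by
        fin_cases i <;> simp <;> fun_prop)
    refine congrFun (Continuous.ext_on (Measure.dense_of_ae hN) hc continuous_const ?_)
    rintro q ⟨z, a1, a2⟩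
    refine eval_eq_zero P hP _ _ _ _ (fun i => s * s' * z i 4)
      (fun i j e => a1 (mul_left_cancel₀ (mul_ne_zero hs hs') e)) (fun i => ?_) t
    obtain ⟨b0, b1, b2, b3, b4⟩ := a2 i
    simpa [ac, ch, b1, b2, b3, b4] using h _ (NF.ac_mem (a := (s, s')) hs hs' b0)
  have h2 : MvPolynomial.X 0 * MvPolynomial.X 2 * P = 0 := MvPolynomial.funext fun v => by
    by_cases e0 : v 0 = 0
    · simp [e0]
    by_cases e2 : v 2 = 0
    · simp [e2]
    have e : v = ![v 0, v 0 * (v 1 / v 0), v 2, v 2 * (v 3 / v 2), v 4] := by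
      funext i
      fin_cases i <;> simp [mul_div_cancel₀, e0, e2]
    rw [map_mul, e, h1 _ _ _ e0 e2 (v 1 / v 0, v 3 / v 2), mul_zero, map_zero]
  simpa using h2

end Vale.Agent.P287Q.D.Gen
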