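import Vale.Agent.P287Q.D.St
import Vale.Agent.P287Q.D.Gen0

/-!
# General fibres, and no relations of small degree
-/

namespace Vale.Agent.P287Q.D

open Set Function Filter MeasureTheory

theorem stGen : StGen := fun _ h => by
  filter_upwards [Gen.ae_reg h, Gen.ae_ne] with q h1 h2
  obtain ⟨z, a1, a2⟩ := Gen.four h.b0 h.b1 h2 h1
  refine ⟨h2, z, a1, a2, fun i => ?_⟩
  obtain ⟨b0, b1, b2, b3, b4⟩ := (a2 _).1 ⟨i, rfl⟩
  exact h1 _ b0 b1 b2 b3 b4

theorem stPI (h : StGen) : StPI := fun N hN P hP hz =>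
  Gen.pi_zero ((h N hN).mono fun _ ⟨_, z, a1, a2, _⟩ => ⟨z, a1, fun i => (a2 _).1 ⟨i, rfl⟩⟩) P hP hz

theorem stPI' : StPI := stPI stGen

end Vale.Agent.P287Q.D
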