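import Vale.Agent.P287Q.D.St
import Vale.Agent.P290.H470.Germ

/-!
# Removable singularities of sections on a surface
-/

namespace Vale.Agent.P287Q.D

open Set Function Topology Filter P267.FL
open scoped ContDiff Manifold

variable {X : Type} [TopologicalSpace X] [ChartedSpace C2 X] [IsManifold 𝓘(ℂ, C2) ω X]

/-- Hartogs' theorem at a point of a surface. -/
theorem hart_loc {f : X → ℂ} {p : X} (h : ∀ᶠ y in 𝓝[≠] p, Ho f y) :
    ∃ c : ℂ, ∀ g : X → ℂ, g p = c → (∀ᶠ y in 𝓝[≠] p, g y = f y) → Ho g p := by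
  have hp := mem_chart_source C2 p
  have ht := (chartAt C2 p).open_target.mem_nhds ((chartAt C2 p).map_source hp)
  have hs : Tendsto (chartAt C2 p).symm (𝓝[≠] (chartAt C2 p p)) (𝓝[≠] p) := by
    refine tendsto_nhdsWithin_iff.2 ⟨((chartAt C2 p).tendsto_symm hp).mono_left
      nhdsWithin_le_nhds, ?_⟩
    filter_upwards [mem_nhdsWithin_of_mem_nhds ht, self_mem_nhdsWithin] with z hz hz' e
    exact hz' (((chartAt C2 p).right_inv hz).symm.trans (congrArg _ e))
  obtain ⟨w, hw, he⟩ := P290.H470.hartogs (u := fun z => f ((chartAt C2 p).symm z))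
    (p := chartAt C2 p p) (by
      filter_upwards [hs.eventually h, mem_nhdsWithin_of_mem_nhds ht] with z hz hz'
      have h1 := P267.H451.Hol.chart (ho_iff.1 hz) (chart_mem_atlas C2 p)
        ((chartAt C2 p).map_target hz')
      rw [(chartAt C2 p).right_inv hz'] at h1
      exact h1.differentiableAt)
  refine ⟨w (chartAt C2 p p), fun g hg hf => hw.congr ?_⟩
  filter_upwards [eventually_nhdsWithin_iff.1 (he.and (hs.eventually hf))] with z hz
  by_cases e : z = chartAt C2 p p
  · rw [e, symm_chart, hg]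
  · exact (hz e).1.trans (hz e).2.symm

theorem stHart [T2Space X] : StHart X := by
  classical
  intro M s T hT hs
  have h0 : ∀ p : X, ∀ᶠ y in 𝓝[≠] p, y ∉ T := fun p =>
    hT.eventually_cofinite_notMem.filter_mono (nhdsNE_le_cofinite p)
  have h1 : ∀ p : X, ∀ᶠ y in 𝓝[≠] p, Ho (fun z => s z / M.φ p z) y := fun p => by
    filter_upwards [h0 p, mem_nhdsWithin_of_mem_nhds (M.sec_φ p)] with y hy hy'
    exact (hs y hy).hol_div hy' (M.ne p y)
  choose c hc using fun p => hart_loc (h1 p)
  refine ⟨fun x => if x ∈ T then c x else s x, fun x => ?_, fun x hx => if_neg hx⟩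
  by_cases hx : x ∈ T
  · refine hc x _ (by simp only [if_pos hx, M.self, div_one]) ?_
    filter_upwards [h0 x] with y hy
    rw [if_neg hy]
  · refine (hs x hx).congr ?_
    filter_upwards [hT.isClosed.isOpen_compl.mem_nhds hx] with y hy
    exact (if_neg hy).symm

end Vale.Agent.P287Q.D
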