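import Vale.Agent.P287Q.D.St
import Mathlib.Analysis.Complex.AbsMax

/-!
# The members of the two pencils meet in finite sets; the surface is connected
-/

set_option linter.unusedSectionVars false

namespace Vale.Agent.P287Q.D

open Set Function Topology Filter P267.FL P269 P269.Cv
open scoped ContDiff Manifold

variable {X : Type} [TopologicalSpace X] [ChartedSpace C2 X] [IsManifold 𝓘(ℂ, C2) ω X]
  {N : NF} {A B : SB X} {p : X → W7} {ip : SB X → SB X → ℤ}

/-- The fibres of `([λ], [λ'])` outside the two curves are finite. -/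
theorem Pk.fin_fib (hF : StFin) (h : Pk N A B p ip) (q q' : ℂ) :
    {x | p x 0 ≠ 0 ∧ p x 2 ≠ 0 ∧ p x 1 / p x 0 = q ∧ p x 3 / p x 2 = q'}.Finite := by
  refine Finite.of_injOn (f := fun x => ac ((p x 0)⁻¹, (p x 2)⁻¹) (p x)) (fun x a => ?_)
    (fun x a y b e => h.md.inj x y ((p y 0, p y 2) * ((p x 0)⁻¹, (p x 2)⁻¹)) ?_)
    (hF N h.gd.b1 h.gd.b0 ![1, q] ![1, q'] one_ne_zero one_ne_zero)
  · exact ⟨NF.ac_mem (inv_ne_zero a.1) (inv_ne_zero a.2.1) (h.md.mem x), inv_mul_cancel₀ a.1,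
      (inv_mul_eq_div _ _).trans a.2.2.1, inv_mul_cancel₀ a.2.1,
      (inv_mul_eq_div _ _).trans a.2.2.2⟩
  · beta_reduce at e
    rw [ac_mul, e, ← ac_mul, Prod.mk_mul_mk, mul_inv_cancel₀ b.1, mul_inv_cancel₀ b.2.1]
    exact (ac_one _).symm

theorem Pk.fin_crv (hC : StCrv X) (h : Pk N A B p ip) {a b : ℂ} (e : (a, b) ≠ 0) :
    {x | p x 0 = 0 ∧ a * p x 2 + b * p x 3 = 0}.Finite := by
  obtain ⟨C, _, _, _, R, ι, c, d⟩ := h.cA
  refine (((hC N A B p ip h C R ι c d).2.2.2 a b e).image ι).subset fun x f => ?_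
  obtain ⟨y, rfl⟩ := (c.rng x).2 f.1
  exact ⟨y, f.2, rfl⟩

theorem stMeet (hF : StFin) (hC : StCrv X) : StMeet X := fun _ _ _ p _ h a b a' b' e e' => by
  have k : ∀ a b u v : ℂ, (a, b) ≠ 0 → u ≠ 0 → a * u + b * v = 0 → v / u = -a / b :=
    fun a b u v e f g => by
      have : b ≠ 0 := fun i => e (by simpa [i, f] using g)
      field_simp
      linear_combination g
  refine (((h.fin_crv hC e').union (h.swap.fin_crv hC e)).union
    (h.fin_fib hF (-a / b) (-a' / b'))).subset fun x f => ?_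
  by_cases c : p x 0 = 0
  · exact .inl (.inl ⟨c, f.2⟩)
  by_cases d : p x 2 = 0
  · exact .inl (.inr ⟨d, f.1⟩)
  · exact .inr ⟨c, d, k _ _ _ _ e c f.1, k _ _ _ _ e' d f.2⟩

theorem Pk.off_crv (hC : StCrv X) (h : Pk N A B p ip) {U : Set X} (hU : IsClopen U) {x : X}
    (hx : x ∉ U) (e : p x 0 = 0) : ∀ y ∈ U, p y 0 ≠ 0 := fun y a b => by
  obtain ⟨C, _, _, _, R, ι, c, d⟩ := h.cA
  have := (hC N A B p ip h C R ι c d).1
  obtain ⟨x, rfl⟩ := (c.rng x).2 e
  obtain ⟨y, rfl⟩ := (c.rng y).2 b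
  exact hx (((hU.preimage c.cont).eq_univ ⟨y, a⟩).ge (mem_univ x))

theorem Md.ho_div (h : Md N A B p) {x : X} (e : p x 0 ≠ 0) : Ho (fun y => p y 1 / p y 0) x :=
  (((h.hol x).apply 1).div ((h.hol x).apply 0) (mul_ne_zero (inv_ne_zero (A.ne _ _)) e)).congr
    (.of_forall fun y => mul_div_mul_left _ _ (inv_ne_zero (A.ne x y)))

theorem Pk.exists_pt (h : Pk N A B p ip) : ∃ x, p x 0 = 0 ∧ p x 2 = 0 := by
  have e : yy ![0, 0, 0, 1, 1, N.b 1 pp, N.c pp / N.b 1 pp] = pp := by simp [yy, pp]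
  obtain ⟨x, a, b⟩ := h.md.surj ![0, 0, 0, 1, 1, N.b 1 pp, N.c pp / N.b 1 pp] (NF.mem_Z.2 (by
    rw [e]
    exact ⟨by simp [pp], by simp [h.gd.b0], by simp, (mul_div_cancel₀ _ h.gd.b1).symm⟩))
  have c : a.1 * a.2 ≠ 0 := left_ne_zero_of_mul ((congrFun b 4).symm.trans_ne one_ne_zero)
  exact ⟨x, (mul_eq_zero.1 (congrFun b 0).symm).resolve_left (left_ne_zero_of_mul c),
    (mul_eq_zero.1 (congrFun b 2).symm).resolve_left (right_ne_zero_of_mul c)⟩

theorem stConn [CompactSpace X] (hF : StFin) (hC : StCrv X) : StConn X := fun _ _ _ p _ h => by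
  obtain ⟨x₀, a, b⟩ := h.exists_pt
  have k : ∀ U, IsClopen U → x₀ ∉ U → U = ∅ := fun U hU c => eq_empty_of_forall_notMem fun y d => by
    have u := h.off_crv hC hU c a
    have u' := h.swap.off_crv hC hU c b
    let f : X → EuclideanSpace ℂ (Fin 2) := fun x => !₂[p x 1 / p x 0, p x 3 / p x 2]
    have hf : ∀ x ∈ U, Ho f x := fun x e =>
      .comp ((PiLp.continuousLinearEquiv 2 ℂ fun _ : Fin 2 => ℂ).symm.analyticAt _)
        (.pi (f := fun x => ![p x 1 / p x 0, p x 3 / p x 2]) (Fin.forall_fin_two.2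
          ⟨h.md.ho_div (u x e), h.swap.md.ho_div (u' x e)⟩))
    obtain ⟨x, e, m⟩ := hU.isClosed.isCompact.exists_isMaxOn ⟨y, d⟩ (f := norm ∘ f)
      fun x e => (hf x e).continuousAt.norm.continuousWithinAt
    have t : Tendsto (chartAt C2 x).symm (𝓝 (chartAt C2 x x)) (𝓝 x) :=
      (chartAt C2 x).tendsto_symm (mem_chart_source C2 x)
    have g := Complex.eventually_eq_of_isLocalMax_norm
      ((hf x e).eventually_analyticAt.mono fun _ i => i.differentiableAt)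
      ((t.eventually (m.isLocalMax (hU.isOpen.mem_nhds e))).mono fun z i => by
        simpa only [comp_apply, symm_chart] using i)
    refine infinite_of_mem_nhds _ ((g.and (t.eventually (hU.isOpen.mem_nhds e))).and
      ((chartAt C2 x).open_target.mem_nhds (mem_chart_target C2 x)))
      (((h.fin_fib hF (f x 0) (f x 1)).image (chartAt C2 x)).subset fun z i => ?_)
    rw [symm_chart] at i
    exact ⟨_, ⟨u _ i.1.2, u' _ i.1.2, congrArg (· 0) i.1.1, congrArg (· 1) i.1.1⟩,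
      (chartAt C2 x).right_inv i.2⟩
  exact connectedSpace_iff_clopen.2 ⟨⟨x₀⟩, fun U hU => (em (x₀ ∈ U)).symm.imp (k U hU) fun c =>
    compl_empty_iff.1 (k _ hU.compl (not_not.2 c))⟩

end Vale.Agent.P287Q.D
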