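import Vale.Agent.P287Q.D.St
import Mathlib.LinearAlgebra.Eigenspace.Triangularizable

/-!
# Discriminants 2 and 6: restriction of sections to the curve `λ₀ = 0`
-/

set_option linter.unusedSectionVars false

namespace Vale.Agent.P287Q.D

open Set Function Topology Filter Module P267.FL P269.Cv
open scoped ContDiff Manifold

variable {X : Type} [TopologicalSpace X] [ChartedSpace C2 X] [IsManifold 𝓘(ℂ, C2) ω X]
  {M M' A B : SB X} {s t : X → ℂ} {x : X}

/-- A holomorphic function that vanishes on open sets near `x` vanishes near `x`. -/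
theorem Ho.res_zero (h : Ho s x) (h0 : ∃ᶠ y in 𝓝 x, ∀ᶠ z in 𝓝 y, s z = 0) :
    ∀ᶠ y in 𝓝 x, s y = 0 := by
  have hx := mem_chart_source C2 x
  obtain ⟨r, hr, hb⟩ := Metric.eventually_nhds_iff_ball.1 (AnalyticAt.eventually_analyticAt h)
  have h2 : ∀ᶠ y in 𝓝 x, chartAt C2 x y ∈ Metric.ball (chartAt C2 x x) r ∧
      y ∈ (chartAt C2 x).source := (((chartAt C2 x).continuousAt hx).eventually
    (Metric.ball_mem_nhds _ hr)).and ((chartAt C2 x).open_source.mem_nhds hx)
  obtain ⟨q, hq, h3, h4⟩ := (h0.and_eventually h2).exists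
  have h5 := AnalyticOnNhd.eqOn_zero_of_preconnected_of_eventuallyEq_zero hb
    (convex_ball _ _).isPreconnected h3 (((chartAt C2 x).tendsto_symm h4).eventually hq)
  filter_upwards [h2] with y hy
  exact (congrArg s ((chartAt C2 x).left_inv hy.2)).symm.trans (h5 hy.1)

/-- **The identity theorem.** -/
theorem SB.res_ident [PreconnectedSpace X] (h : s ∈ M.Γ) (h0 : ∀ᶠ y in 𝓝 x, s y = 0) : s = 0 := by
  have hC : IsClosed {x | ∀ᶠ y in 𝓝 x, s y = 0} := isClosed_iff_frequently.2 fun y hy =>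
    (Ho.res_zero (h y) (hy.mono fun _ a => a.mono fun _ b => by rw [b, zero_div])).mono
      fun z b => (div_eq_zero_iff.1 b).resolve_right (M.ne _ _)
  have hU := IsClopen.eq_univ ⟨hC, isOpen_setOfPred_eventually_nhds⟩ ⟨x, h0⟩
  exact funext fun y => Eventually.self_of_nhds (p := fun y => s y = 0) (hU.ge (mem_univ y))

theorem SB.res_mul [PreconnectedSpace X] (a : s ∈ M.Γ) (b : t ∈ M'.Γ) (e : s * t = 0) :
    s = 0 ∨ t = 0 := or_iff_not_imp_right.2 fun h =>
  let ⟨x, hx⟩ := Function.ne_iff.1 h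
  SB.res_ident a (((b x).ev_ne hx).mono fun y hy =>
    (mul_eq_zero.1 (congrFun e y)).resolve_right hy)

/-- Multiplication by a section. -/
noncomputable def resMul (M : SB X) (a : s ∈ A.Γ) : (M / A).Γ →ₗ[ℂ] M.Γ :=
  ((LinearMap.mulLeft ℂ s).domRestrict _).codRestrict _ fun t => by
    simpa using SB.mul_mem a t.2

theorem resMul_val (a : s ∈ A.Γ) (t : (M / A).Γ) : (resMul M a t).1 = s * t.1 := rfl

section md

variable {N : NF} {p : X → W7}

theorem Md.res_sec0 (h : Md N A B p) : (fun x => p x 0) ∈ A.Γ := fun x =>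
  ((h.hol x).apply 0).congr (.of_forall fun _ => inv_mul_eq_div _ _)

theorem Md.res_sec1 (h : Md N A B p) : (fun x => p x 1) ∈ A.Γ := fun x =>
  ((h.hol x).apply 1).congr (.of_forall fun _ => inv_mul_eq_div _ _)

theorem NF.Good.res_two (h : N.Good) {z : W7} (hz : z ∈ N.Z) (h0 : z 0 = 0) (h1 : z 1 = 0) :
    z 2 = 0 := by
  have e : yy z = z 4 • pp := by
    funext i
    fin_cases i <;> simp [yy, pp, h0, h1]
  obtain ⟨a, b, c, -⟩ := NF.mem_Z.1 hz
  rw [e] at a b c
  rw [NF.b_smul, h.b0, h0] at b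
  rw [NF.b_smul, h1] at c
  refine (mul_eq_zero.1 (by simpa using b.symm : z 2 * z 5 = 0)).resolve_right fun k => ?_
  rw [k] at c
  exact mul_ne_zero (pow_ne_zero 2 (left_ne_zero_of_smul a)) h.b1 (by simpa using c)

end md

section crv

variable {C : Type} [TopologicalSpace C] {R : RS C} {ι : C → X}

theorem Crv.res_ne [Nonempty C] (h : Crv A s R ι) : s ≠ 0 := by
  rintro rfl
  obtain ⟨c⟩ : Nonempty C := inferInstance
  exact h.tr c (by simp)

/-- The restriction sequence. -/
theorem Crv.res_h0 [T2Space C] [CompactSpace C] (hD : StDiv X) (h : Crv A s R ι)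
    (f : ∀ M : SB X, FiniteDimensional ℂ M.Γ) (M : SB X) :
    M.h0 ≤ (M / A).h0 + finrank ℂ (h.toHolC.pb M).Γ := by
  have := f M
  have := f (M / A)
  let r : M.Γ →ₗ[ℂ] (h.toHolC.pb M).Γ :=
    ((LinearMap.funLeft ℂ ℂ ι).domRestrict _).codRestrict _ fun t => h.toHolC.mem_Γ t.2
  have h1 := r.finrank_range_add_finrank_ker
  have h2 := (LinearMap.range r).finrank_le
  have h3 : LinearMap.ker r ≤ LinearMap.range (resMul M h.sec) := fun t ht =>
    let ⟨u, a, e⟩ := hD A s C R ι h M t.1 t.2 (congrFun (congrArg Subtype.val ht))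
    ⟨⟨u, a⟩, Subtype.ext e.symm⟩
  have h4 := (Submodule.finrank_mono h3).trans (resMul M h.sec).finrank_range_le
  rw [SB.h0, SB.h0]
  omega

theorem res_deg [T2Space C] [CompactSpace C] [ConnectedSpace C] {L : LB R} {u : C → ℂ}
    (a : u ∈ L.Γ) {c c' : C} (h : u c ≠ 0) : 0 ≤ deg L ∧ (u c' = 0 → 1 ≤ deg L) := by
  have g := gen_univ a h
  have h0 := card_le_degOn isClopen_univ (fun x _ => a x) g.ge (T := ∅) (by simp)
  refine ⟨by simpa [degOn_univ] using h0, fun e => ?_⟩
  simpa [degOn_univ] using card_le_degOn isClopen_univ (fun x _ => a x) g.ge (T := {c'})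
    (by simp [e])

end crv

/-- **Restriction to the curve.** -/
theorem stRes (hC : StCrv X) (hD : StDiv X) (hX : StConn X) : StRes X := by
  intro N A B p ip h f
  have := hX N A B p ip h
  obtain ⟨C, _, _, _, R, ι, k, hd⟩ := h.cA
  obtain ⟨_, va, hK, fn⟩ := hC N A B p ip h C R ι k hd
  have dv : ∀ (M : SB X) (t : M.Γ), (∀ c, t.1 (ι c) = 0) → t ∈ LinearMap.range (resMul M k.sec) :=
    fun M t ht => let ⟨u, a, e⟩ := hD A _ C R ι k M t.1 t.2 ht; ⟨⟨u, a⟩, Subtype.ext e.symm⟩
  have h1 : ∀ M : SB X, ip M A < 0 → M.Γ = ⊥ := fun M hM => by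
    have := f (M / A)
    have sj : Surjective (resMul M k.sec) := fun t => dv M t fun c => by_contra fun a => by
      have := (res_deg (c' := c) (k.toHolC.mem_Γ t.2) a).1
      rw [hd] at this
      omega
    have ij : Injective (resMul M k.sec) := (injective_iff_map_eq_zero _).2 fun t e =>
      Subtype.ext ((SB.res_mul k.sec t.2 (congrArg Subtype.val e)).resolve_left k.res_ne)
    by_contra hn
    have : Nontrivial M.Γ := Submodule.nontrivial_iff_ne_bot.2 hn
    have := sj.nontrivial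
    let e := LinearEquiv.ofBijective _ ⟨ij, sj⟩
    obtain ⟨c, hc⟩ := Module.End.exists_eigenvalue
      (e.symm.toLinearMap ∘ₗ resMul M h.md.res_sec1 : End ℂ (M / A).Γ)
    obtain ⟨t, ht⟩ := hc.exists_hasEigenvector
    have e1 : resMul M h.md.res_sec1 t = resMul M k.sec (c • t) :=
      e.symm_apply_eq.1 ht.apply_eq_smul
    have e2 := (SB.res_mul (sub_mem h.md.res_sec1 (A.Γ.smul_mem c k.sec)) t.2 (by
      rw [sub_mul, smul_mul_assoc, ← mul_smul_comm]
      exact sub_eq_zero.2 (congrArg Subtype.val e1))).resolve_right fun a => ht.2 (Subtype.ext a)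
    have e3 : (univ : Set C).Finite := (fn 1 0 (by simp)).subset fun z _ => by
      have a : p (ι z) 0 = 0 := (k.rng _).1 ⟨z, rfl⟩
      have b : p (ι z) 1 - c * p (ι z) 0 = 0 := congrFun e2 (ι z)
      rw [a, mul_zero, sub_zero] at b
      simp [h.gd.res_two (h.md.mem _) a b]
    obtain ⟨z⟩ : Nonempty C := inferInstance
    have := finite_univ_iff.1 e3
    exact (R.neBot z).ne (discreteTopology_iff_nhds_ne.1 inferInstance z)
  refine fun M => ⟨h1 M, fun hM s hs => ?_, fun hM => ?_, fun hM => ?_⟩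
  · refine or_iff_not_imp_left.2 fun a => ?_
    push Not at a
    obtain ⟨x, a, b⟩ := a
    obtain ⟨c, rfl⟩ := (k.rng x).2 a
    obtain ⟨u, e⟩ := dv M ⟨s, hs⟩ fun c' => by_contra fun g => by
      have := (res_deg (c' := c) (k.toHolC.mem_Γ hs) g).2 b
      rw [hd] at this
      omega
    have e1 := h.ip'.add (M / A) A A
    rw [div_mul_cancel, h.AA] at e1
    have e2 : u.1 = 0 := (h1 (M / A) (by omega)).le u.2
    rw [← show (fun x => p x 0) * u.1 = s from congrArg Subtype.val e, e2, mul_zero]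
  · have := va.h0_le ((hd M).le.trans hM)
    have := k.res_h0 hD f M
    omega
  · have := va.h0_le' (M := k.toHolC.pb M) hK (by rw [hd]; omega)
    have := k.res_h0 hD f M
    rw [hd] at *
    omega

end Vale.Agent.P287Q.D
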