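import Vale.Agent.P267.H823.Puiseux
import Vale.Agent.P267.H823.Weier

/-!
# Compact curves on which holomorphic functions have finite fibres are empty
-/

namespace Vale.Agent.P287Q.D

open Set Topology Filter Polynomial P267.H823

/-- Through a zero of a holomorphic function of two variables there is a curve of zeros. -/
theorem exists_arc {F : ℂ × ℂ → ℂ} (hF : AnalyticAt ℂ F (0, 0)) (h0 : F (0, 0) = 0) :
    ∃ γ : ℂ → ℂ × ℂ, AnalyticAt ℂ γ 0 ∧ γ 0 = (0, 0) ∧ (∀ t, t ≠ 0 → γ t ≠ (0, 0)) ∧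
      ∀ᶠ t in 𝓝 (0 : ℂ), F (γ t) = 0 := by
  by_cases h : ∀ᶠ x in 𝓝 (0 : ℂ), F (x, 0) = 0
  · exact ⟨fun t => (t, 0), analyticAt_id.prod analyticAt_const, rfl,
      fun t ht e => ht (congrArg Prod.fst e), h⟩
  have ha : AnalyticAt ℂ (fun w : ℂ => F (w, 0)) 0 :=
    AnalyticAt.comp_of_eq hF (analyticAt_id.prod analyticAt_const) rfl
  obtain ⟨b, hb⟩ := ENat.ne_top_iff_exists.1 (analyticOrderAt_eq_top.not.2 h)
  obtain ⟨u, hu, hu0, he⟩ := (ha.analyticOrderAt_eq_natCast (n := b)).1 hb.symm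
  have he' : ∀ᶠ x in 𝓝 (0 : ℂ), F (x, 0) = x ^ b * u x :=
    he.mono fun x hx => by rw [hx, sub_zero, smul_eq_mul]
  have hb0 : 0 < b := Nat.pos_of_ne_zero fun e => hu0 (by
    have := he'.self_of_nhds
    rwa [e, pow_zero, one_mul, h0, eq_comm] at this)
  obtain ⟨P, v, h1, h2, h3, hv, hv0, hP⟩ := weierstrass hF hu hu0 he'
  obtain ⟨N, hN, β, hβ, hs⟩ := puiseux h1 h2
  have hz : ∀ᶠ s in 𝓝 (0 : ℂ), (P (s ^ N)).eval (β ⟨0, hb0⟩ s) = 0 := hs.mono fun s e => by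
    rw [e, eval_prod]
    exact Finset.prod_eq_zero (Finset.mem_univ ⟨0, hb0⟩) (by simp)
  have hβ0 : β ⟨0, hb0⟩ 0 = 0 := by
    have := hz.self_of_nhds
    rw [zero_pow hN.ne', h3, eval_pow, eval_X] at this
    exact eq_zero_of_pow_eq_zero this
  have hγ : AnalyticAt ℂ (fun t : ℂ => (β ⟨0, hb0⟩ t, t ^ N)) 0 :=
    (hβ _).prod (analyticAt_id.pow N)
  have e0 : (β ⟨0, hb0⟩ 0, (0 : ℂ) ^ N) = (0, 0) := by rw [hβ0, zero_pow hN.ne']
  have ht := hγ.continuousAt.tendsto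
  rw [e0] at ht
  refine ⟨_, hγ, e0, fun t h e => pow_ne_zero N h (congrArg Prod.snd e), ?_⟩
  filter_upwards [hz, ht.eventually hP, ht.eventually (hv.continuousAt.eventually_ne hv0)]
    with t a c d
  exact (mul_eq_zero.1 (c.trans a)).resolve_right d

theorem exists_arc' {g : (Fin 2 → ℂ) → ℂ} {p : Fin 2 → ℂ} (hg : AnalyticAt ℂ g p) (h0 : g p = 0) :
    ∃ γ : ℂ → Fin 2 → ℂ, AnalyticAt ℂ γ 0 ∧ γ 0 = p ∧ (∀ t, t ≠ 0 → γ t ≠ p) ∧
      ∀ᶠ t in 𝓝 (0 : ℂ), g (γ t) = 0 := by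
  let L := (ContinuousLinearEquiv.finTwoArrow ℂ ℂ).symm
  have hA : AnalyticAt ℂ (fun z => p + L z) (0, 0) := analyticAt_const.add (L.analyticAt _)
  have e : p + L (0, 0) = p := by rw [Prod.mk_zero_zero, map_zero, add_zero]
  obtain ⟨γ, a, b, c, d⟩ := exists_arc (AnalyticAt.comp_of_eq hg hA e)
    (by rw [Function.comp_apply, e, h0])
  refine ⟨(fun z => p + L z) ∘ γ, hA.comp_of_eq a b, by rw [Function.comp_apply, b, e],
    fun t ht h => ?_, d⟩
  exact c t ht (L.injective (add_left_cancel (h.trans e.symm)))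

/-- The maximum principle on a compact curve. -/
theorem zf {X : Type} [TopologicalSpace X] [ChartedSpace (Fin 2 → ℂ) X] [T1Space X] {Z : Set X}
    (hZ : IsCompact Z) {f : X → ℂ × ℂ} (hc : ContinuousOn f Z)
    (hf : ∀ x ∈ Z, AnalyticAt ℂ (fun z => f ((chartAt (Fin 2 → ℂ) x).symm z)) (chartAt _ x x))
    (hg : ∀ x ∈ Z, ∃ g : X → ℂ, (∀ y, g y = 0 ↔ y ∈ Z) ∧
      AnalyticAt ℂ (fun z => g ((chartAt (Fin 2 → ℂ) x).symm z)) (chartAt _ x x))
    (fin : ∀ v, {x ∈ Z | f x = v}.Finite) : Z = ∅ := by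
  by_contra hne
  let T := (WithLp.prodContinuousLinearEquiv 2 ℂ ℂ ℂ).symm
  obtain ⟨x, hx, hm⟩ := hZ.exists_isMaxOn (nonempty_iff_ne_empty.2 hne)
    (T.continuous.comp_continuousOn hc).norm
  obtain ⟨g, g1, g2⟩ := hg x hx
  set e := chartAt (Fin 2 → ℂ) x
  have hs : x ∈ e.source := mem_chart_source _ x
  have ex : e.symm (e x) = x := e.left_inv hs
  obtain ⟨γ, a, b, c, d⟩ := exists_arc' g2 (by rw [ex]; exact (g1 x).2 hx)
  have hF : AnalyticAt ℂ (fun t => T (f (e.symm (γ t)))) 0 :=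
    (T.analyticAt _).comp ((hf x hx).comp_of_eq a b :)
  have h1 := Complex.eventually_eq_of_isLocalMax_norm
    (hF.eventually_analyticAt.mono fun _ h => h.differentiableAt)
    (d.mono fun t ht => by
      simp only [Function.comp_apply, b, ex]
      exact hm ((g1 _).1 ht))
  have t1 : Tendsto γ (𝓝 0) (𝓝 (e x)) := b ▸ a.continuousAt.tendsto
  have t2 : Tendsto (fun t => e.symm (γ t)) (𝓝 0) (𝓝 x) := (e.tendsto_symm hs).comp t1
  have h2 : ∀ᶠ y in 𝓝 x, y ∉ {y ∈ Z | f y = f x} \ {x} :=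
    ((fin (f x)).subset sdiff_subset).isClosed.isOpen_compl.mem_nhds fun h => h.2 rfl
  have h3 : ∀ᶠ t in 𝓝 (0 : ℂ), γ t = e x := by
    filter_upwards [h1, d, t2.eventually h2,
      t1.eventually (e.open_target.mem_nhds (e.map_source hs))] with t k1 k2 k3 k4
    rw [b, ex] at k1
    have : e.symm (γ t) = x := by
      by_contra k
      exact k3 ⟨⟨(g1 _).1 k2, T.injective k1⟩, k⟩
    rw [← this, e.right_inv k4]
  obtain ⟨t, k1, k2⟩ := ((h3.filter_mono nhdsWithin_le_nhds).and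
    (self_mem_nhdsWithin (s := {0}ᶜ))).exists
  exact c t k2 k1

end Vale.Agent.P287Q.D
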