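import Vale.Agent.P287Q.D.St
import Vale.Agent.P287Q.D.ZF0

/-!
# Sections whose zeros are separated by holomorphic functions have no zeros
-/

namespace Vale.Agent.P287Q.D

open Set Topology Filter P267.FL
open scoped ContDiff Manifold

theorem stZF {X : Type} [TopologicalSpace X] [ChartedSpace C2 X] [IsManifold 𝓘(ℂ, C2) ω X]
    [T2Space X] [CompactSpace X] [ConnectedSpace X] : StZF X := by
  intro M s f hs _ hf fin x hx
  have hZ : IsClosed {x | s x = 0} :=
    isOpen_compl_iff.1 (isOpen_iff_mem_nhds.2 fun y hy => (hs y).ev_ne hy)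
  have h := zf hZ.isCompact (fun y hy => (hf y hy).continuousAt.continuousWithinAt) hf
    (fun y _ => ⟨fun z => s z / M.φ y z, fun z => by simp [M.ne], hs y⟩) fin
  exact (h ▸ hx : x ∈ (∅ : Set X))

end Vale.Agent.P287Q.D
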