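import Vale.Agent.P287Q.D.Crv
import Vale.Agent.P287Q.D.Div
import Vale.Agent.P287Q.D.End2
import Vale.Agent.P287Q.D.End6
import Vale.Agent.P287Q.D.Fin
import Vale.Agent.P287Q.D.Gen
import Vale.Agent.P287Q.D.Hart
import Vale.Agent.P287Q.D.Meet
import Vale.Agent.P287Q.D.Res
import Vale.Agent.P287Q.D.ZF

/-!
# No line bundles with the intersection numbers of the discriminants 2 and 6
-/

namespace Vale.Agent.P287Q.D

open P267.FL
open scoped ContDiff Manifold

variable {X : Type} [TopologicalSpace X] [ChartedSpace C2 X] [IsManifold 𝓘(ℂ, C2) ω X]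
  [CompactSpace X]

theorem conn_all : StConn X := stConn stFin (stCrv stAdj)

theorem end2_all : StEnd2 X := stEnd2 (stRes (stCrv stAdj) stDiv conn_all)

theorem end6_all [T2Space X] : StEnd6 X := fun N A B p ip h =>
  have := conn_all N A B p ip h
  stEnd6 (stRes (stCrv stAdj) stDiv conn_all) stZF (stMeet stFin (stCrv stAdj)) stHart conn_all
    stPI' N A B p ip h

end Vale.Agent.P287Q.D
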