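import Vale.Agent.P287Q.D.St
import Vale.Agent.P287Q.D.Mod0

/-!
# The Euler sequences of the surface of incident lines
-/

namespace Vale.Agent.P287Q.D

open Set Function Topology Filter P267.FL Matrix
open scoped ContDiff Manifold

namespace Eul

/-- The numbering of the coordinates. -/
def kk : K7 → Fin 7 := Sum.elim (Sum.elim ![0, 1] ![2, 3]) ![4, 5, 6]

theorem kk_surj : Surjective kk := by decide

/-- The Euler vector fields. -/
def eu (k : Fin 2) (z : W7) : W7 := fun j =>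
  ![![1, 1, 0, 0, 1, 2, 1], ![0, 0, 1, 1, 1, 1, 2]] k j * z j

/-- The one parameter subgroups. -/
def tk (k : Fin 2) (t : ℂ) : ℂ × ℂ := ![(t, 1), (1, t)] k

theorem tk_one (k : Fin 2) : tk k 1 = 1 := by fin_cases k <;> rfl

theorem tk_ne (k : Fin 2) {t : ℂ} (h : t ≠ 0) : (tk k t).1 ≠ 0 ∧ (tk k t).2 ≠ 0 := by
  fin_cases k <;> simp [tk, h]

theorem der (k : Fin 2) (z : W7) : HasDerivAt (fun t => ac (tk k t) z) (eu k z) 1 := by
  refine hasDerivAt_pi.2 fun j => HasDerivAt.mul_const ?_ _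
  have h2 : HasDerivAt (fun t : ℂ => t ^ 2) 2 1 := by simpa using hasDerivAt_pow 2 (1 : ℂ)
  fin_cases k <;> fin_cases j <;> simp [tk, ch, hasDerivAt_id', hasDerivAt_const, h2]

theorem kill {V : Type} [NormedAddCommGroup V] [NormedSpace ℂ V] {H : W7 → V} {z : W7} {c : V}
    (h : AnalyticAt ℂ H z) (k : Fin 2) (e : ∀ᶠ t in 𝓝 (1 : ℂ), H (ac (tk k t) z) = c) :
    fderiv ℂ H z (eu k z) = 0 :=
  (h.differentiableAt.hasFDerivAt.comp_hasDerivAt_of_eq 1 (der k z)
    (by rw [tk_one, ac_one])).unique ((hasDerivAt_const 1 c).congr_of_eventuallyEq e)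

theorem ac_eu (a : ℂ × ℂ) (k : Fin 2) (z : W7) : ac a (eu k z) = eu k (ac a z) :=
  funext fun _ => mul_left_comm _ _ _

theorem indep {N : NF} (g : N.Good) {z : W7} (hz : z ∈ N.Z) {u : Fin 2 → ℂ}
    (h : ∑ k, u k • eu k z = 0) : u = 0 := by
  have e := fun j => congrFun h j
  have e0 := e 0
  have e1 := e 1
  have e2 := e 2
  have e3 := e 3
  have e4 := e 4
  simp [eu, ← add_mul] at e0 e1 e2 e3 e4
  have : u 0 = 0 ∧ u 1 = 0 := by
    by_cases a : z 0 = 0 ∧ z 1 = 0
    · obtain ⟨-, b, c, -⟩ := g.spec hz a.1 a.2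
      grind
    by_cases a' : z 2 = 0 ∧ z 3 = 0
    · have c : z 4 ≠ 0 := (g.spec (NF.sw_mem hz) a'.1 a'.2).2.2.1
      grind
    grind
  funext k
  fin_cases k
  exacts [this.1, this.2]

/-- The action as a linear map. -/
noncomputable def acL (a : ℂ × ℂ) : W7 →L[ℂ] W7 := .pi fun j => ch a j • .proj j

theorem dG_ac (N : NF) (a : ℂ × ℂ) (z v : W7) (i : Fin 3) : fderiv ℂ N.G (ac a z) (ac a v) i =
    ![(a.1 * a.2) ^ 2, (a.1 * a.2) ^ 2, (a.1 * a.2) ^ 3] i * fderiv ℂ N.G z v i := by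
  have h1 := hasFDerivAt_pi'.1 ((N.an_G (ac a z)).differentiableAt.hasFDerivAt.comp z
    (acL a).hasFDerivAt) i
  have h2 := (hasFDerivAt_pi'.1 (N.an_G z).differentiableAt.hasFDerivAt i).const_mul
    (![(a.1 * a.2) ^ 2, (a.1 * a.2) ^ 2, (a.1 * a.2) ^ 3] i)
  exact DFunLike.congr_fun (h1.unique (h2.congr_of_eventuallyEq
    (.of_forall fun w => congrFun (N.G_ac a w) i))) v

variable {X : Type} [TopologicalSpace X] [ChartedSpace C2 X] (N : NF) (A B : SB X) (p : X → W7)

/-- The holomorphic lift near `x`. -/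
noncomputable def lf (x y : X) : W7 := ac ((A.φ x y)⁻¹, (B.φ x y)⁻¹) (p y)

/-- The lift in the chart. -/
noncomputable def lc (x : X) (w : C2) : W7 := lf A B p x ((chartAt C2 x).symm w)

/-- The columns. -/
noncomputable def cm (W : (Fin 3 → ℂ) →L[ℂ] W7) (x y : X) : K7 → W7 :=
  Sum.elim (Sum.elim (fun k => eu k (lf A B p x y))
    fun i => fderiv ℂ (lc A B p x) (chartAt C2 x y) (Pi.single i 1))
    fun i => W (Ring.inverse (fderiv ℂ N.G (lf A B p x y) ∘L W) (Pi.single i 1))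

theorem lf_self (x : X) : lf A B p x x = p x := by
  rw [lf, A.self, B.self, inv_one]
  exact ac_one _

theorem ac_lf (x y : X) : ac (A.φ x y, B.φ x y) (lf A B p x y) = p y := by
  rw [lf, ← ac_mul, Prod.mk_mul_mk, mul_inv_cancel₀ (A.ne x y), mul_inv_cancel₀ (B.ne x y)]
  exact ac_one _

end Eul

open Eul

variable {X : Type} [TopologicalSpace X] [ChartedSpace C2 X] {N : NF} {A B : SB X} {p : X → W7}

variable (N p) in
/-- The charts are given by analytic functions of the coordinates. -/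
def MdP : Prop := ∀ x, ∃ Ψ : W7 → C2, AnalyticAt ℂ Ψ (p x) ∧
  ∀ᶠ z in 𝓝 (p x), z ∈ N.Z → ∀ y a, z = ac a (p y) → Ψ z = chartAt C2 x y

namespace Md

variable (h : Md N A B p)
include h

theorem lf_mem (x y : X) : lf A B p x y ∈ N.Z :=
  NF.ac_mem (inv_ne_zero (A.ne x y)) (inv_ne_zero (B.ne x y)) (h.mem y)

theorem lc_an (x : X) : AnalyticAt ℂ (lc A B p x) (chartAt C2 x x) := h.hol x

theorem dG_lc (x : X) {w : C2} (a : AnalyticAt ℂ (lc A B p x) w) (v : C2) :
    fderiv ℂ N.G (lc A B p x w) (fderiv ℂ (lc A B p x) w v) = 0 :=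
  DFunLike.congr_fun (((N.an_G _).differentiableAt.hasFDerivAt.comp w
    a.differentiableAt.hasFDerivAt).unique ((hasFDerivAt_const 0 w).congr_of_eventuallyEq
      (.of_forall fun _ => (h.lf_mem _ _).2))) v

theorem col_hol {W : (Fin 3 → ℂ) →L[ℂ] W7} {x : X} (hW : fderiv ℂ N.G (p x) ∘L W = 1) (j : K7) :
    Ho (fun y => cm N A B p W x y j) x := by
  rcases j with (k | i) | i
  · exact .pi fun j => (ho_const _).mul ((h.hol x).apply j)
  · refine (((ContinuousLinearMap.apply ℂ W7 (Pi.single i 1 : C2)).analyticAt _).comp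
      (h.lc_an x).fderiv).congr ?_
    filter_upwards [(chartAt C2 x).open_target.mem_nhds (mem_chart_target C2 x)] with w hw
    simp only [cm, Sum.elim_inl, Sum.elim_inr, (chartAt C2 x).right_inv hw]
    rfl
  · have h1 : Ho (fun y => fderiv ℂ N.G (lf A B p x y) ∘L W) x :=
      Ho.comp (u := fun z => fderiv ℂ N.G z ∘L W) ((((ContinuousLinearMap.compL ℂ _ W7
        (Fin 3 → ℂ)).flip W).analyticAt _).comp (N.an_G _).fderiv) (h.hol x)
    have h2 := Ho.comp (u := Ring.inverse) (by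
      rw [lf_self, hW]; exact analyticAt_inverse (𝕜 := ℂ) 1) h1
    exact Ho.comp (W.analyticAt _) (Ho.comp
      ((ContinuousLinearMap.apply ℂ _ (Pi.single i 1 : Fin 3 → ℂ)).analyticAt _) h2)

theorem dG_col {W : (Fin 3 → ℂ) →L[ℂ] W7} {x y : X}
    (a : AnalyticAt ℂ (lc A B p x) (chartAt C2 x y)) (hy : y ∈ (chartAt C2 x).source)
    (hW : IsUnit (fderiv ℂ N.G (lf A B p x y) ∘L W)) (j : K7) :
    fderiv ℂ N.G (lf A B p x y) (cm N A B p W x y j) =
      fun i => (Pi.single j 1 : K7 → ℂ) (.inr i) := by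
  rcases j with (k | i) | i
  · refine (kill (N.an_G _) k ((eventually_ne_nhds one_ne_zero).mono fun t ht =>
      (NF.ac_mem (tk_ne k ht).1 (tk_ne k ht).2 (h.lf_mem x y)).2)).trans (funext fun _ => by simp)
  · have := h.dG_lc x a (Pi.single i 1)
    rw [lc, (chartAt C2 x).left_inv hy] at this
    exact this.trans (funext fun _ => by simp)
  · refine (DFunLike.congr_fun (Ring.mul_inverse_cancel _ hW) (Pi.single i 1)).trans ?_
    funext l
    simp [Pi.single_apply]

variable [IsManifold 𝓘(ℂ, C2) ω X]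

theorem dP_lc {x y : X} {Ψ : W7 → C2} (h1 : AnalyticAt ℂ Ψ (p y))
    (h2 : ∀ᶠ z in 𝓝 (p y), z ∈ N.Z → ∀ y' a, z = ac a (p y') → Ψ z = chartAt C2 y y')
    (a : AnalyticAt ℂ (lc A B p x) (chartAt C2 x y)) (hy : y ∈ (chartAt C2 x).source) (v : C2) :
    fderiv ℂ Ψ (p y) (ac (A.φ x y, B.φ x y) (fderiv ℂ (lc A B p x) (chartAt C2 x y) v)) =
      jac (chartAt C2 x) y *ᵥ v := by
  have e : acL (A.φ x y, B.φ x y) (lc A B p x (chartAt C2 x y)) = p y := by
    rw [lc, (chartAt C2 x).left_inv hy]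
    exact ac_lf A B p x y
  have d := (acL (A.φ x y, B.φ x y)).hasFDerivAt.comp _ a.differentiableAt.hasFDerivAt
  have d' := HasFDerivAt.comp (g := Ψ) (g' := fderiv ℂ Ψ (p y)) _
    (by rw [Function.comp_apply, e]; exact h1.differentiableAt.hasFDerivAt) d
  have t := d.continuousAt.tendsto
  rw [Function.comp_apply, e] at t
  rw [jac, jacM_mulVec (chart_mem_atlas C2 x) (chart_mem_atlas C2 y) hy (mem_chart_source C2 y),
    (d'.congr_of_eventuallyEq ((t.eventually h2).mono fun w hw => (hw (NF.ac_mem (A.ne x y)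
      (B.ne x y) (h.lf_mem _ _)) _ _ (ac_mul _ _ _).symm).symm)).fderiv]
  rfl

/-- **The Euler sequences.** -/
theorem eul (g : N.Good) (hp : MdP N p) : Eul (M7 A B) (Q3 A B) := by
  choose Ψ h1 h2 using hp
  have hW : ∀ x, ∃ W : (Fin 3 → ℂ) →L[ℂ] W7, fderiv ℂ N.G (p x) ∘L W = 1 := fun x => by
    obtain ⟨W, hW⟩ := (fderiv ℂ N.G (p x)).toLinearMap.exists_rightInverse_of_surjective
      (LinearMap.range_eq_top.2 (g.sm _ (h.mem x)))
    exact ⟨W.toContinuousLinearMap, ContinuousLinearMap.coe_injective hW⟩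
  choose W hW using hW
  let Φ : X → X → Matrix K7 K7 ℂ := fun x y => .of fun i j => cm N A B p (W x) x y j (kk i)
  have mv : ∀ x y v, Φ x y *ᵥ v = (∑ j, v j • cm N A B p (W x) x y j) ∘ kk := fun x y v =>
    funext fun i => by simp [Φ, mulVec, dotProduct, mul_comm]
  have u0 : ∀ x, IsUnit (fderiv ℂ N.G (lf A B p x x) ∘L W x) := fun x => by
    rw [lf_self, hW]; exact isUnit_one
  have k1 : ∀ y (v : K7 → ℂ), fderiv ℂ N.G (p y) (∑ j, v j • cm N A B p (W y) y y j) =
      v ∘ .inr := fun y v => by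
    have := h.dG_col (h.lc_an y) (mem_chart_source C2 y) (u0 y)
    rw [lf_self] at this
    funext i
    simp [map_sum, this, Pi.single_apply]
  have k2 : ∀ y (v : K7 → ℂ), v ∘ .inr = 0 →
      fderiv ℂ (Ψ y) (p y) (∑ j, v j • cm N A B p (W y) y y j) = v ∘ .inl ∘ .inr :=
    fun y v hv => by
    have a : ∀ k, fderiv ℂ (Ψ y) (p y) (eu k (p y)) = 0 := fun k => by
      have t := (der k (p y)).continuousAt.tendsto
      rw [tk_one, ac_one] at t
      exact kill (h1 y) k (((t.eventually (h2 y)).and (eventually_ne_nhds one_ne_zero)).mono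
        fun s hs => hs.1 (NF.ac_mem (tk_ne k hs.2).1 (tk_ne k hs.2).2 (h.mem y)) _ _ rfl)
    have b := h.dP_lc (h1 y) (h2 y) (h.lc_an y) (mem_chart_source C2 y)
    simp only [A.self, B.self, jac_chartAt, one_mulVec, Prod.mk_one_one, ac_one] at b
    have c : ∀ i, v (.inr i) = 0 := congrFun hv
    funext i
    fin_cases i <;> simp [Fintype.sum_sum_type, cm, lf_self, a, b, c]
  have dt : ∀ x, (Φ x x).det ≠ 0 := fun x e => by
    obtain ⟨v, h0, hv⟩ := exists_mulVec_eq_zero_iff.2 e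
    have e0 : ∑ j, v j • cm N A B p (W x) x x j = 0 :=
      kk_surj.injective_comp_right ((mv x x v).symm.trans hv)
    have e1 := (k1 x v).symm.trans ((congrArg _ e0).trans (map_zero _))
    have e2 := congrFun ((k2 x v e1).symm.trans ((congrArg _ e0).trans (map_zero _)))
    have e3 := congrFun (indep g (h.mem x) (u := v ∘ .inl ∘ .inl) (by
      have := congrFun e1
      simp only [Function.comp_apply, Pi.zero_apply] at this e2
      simpa [Fintype.sum_sum_type, cm, lf_self, this, e2] using e0))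
    exact h0 (funext (Sum.rec (Sum.rec e3 e2) (congrFun e1)))
  refine ⟨Φ, fun x i j => (h.col_hol (hW x) j).apply _, dt, fun x => ?_⟩
  have c1 : ContinuousAt (fun y => fderiv ℂ N.G (lf A B p x y) ∘L W x) x :=
    ((N.an_G _).fderiv.continuousAt.comp (f := lf A B p x) (h.hol x).continuousAt).clm_comp
      continuousAt_const
  have s := (chartAt C2 x).open_source.mem_nhds (mem_chart_source C2 x)
  filter_upwards [s, c1.eventually (Units.isOpen.mem_nhds (u0 x)),
    ((chartAt C2 x).continuousAt (mem_chart_source C2 x)).eventually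
      (h.lc_an x).eventually_analyticAt] with y s1 s2 s3
  obtain ⟨T, hT⟩ : ∃ T, Φ y y * T = (diagonal fun j => (M7 A B j).φ x y) * Φ x y :=
    ⟨_, mul_nonsing_inv_cancel_left _ _ (Ne.isUnit (dt y))⟩
  have m : ∀ i, (M7 A B i).φ x y = ch (A.φ x y, B.φ x y) (kk i) := by
    rintro ((i | i) | i) <;> fin_cases i <;> simp [M7, kk, ch]
  have e : ∀ j, ∑ l, T l j • cm N A B p (W y) y y l =
      ac (A.φ x y, B.φ x y) (cm N A B p (W x) x y j) := fun j =>
    kk_surj.injective_comp_right ((mv y y _).symm.trans (funext fun i =>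
      (congrFun₂ hT i j).trans ((diagonal_mul _ _ _ _).trans (by rw [m]; rfl))))
  have e1 : ∀ i j, T (.inr i) j = (Q3 A B i).φ x y * Pi.single (M := fun _ => ℂ) j 1 (.inr i) :=
    fun i j => by
    have := congrFun (k1 y (T · j)) i
    rw [e, ← ac_lf A B p x y, dG_ac, h.dG_col s3 s1 s2] at this
    refine this.symm.trans (congrArg (· * _) ?_)
    fin_cases i <;> simp [Q3]
  have e2 : ∀ i j, T (.inl (.inr i)) (.inl (.inr j)) = jac (chartAt C2 x) y i j := fun i j => by
    have := congrFun (k2 y (T · (.inl (.inr j))) (funext fun i => by simp [e1])) i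
    rw [e] at this
    exact this.symm.trans ((congrFun (h.dP_lc (h1 y) (h2 y) s3 s1 _) i).trans (by simp))
  have e3 : ∀ k, (T · (.inl (.inl k))) = Pi.single (.inl (.inl k)) 1 := fun k => by
    refine mulVec_injective_iff_isUnit.2 ((isUnit_iff_isUnit_det _).2 (dt y).isUnit) ?_
    rw [mv, mv, e]
    simp [cm, Pi.single_apply, ac_eu, ac_lf, lf_self]
  refine ⟨.of fun k i => T (.inl (.inl k)) (.inl (.inr i)), .of fun l i => T (.inl l) (.inr i),
    hT.symm.trans (congrArg _ ?_)⟩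
  ext ((k | k) | k) ((i | i) | i)
  · simp [congrFun (e3 i), Pi.single_apply, one_apply]
  · rfl
  · rfl
  · simp [congrFun (e3 i)]
  · exact e2 k i
  · rfl
  · simp [e1]
  · simp [e1]
  · simp [e1, Pi.single_apply, diagonal_apply]

end Md

end Vale.Agent.P287Q.D
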