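import Vale.Agent.P267.H221.Sys
import Vale.Agent.P267.H983.Coh

/-! # P287 / D26: the Euler characteristic of a bundle is invariant under holomorphic gauge
transformations -/

set_option linter.unusedVariables false
set_option linter.unusedSectionVars false

open scoped Manifold ContDiff ComplexConjugate Matrix Topology
open Set Filter

noncomputable section

namespace Vale.Agent.P287Q.D.Gau

open Vale.Agent.P267 Vale.Agent.P267.RR Vale.Agent.P267.FL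

section an

variable {E : Type*} [NormedAddCommGroup E] [NormedSpace ℂ E] {n : Type*} [Fintype n]
  [DecidableEq n]

theorem an_det {M : E → Matrix n n ℂ} {z : E} (h : ∀ i j, AnalyticAt ℂ (fun z => M z i j) z) :
    AnalyticAt ℂ (fun z => (M z).det) z := by
  simp only [Matrix.det_apply']
  refine Finset.analyticAt_fun_sum _ fun σ _ => analyticAt_const.mul ?_
  exact Finset.analyticAt_fun_prod _ fun i _ => h _ _

theorem an_adj {M : E → Matrix n n ℂ} {z : E} (h : ∀ i j, AnalyticAt ℂ (fun z => M z i j) z)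
    (i j : n) : AnalyticAt ℂ (fun z => (M z).adjugate i j) z := by
  simp only [Matrix.adjugate_apply]
  refine an_det fun k l => ?_
  by_cases hk : k = j
  · simp only [hk, Matrix.updateRow_self]
    exact analyticAt_const
  · simp only [Matrix.updateRow_ne hk]
    exact h k l

theorem an_inv {M : E → Matrix n n ℂ} {z : E} (h : ∀ i j, AnalyticAt ℂ (fun z => M z i j) z)
    (hd : (M z).det ≠ 0) (i j : n) : AnalyticAt ℂ (fun z => (M z)⁻¹ i j) z := by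
  simp only [Matrix.inv_def, Ring.inverse_eq_inv', Matrix.smul_apply, smul_eq_mul]
  exact ((an_det h).inv hd).mul (an_adj h i j)

theorem an_mul {M N : E → Matrix n n ℂ} {z : E} (h : ∀ i j, AnalyticAt ℂ (fun z => M z i j) z)
    (h' : ∀ i j, AnalyticAt ℂ (fun z => N z i j) z) (i j : n) :
    AnalyticAt ℂ (fun z => (M z * N z) i j) z := by
  simp only [Matrix.mul_apply]
  exact Finset.analyticAt_fun_sum _ fun k _ => (h i k).mul (h' k j)

end an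

theorem M_dzb {r : ℕ} {M : C2 → Matrix (Fin r) (Fin r) ℂ} {z : C2}
    (h : ∀ i j, AnalyticAt ℂ (fun z => M z i j) z) {f : C2 → Fin r → ℂ}
    (hf : DifferentiableAt ℝ f z) (i : Fin 2) :
    dzb i (fun y => M y *ᵥ f y) z = M z *ᵥ dzb i f z := by
  have hE : ∀ k j, DifferentiableAt ℂ (fun y => M y k j) z := fun k j => (h k j).differentiableAt
  have hf' : ∀ j, DifferentiableAt ℝ (fun y => f y j) z := fun j =>
    differentiableAt_pi.1 hf j
  have hF : DifferentiableAt ℝ (fun y => M y *ᵥ f y) z := by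
    rw [differentiableAt_pi]
    intro k
    simp only [Matrix.mulVec, dotProduct]
    exact DifferentiableAt.fun_sum fun j _ => ((hE k j).restrictScalars ℝ).mul (hf' j)
  funext k
  rw [← Bun.dzb_pi hF]
  simp only [Matrix.mulVec, dotProduct]
  rw [dzb_sum (f := fun j y => M y k j * f y j) Finset.univ
    (fun j _ => ((hE k j).restrictScalars ℝ).mul (hf' j))]
  refine Finset.sum_congr rfl fun j _ => ?_
  rw [dzb_mul ((hE k j).restrictScalars ℝ) (hf' j), dzb_of_hol (hE k j), zero_mul, add_zero,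
    Bun.dzb_pi hf]

theorem M_cd {r : ℕ} {M : C2 → Matrix (Fin r) (Fin r) ℂ} {s : Set C2}
    (h : ∀ z ∈ s, ∀ i j, AnalyticAt ℂ (fun z => M z i j) z) {f : C2 → Fin r → ℂ}
    (hf : ContDiffOn ℝ ∞ f s) : ContDiffOn ℝ ∞ (fun y => M y *ᵥ f y) s := by
  rw [contDiffOn_pi]
  intro i z hz
  simp only [Matrix.mulVec, dotProduct]
  refine ContDiffWithinAt.sum fun j _ => ?_
  exact (((h z hz i j).contDiffAt.restrict_scalars ℝ).contDiffWithinAt).mul
    (contDiffOn_pi.1 hf j z hz)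

variable {X : Type*} [TopologicalSpace X] [ChartedSpace C2 X] [IsManifold 𝓘(ℂ, C2) ω X]
  {A : FinAt X} {r : ℕ}

/-- a holomorphic morphism of bundles -/
structure Mor (B B' : Bun A r) where
  Ψ : Fin A.N → C2 → Matrix (Fin r) (Fin r) ℂ
  an : ∀ a, ∀ z ∈ A.O a, ∀ i j, AnalyticAt ℂ (fun z => Ψ a z i j) z
  eq : ∀ a b, ∀ z ∈ A.ov a b, B'.E a b z * Ψ a z = Ψ b (A.tau a b z) * B.E a b z

namespace Mor

variable {B B' : Bun A r} (m : Mor B B')

theorem eqv {a b : Fin A.N} {z : C2} (hz : z ∈ A.ov a b) (v : Fin r → ℂ) :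
    m.Ψ b (A.tau a b z) *ᵥ (B.E a b z *ᵥ v) = B'.E a b z *ᵥ (m.Ψ a z *ᵥ v) := by
  rw [Matrix.mulVec_mulVec, Matrix.mulVec_mulVec, m.eq a b z hz]

/-- on sections -/
def f0 : B.sb0.Sec →ₗ[ℂ] B'.sb0.Sec where
  toFun u := ⟨fun a z => m.Ψ a z *ᵥ u.1 a z, fun a => M_cd (m.an a) (u.2.1 a),
    fun a z hz => by simp only [u.2.2.1 a z hz, Matrix.mulVec_zero], fun a b z hz => by
      change m.Ψ b (A.tau a b z) *ᵥ u.1 b (A.tau a b z) = B'.E a b z *ᵥ (m.Ψ a z *ᵥ u.1 a z)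
      rw [u.2.2.2 a b z hz]
      exact m.eqv hz _⟩
  map_add' u v := by
    apply Subtype.ext
    funext a z
    exact Matrix.mulVec_add (m.Ψ a z) (u.1 a z) (v.1 a z)
  map_smul' c u := by
    apply Subtype.ext
    funext a z
    exact Matrix.mulVec_smul (m.Ψ a z) c (u.1 a z)

/-- on `(0,1)`-forms -/
def f1 : B.sb1.Sec →ₗ[ℂ] B'.sb1.Sec where
  toFun u := ⟨fun a z k => m.Ψ a z *ᵥ u.1 a z k,
    fun a => contDiffOn_pi.2 fun k => M_cd (m.an a) (contDiffOn_pi.1 (u.2.1 a) k),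
    fun a z hz => by
      funext k
      simp only [u.2.2.1 a z hz, Pi.zero_apply, Matrix.mulVec_zero], fun a b z hz => by
      funext k
      change m.Ψ b (A.tau a b z) *ᵥ u.1 b (A.tau a b z) k =
        ∑ j, Bun.Cm A a b z j k • B'.E a b z *ᵥ (m.Ψ a z *ᵥ u.1 a z j)
      rw [u.2.2.2 a b z hz]
      change m.Ψ b (A.tau a b z) *ᵥ (∑ j, Bun.Cm A a b z j k • B.E a b z *ᵥ u.1 a z j) = _
      rw [Matrix.mulVec_sum]
      refine Finset.sum_congr rfl fun j _ => ?_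
      rw [Matrix.mulVec_smul, m.eqv hz]⟩
  map_add' u v := by
    apply Subtype.ext
    funext a z k
    exact Matrix.mulVec_add (m.Ψ a z) (u.1 a z k) (v.1 a z k)
  map_smul' c u := by
    apply Subtype.ext
    funext a z k
    exact Matrix.mulVec_smul (m.Ψ a z) c (u.1 a z k)

/-- on `(0,2)`-forms -/
def f2 : B.sb2.Sec →ₗ[ℂ] B'.sb2.Sec where
  toFun u := ⟨fun a z => m.Ψ a z *ᵥ u.1 a z, fun a => M_cd (m.an a) (u.2.1 a),
    fun a z hz => by simp only [u.2.2.1 a z hz, Matrix.mulVec_zero], fun a b z hz => by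
      change m.Ψ b (A.tau a b z) *ᵥ u.1 b (A.tau a b z) =
        (Bun.Cm A a b z).det • B'.E a b z *ᵥ (m.Ψ a z *ᵥ u.1 a z)
      rw [u.2.2.2 a b z hz]
      change m.Ψ b (A.tau a b z) *ᵥ ((Bun.Cm A a b z).det • B.E a b z *ᵥ u.1 a z) = _
      rw [Matrix.mulVec_smul, m.eqv hz]⟩
  map_add' u v := by
    apply Subtype.ext
    funext a z
    exact Matrix.mulVec_add (m.Ψ a z) (u.1 a z) (v.1 a z)
  map_smul' c u := by
    apply Subtype.ext
    funext a z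
    exact Matrix.mulVec_smul (m.Ψ a z) c (u.1 a z)

theorem f_d0 (u : B.sb0.Sec) : m.f1 (B.d0 u) = B'.d0 (m.f0 u) := by
  apply Subtype.ext
  funext a z k
  change m.Ψ a z *ᵥ Bun.d0f u.1 a z k = Bun.d0f (fun a z => m.Ψ a z *ᵥ u.1 a z) a z k
  by_cases hz : z ∈ A.O a
  · simp only [Bun.d0f, if_pos hz]
    exact (M_dzb (m.an a z hz) ((Bun.Sec_contDiffAt u.2 hz).differentiableAt (by simp)) k).symm
  · simp only [Bun.d0f, if_neg hz, Pi.zero_apply, Matrix.mulVec_zero]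

theorem f_d1 (u : B.sb1.Sec) : m.f2 (B.d1 u) = B'.d1 (m.f1 u) := by
  apply Subtype.ext
  funext a z
  change m.Ψ a z *ᵥ Bun.d1f u.1 a z = Bun.d1f (fun a z k => m.Ψ a z *ᵥ u.1 a z k) a z
  by_cases hz : z ∈ A.O a
  · have hu : ∀ p, DifferentiableAt ℝ (fun y => u.1 a y p) z := fun p =>
      differentiableAt_pi.1 ((Bun.Sec_contDiffAt u.2 hz).differentiableAt (by simp)) p
    simp only [Bun.d1f, if_pos hz]
    rw [M_dzb (m.an a z hz) (hu 1), M_dzb (m.an a z hz) (hu 0), Matrix.mulVec_sub]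
  · simp only [Bun.d1f, if_neg hz, Matrix.mulVec_zero]

/-- the inverse of an invertible morphism -/
def inv (hd : ∀ a, ∀ z ∈ A.O a, (m.Ψ a z).det ≠ 0) : Mor B' B where
  Ψ a z := (m.Ψ a z)⁻¹
  an a z hz := an_inv (m.an a z hz) (hd a z hz)
  eq a b z hz := by
    have h1 := Matrix.mul_nonsing_inv _ (hd a z hz.1).isUnit
    have h2 := Matrix.nonsing_inv_mul _ (hd b _ (FinAt.tau_mem_O hz)).isUnit
    calc B.E a b z * (m.Ψ a z)⁻¹
        = (m.Ψ b (A.tau a b z))⁻¹ * (m.Ψ b (A.tau a b z) * B.E a b z) * (m.Ψ a z)⁻¹ := by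
          rw [← Matrix.mul_assoc, h2, Matrix.one_mul]
      _ = (m.Ψ b (A.tau a b z))⁻¹ * B'.E a b z := by
          rw [← m.eq a b z hz, Matrix.mul_assoc, Matrix.mul_assoc, h1, Matrix.mul_one]

variable {m} {m' : Mor B' B}

theorem f0_f0 (h : ∀ a, ∀ z ∈ A.O a, m'.Ψ a z * m.Ψ a z = 1) (u : B.sb0.Sec) :
    m'.f0 (m.f0 u) = u := by
  apply Subtype.ext
  funext a z
  change m'.Ψ a z *ᵥ (m.Ψ a z *ᵥ u.1 a z) = u.1 a z
  by_cases hz : z ∈ A.O a
  · rw [Matrix.mulVec_mulVec, h a z hz, Matrix.one_mulVec]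
  · simp only [u.2.2.1 a z hz, Matrix.mulVec_zero]

theorem f1_f1 (h : ∀ a, ∀ z ∈ A.O a, m'.Ψ a z * m.Ψ a z = 1) (u : B.sb1.Sec) :
    m'.f1 (m.f1 u) = u := by
  apply Subtype.ext
  funext a z k
  change m'.Ψ a z *ᵥ (m.Ψ a z *ᵥ u.1 a z k) = u.1 a z k
  by_cases hz : z ∈ A.O a
  · rw [Matrix.mulVec_mulVec, h a z hz, Matrix.one_mulVec]
  · simp only [u.2.2.1 a z hz, Pi.zero_apply, Matrix.mulVec_zero]

theorem f2_f2 (h : ∀ a, ∀ z ∈ A.O a, m'.Ψ a z * m.Ψ a z = 1) (u : B.sb2.Sec) :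
    m'.f2 (m.f2 u) = u := by
  apply Subtype.ext
  funext a z
  change m'.Ψ a z *ᵥ (m.Ψ a z *ᵥ u.1 a z) = u.1 a z
  by_cases hz : z ∈ A.O a
  · rw [Matrix.mulVec_mulVec, h a z hz, Matrix.one_mulVec]
  · simp only [u.2.2.1 a z hz, Matrix.mulVec_zero]

theorem chi_eq' (h : ∀ a, ∀ z ∈ A.O a, m'.Ψ a z * m.Ψ a z = 1) :
    B.h0 = B'.h0 ∧ B.h1 = B'.h1 ∧ B.h2 = B'.h2 := by
  have h' : ∀ a, ∀ z ∈ A.O a, m.Ψ a z * m'.Ψ a z = 1 := fun a z hz =>
    mul_eq_one_comm.1 (h a z hz)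
  let e0 : B.sb0.Sec ≃ₗ[ℂ] B'.sb0.Sec :=
    LinearEquiv.ofLinearMap m.f0 m'.f0 (LinearMap.ext (f0_f0 h')) (LinearMap.ext (f0_f0 h))
  let e1 : B.sb1.Sec ≃ₗ[ℂ] B'.sb1.Sec :=
    LinearEquiv.ofLinearMap m.f1 m'.f1 (LinearMap.ext (f1_f1 h')) (LinearMap.ext (f1_f1 h))
  let e2 : B.sb2.Sec ≃ₗ[ℂ] B'.sb2.Sec :=
    LinearEquiv.ofLinearMap m.f2 m'.f2 (LinearMap.ext (f2_f2 h')) (LinearMap.ext (f2_f2 h))
  exact ⟨H983.hh0_congr _ _ e0 e1 m.f_d0, H983.hh1_congr _ _ _ _ e0 e1 e2 m.f_d0 m.f_d1,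
    H983.hh2_congr _ _ e1 e2 m.f_d1⟩

theorem chi_eq (m : Mor B B') (hd : ∀ a, ∀ z ∈ A.O a, (m.Ψ a z).det ≠ 0) : B'.chi = B.chi := by
  obtain ⟨h0, h1, h2⟩ := chi_eq' (m := m) (m' := m.inv hd) fun a z hz =>
    Matrix.nonsing_inv_mul _ (hd a z hz).isUnit
  rw [Bun.chi, Bun.chi, h0, h1, h2]

end Mor

/-- **gauge invariance of the Euler characteristic** -/
theorem chi_gauge (B B' : Bun A r) (Ψ : Fin A.N → C2 → Matrix (Fin r) (Fin r) ℂ)
    (hΨ : ∀ a, ∀ z ∈ A.O a, ∀ i j, AnalyticAt ℂ (fun z => Ψ a z i j) z)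
    (hd : ∀ a, ∀ z ∈ A.O a, (Ψ a z).det ≠ 0)
    (hE : ∀ a b, ∀ z ∈ A.ov a b, B'.E a b z * Ψ a z = Ψ b (A.tau a b z) * B.E a b z) :
    B'.chi = B.chi :=
  Mor.chi_eq ⟨Ψ, hΨ, hE⟩ hd

/-- the bundle `B` in the new gauge `Ψ` -/
def tw (B : Bun A r) (Ψ : Fin A.N → C2 → Matrix (Fin r) (Fin r) ℂ)
    (hΨ : ∀ a, ∀ z ∈ A.O a, ∀ i j, AnalyticAt ℂ (fun z => Ψ a z i j) z)
    (hd : ∀ a, ∀ z ∈ A.O a, (Ψ a z).det ≠ 0) : Bun A r where
  E a b z := Ψ b (A.tau a b z) * B.E a b z * (Ψ a z)⁻¹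
  hol a b z hz := an_mul (an_mul (fun i j =>
    (hΨ b _ (FinAt.tau_mem_O hz) i j).comp (f := A.tau a b) (FinAt.tau_analyticAt hz))
    (B.hol a b z hz)) (an_inv (hΨ a z hz.1) (hd a z hz.1))
  self a z hz := by
    rw [FinAt.tau_self hz, B.self a z hz, Matrix.mul_one,
      Matrix.mul_nonsing_inv _ (hd a z hz).isUnit]
  comp a b c z hz hz' := by
    have h2 := Matrix.nonsing_inv_mul _ (hd b _ (FinAt.tau_mem_O hz)).isUnit
    rw [FinAt.tau_comp c hz, ← B.comp a b c z hz hz']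
    simp only [Matrix.mul_assoc]
    rw [← Matrix.mul_assoc (Ψ b (A.tau a b z))⁻¹, h2, Matrix.one_mul]

theorem tw_E (B : Bun A r) (Ψ : Fin A.N → C2 → Matrix (Fin r) (Fin r) ℂ)
    (hΨ : ∀ a, ∀ z ∈ A.O a, ∀ i j, AnalyticAt ℂ (fun z => Ψ a z i j) z)
    (hd : ∀ a, ∀ z ∈ A.O a, (Ψ a z).det ≠ 0) (a b : Fin A.N) (z : C2) :
    (tw B Ψ hΨ hd).E a b z = Ψ b (A.tau a b z) * B.E a b z * (Ψ a z)⁻¹ := rfl

theorem chi_tw (B : Bun A r) (Ψ : Fin A.N → C2 → Matrix (Fin r) (Fin r) ℂ)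
    (hΨ : ∀ a, ∀ z ∈ A.O a, ∀ i j, AnalyticAt ℂ (fun z => Ψ a z i j) z)
    (hd : ∀ a, ∀ z ∈ A.O a, (Ψ a z).det ≠ 0) : (tw B Ψ hΨ hd).chi = B.chi :=
  chi_gauge B _ Ψ hΨ hd fun a b z hz => by
    rw [tw_E, Matrix.mul_assoc, Matrix.nonsing_inv_mul _ (hd a z hz.1).isUnit, Matrix.mul_one]

end Vale.Agent.P287Q.D.Gau
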