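import Vale.Agent.P287Q.D.Mod
import Vale.Agent.P287Q.D.C1Deg
import Vale.Agent.P287Q.D.C1Ex
import Vale.Agent.P287Q.D.C1Mul
import Vale.Agent.P287Q.Mf.Iff

/-!
# The curves `λ₀ = 0` and `λ₀' = 0` on the surface of incident lines
-/

set_option linter.unusedSectionVars false
set_option linter.style.haveILetI false

namespace Vale.Agent.P287Q.D

open Set Function Topology Filter Module P291Z P267.FL P269 P269.Holo P269.Mono P269.Tq P269.Cv
open scoped ContDiff Manifold

/-- The model space of curves. -/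
abbrev L1 : Type := Fin 1 → ℂ

/-- The coordinate centred at `c`. -/
def tr1 (c : L1) : L1 ≃ₜ ℂ where
  toFun z := z 0 - c 0
  invFun t := (fun _ => t) + c
  left_inv z := funext fun i => by rw [Subsingleton.elim i 0]; exact sub_add_cancel _ _
  right_inv t := add_sub_cancel_right _ _

theorem an_tr1 (c z : L1) : AnalyticAt ℂ (tr1 c) z :=
  ((ContinuousLinearMap.proj (R := ℂ) (φ := fun _ : Fin 1 => ℂ) 0).analyticAt z).sub
    analyticAt_const

theorem an_tr1' (c : L1) (t : ℂ) : AnalyticAt ℂ (tr1 c).symm t :=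
  (analyticAt_pi_iff.2 fun _ => analyticAt_id).add analyticAt_const

theorem tr1_zero (c : L1) : (tr1 c).symm 0 = c := zero_add c

theorem deriv_ne_of_leftInv {V : Type} [NormedAddCommGroup V] [NormedSpace ℂ V] {f : ℂ → V}
    {g : V → ℂ} {x : ℂ} (hg : AnalyticAt ℂ g (f x)) (hf : AnalyticAt ℂ f x)
    (h : ∀ᶠ y in 𝓝 x, g (f y) = y) : deriv f x ≠ 0 := fun e =>
  one_ne_zero (injective_fderiv_of_leftInv hg hf h (e.trans (map_zero _).symm))

/-- A complex manifold of dimension one as a Riemann surface. -/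
noncomputable def rsOf {C : Type} [TopologicalSpace C] [ChartedSpace L1 C]
    (tr : ∀ x y w : C, w ∈ (chartAt L1 x).source → w ∈ (chartAt L1 y).source →
      AnalyticAt ℂ (fun z => chartAt L1 y ((chartAt L1 x).symm z)) (chartAt L1 x w)) : RS C where
  e x := (chartAt L1 x).transHomeomorph (tr1 (chartAt L1 x x))
  mem x := mem_chart_source L1 x
  zero _ := sub_self _
  hol x y hy := by
    have h0 := mem_chart_source L1 y
    have h1 := (chartAt L1 y).left_inv h0
    have h2 := (an_tr1 (chartAt L1 x x) _).comp ((tr y x y h0 hy).comp_of_eq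
      (an_tr1' _ 0) (tr1_zero _))
    refine ⟨h2, deriv_ne_of_leftInv (g := fun s => tr1 (chartAt L1 y y) (chartAt L1 y
      ((chartAt L1 x).symm ((tr1 (chartAt L1 x x)).symm s)))) ((an_tr1 _ _).comp
        ((tr x y y hy h0).comp_of_eq (an_tr1' _ _) ?_)) h2 ?_⟩
    · exact (Homeomorph.symm_apply_apply _ _).trans (congrArg _ ((congrArg _ (tr1_zero _)).trans h1))
    · have t := (tr1 (chartAt L1 y y)).symm.continuous.tendsto' _ _ (tr1_zero _)
      filter_upwards [t.eventually (chart_target_mem_nhds L1 y),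
        ((Mf.tendsto_symm y).comp t).eventually ((chartAt L1 x).open_source.mem_nhds hy)]
        with s k1 k2
      exact (congrArg _ ((congrArg _ ((congrArg _ (Homeomorph.symm_apply_apply _ _)).trans
        ((chartAt L1 x).left_inv k2))).trans ((chartAt L1 y).right_inv k1))).trans
          (Homeomorph.apply_symm_apply _ _)

theorem hm_ch (j : Fin 7) : Hm fun a => ch a j :=
  ⟨(mul_one _).symm.trans (congrFun (ac_one 1) j), fun a b _ _ => by
    simpa [ac] using congrFun (ac_mul a b 1) j, fun a _ => (an_ch j a).continuousAt⟩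

namespace NF

variable (N : NF) [h : Fact N.Good] (j : Fin 7)

/-- The cone over the curve. -/
def Zc : Set W7 := {z | z ∈ N.Z ∧ z j = 0}

/-- The curve is smooth. -/
def Sc : Prop := ∀ z ∈ N.Z, z j = 0 → Surjective fun v : W7 => (fderiv ℂ N.G z v, v j)

theorem sc0 : N.Sc 0 := h.out.sc

theorem sc2 : N.Sc 2 := fun z hz e w => by
  obtain ⟨v, hv⟩ := h.out.sc _ (sw_mem hz) e w
  let s : W7 →L[ℂ] W7 := .pi fun i => .proj (![2, 3, 0, 1, 4, 6, 5] i)
  have hs : ∀ z, s z = sw z := fun z => funext fun i => by fin_cases i <;> rfl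
  have h1 := (N.an_G (s (sw z))).differentiableAt.hasFDerivAt.comp _ s.hasFDerivAt
  rw [show N.G ∘ s = N.G from funext fun z => (congrArg _ (hs z)).trans (N.G_sw z), hs,
    sw_sw] at h1
  rw [h1.fderiv] at hv
  exact ⟨s v, hv⟩

variable {N j}

theorem tan_of (s : N.Sc j) {z : W7} (hz : z ∈ N.Z) (e : z j = 0) (w : ℂ) :
    ∃ v ∈ tan (Subtype.val : N.Z → W7) ⟨z, hz⟩, v j = w := by
  obtain ⟨v, hv⟩ := s z hz e (0, w)
  exact ⟨v, (h.out.mfd hz).2 ▸ congrArg Prod.fst hv, congrArg Prod.snd hv⟩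

theorem fd_co (z v : W7) : fderiv ℂ (fun z : W7 => z j) z v = v j :=
  DFunLike.congr_fun (ContinuousLinearMap.proj (R := ℂ) (φ := fun _ : Fin 7 => ℂ) j).fderiv v

theorem Sc.qm (s : N.Sc j) : QM ac (N.Zc j) 1 :=
  h.out.qm.zero (ι := Unit) (c := fun _ a => ch a j) (s := fun z _ => z j)
    ⟨fun _ => hm_ch j, continuousOn_pi.2 fun _ => (continuous_apply j).continuousOn,
      fun _ _ _ _ _ => rfl⟩
    (fun _ => and_congr_right' ⟨fun e => funext fun _ => e, fun e => congrFun e ()⟩)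
    (fun z _ => analyticAt_pi_iff.2 fun _ => an_co j z) fun z hz k w =>
      (tan_of s hz k.2 (w ())).imp fun v b => ⟨b.1, funext fun _ => by
        rw [fderiv_pi fun _ => (an_co j z).differentiableAt, ContinuousLinearMap.pi_apply, fd_co,
          b.2]⟩

theorem Sc.tr (s : N.Sc j) {x : Quo ac N.Z} (e : N.pt x j = 0) :
    fderiv ℂ (fun z => N.lf x ((chartAt C2 x).symm z) j) (chartAt C2 x x) ≠ 0 := fun k => by
  obtain ⟨P, h1, h2, h3⟩ := N.prx x
  obtain ⟨f, f1, f2, f3⟩ := h.out.exists_wt (N.pt_mem x)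
  obtain ⟨g, g1, g2, g3⟩ := h.out.exists_wt' (N.pt_mem x)
  replace f2 := f2 _ 1 one_ne_zero (one_smul _ _).symm
  replace g2 := g2 _ 1 one_ne_zero (one_smul _ _).symm
  let σ := fun w => N.lf x ((chartAt C2 x).symm (P w))
  have a1 : AnalyticAt ℂ σ (N.pt x) := AnalyticAt.comp_of_eq (N.ho_lf x) h1 h2
  have a2 : σ (N.pt x) = N.pt x := by
    simp only [σ, h2, symm_chart, lf, gm_self, inv_one, Units.val_one, ac_one]
  have a3 := f2.comp_of_eq a1 a2
  have a4 := g2.comp_of_eq a1 a2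
  have a5 := (an_ch j _).comp ((f2.div a3 (by rwa [comp_apply, a2])).prod
    (g2.div a4 (by rwa [comp_apply, a2])))
  have a6 : HasFDerivAt (fun w => σ w j) (0 : W7 →L[ℂ] ℂ) (N.pt x) := by
    have b := ((N.ho_lf x).apply j).differentiableAt.hasFDerivAt
    rw [k, ← h2] at b
    exact b.comp _ h1.differentiableAt.hasFDerivAt
  have a7 := (ContinuousLinearMap.proj (R := ℂ) (φ := fun _ : Fin 7 => ℂ) j).hasFDerivAt.sub
    (a5.differentiableAt.hasFDerivAt.mul a6)
  obtain ⟨v, v1, v2⟩ := tan_of s (N.pt_mem x) e 1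
  have a8 := (h.out.mfd (N.pt_mem x)).1.fderiv_eq_zero ((an_co j _).sub
    (a5.mul (analyticAt_pi_iff.1 a1 j))) ((ev_sub (N.pt_mem x) (p := fun w =>
      w j - ch (f w / f (σ w), g w / g (σ w)) j * σ w j = 0)).2 ?_) v1
  · simpa [a2, e, v2] using (DFunLike.congr_fun a7.fderiv v).symm.trans a8
  filter_upwards [h3, a3.continuousAt.eventually_ne (by rwa [comp_apply, a2]),
    a4.continuousAt.eventually_ne (by rwa [comp_apply, a2])] with w k1 k2 k3 hw
  obtain ⟨a, ha⟩ := k1 hw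
  obtain ⟨b, hb⟩ : ∃ b, w = ac b (σ w) := ⟨a * N.gm x ((chartAt C2 x).symm (P w)), by
    simp only [σ, lf, ← ac_mul, Units.mul_inv_cancel_right]
    exact ha⟩
  have hu := unit_of_mem (hb ▸ hw)
  have e1 : f w / f (σ w) = b.1 := div_eq_of_eq_mul k2 ((congrArg f hb).trans (f3 _ hu _))
  have e2 : g w / g (σ w) = b.2 := div_eq_of_eq_mul k3 ((congrArg g hb).trans (g3 _ hu _))
  exact sub_eq_zero.2 ((congrFun hb j).trans
    (congrArg (fun a => ch a j * σ w j) (Prod.ext e1 e2)).symm)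

/-- **The curve.** -/
theorem Sc.hasC (s : N.Sc j) {L : SB (Quo ac N.Z)} (hL : ∀ x y, L.φ x y = ch (N.gm x y) j)
    {ip : SB (Quo ac N.Z) → SB (Quo ac N.Z) → ℤ} (hi : IPc h.out.qm.ps.J ip) :
    HasC ip L fun x => N.pt x j := by
  have k := s.qm
  have := k.fp
  letI := Mf.cs (n := 1) k.dim
  have e : N.Zc j ⊆ N.Z := fun _ b => b.1
  let R : RS (Quo ac (N.Zc j)) := rsOf fun x y _ =>
    (Mf.gd_chartAt (n := 1) k.dim x).trans (Mf.gd_chartAt (n := 1) k.dim y)
  have hp := Mf.pres (n := 1) k.dim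
  have h1 : Mf.Hol 1 2 (qinc ac e) := hp.hol N.pres (qinc ac e).continuous fun y =>
    ⟨id, analyticAt_id, .of_forall fun z => ⟨e z.2, rfl⟩⟩
  have h2 : ∀ c, AnalyticAt ℂ (fun t => chartAt C2 (qinc ac e c) (qinc ac e (R.i c t))) 0 :=
    fun c => (h1.2 c).comp_of_eq (an_tr1' _ 0) (tr1_zero _)
  have h3 : ∀ x y, N.pt y j / L.φ x y = N.lf x y j := fun x y => by
    rw [hL, div_eq_inv_mul, lf, ← (hm_ch j).ρ_val, ← Units.val_inv_eq_inv_val, ← map_inv]
    rfl
  have h4 : ∀ x, x ∈ range (qinc ac e) ↔ N.pt x j = 0 := fun x => by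
    conv_lhs => rw [← mk_out x]
    exact (mk_mem_range_qinc e).trans (and_iff_right (N.pt_mem x))
  have hC : Crv L (fun x => N.pt x j) R (qinc ac e) :=
    { cont := (qinc ac e).continuous
      an := h2
      sec := fun x => ((N.ho_lf x).apply j).congr (.of_forall fun y => (h3 x y).symm)
      inj := h.out.qm.qinc_injective e
      rng := h4
      imm := fun c => ?_
      tr := fun c => by
        simp only [h3]
        exact s.tr ((h4 _).1 (mem_range_self c)) }
  · refine ⟨_, _, inferInstance, k.cpt, R, _, hC, fun M => Int.cast_injective (α := ℂ) ?_⟩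
    obtain ⟨c, -, hc⟩ := stC1Ex _ _ M.coc
    have := k.cpt
    rw [← stC1Deg stC1Ex stC1Mul _ R (fnd ac (N.Zc j)) (fun x => ?_) _ _ (hc.pull (qinc ac e)),
      hi M L c _ hc (funext₂ hL ▸ N.isC1 (hm_ch j)), ← Ch.Hev.commute (lcq_mem (hm_ch j)),
      ← h.out.qm.push_one' (hm_ch j) (continuous_apply j).continuousOn (fun _ _ _ _ => rfl)
        (fun _ => Iff.rfl) (fun z _ => an_co j z) (fun z hz b => (tan_of s hz b.2 1).imp
          fun v a => ⟨a.1, by rw [fd_co, a.2]; exact one_ne_zero⟩) k e, Coh.PS.J_push_mul, one_mul]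
    · rfl
    · exact (Mf.val_fnd (n := 1) k.dim x).congr (.of_forall fun z => congrArg
        (fun w => (chartAt L1 x).symm (w + _)) (funext fun i => congrArg z (Subsingleton.elim _ _)))
  · have m : ∀ c', N.lf (qinc ac e c) (qinc ac e c') ∈ N.Zc j := fun c' =>
      ⟨N.lf_mem _ _, by rw [← h3, (h4 _).1 (mem_range_self c'), zero_div]⟩
    have m' : ∀ c', Quo.mk ac ⟨_, m c'⟩ = c' := fun c' => h.out.qm.qinc_injective e
      ((mk_act (Units.isUnit _) (N.pt_mem _) _).trans (mk_out _))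
    obtain ⟨P, p1, p2⟩ := hp.prj ⟨_, m c⟩
    rw [m'] at p2
    have t := (qinc ac e).continuous.continuousAt.tendsto.comp (R.tends_i c)
    have i0 := R.i_zero c
    refine deriv_ne_of_leftInv (g := fun u => tr1 (chartAt L1 c c)
      (P (N.lf (qinc ac e c) ((chartAt C2 (qinc ac e c)).symm u)))) ((an_tr1 _ _).comp ?_) (h2 c) ?_
    · rw [i0]
      exact p1.comp_of_eq (N.ho_lf _) (congrArg _ (symm_chart _))
    · have t' : Tendsto (fun t => (⟨_, m (R.i c t)⟩ : N.Zc j)) (𝓝 0) (𝓝 ⟨_, m c⟩) :=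
        tendsto_subtype_rng.2 ((N.ho_lf _).continuousAt.tendsto.comp t)
      filter_upwards [t.eventually (Mf.ev_chart (n := 2) _), t'.eventually p2, R.tgt_nhds c]
        with u k1 k2 k3
      rw [m'] at k2
      exact (congrArg _ ((congrArg _ (congrArg _ k1)).trans k2)).trans (R.e_i k3)

end NF

end Vale.Agent.P287Q.D
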