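import Vale.Agent.P287Q.D.St
import Vale.Agent.P287Q.D.Mod0

/-!
# The first Chern class of the line bundle of a character
-/

set_option linter.unusedSectionVars false

namespace Vale.Agent.P287Q.D

open Set Function Topology Filter P291Z P267.FL P269 P269.Tq P269.Holo P269.Mono
open scoped ContDiff Manifold

section gen

variable {A W : Type} [NormedRing A] [NormedAlgebra ℂ A] [NormedAddCommGroup W] [NormedSpace ℂ W]
  [FiniteDimensional ℂ A] [FiniteDimensional ℂ W] {act : A → W → W} {S : Set W} [IsAct act univ]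
  [FP act S] {X : Type} [TopologicalSpace X]

/-- Local continuous lifts `act (g x ·) (p ·)` of a map `u` to the orbit space: the frames
`(c ∘ g x)⁻¹` have the first Chern class `u^* lcq c`. -/
theorem isC1_lcq (u : C(X, Quo act S)) {p : X → W} (hp : ∀ x, p x ∈ S)
    (hu : ∀ x, u x = Quo.mk act ⟨p x, hp x⟩) {g : X → X → A} (hg : ∀ x y, IsUnit (g x y))
    (g1 : ∀ x, g x x = 1)
    (hc : ∀ x, ∀ᶠ y in 𝓝 x, ContinuousAt (fun z => act (g x z) (p z)) y) {c : A → ℂ} (hm : Hm c)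
    {φ : X → X → ℂ} (hφ : ∀ x y, c (g x y) = (φ x y)⁻¹) : IsC1 φ (H.map u (lcq act S c)) := by
  have h1 : ∀ x, (hg x x).unit = 1 := fun x => Units.ext (g1 x)
  refine ⟨sp act S, hm.ρ, fun x y => (hg x y).unit • Sp.of act (p y) (hp y), u,
    fun a t e => FP.free t a e, fun x => (hc x).mono fun y k =>
      Sp.isEmbedding_val.isInducing.continuousAt_iff.2 k, fun z => ?_, fun x z =>
      ⟨(hg x z).unit, ?_, hφ x z⟩, congrArg _ (lce_val hm).symm⟩
  · exact (Sp.mk_smul _ _).trans (hu z).symm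
  · simp only [h1, one_smul]

end gen

theorem Lcq.hm1 : Hm (Prod.fst : ℂ × ℂ → ℂ) := ⟨rfl, fun _ _ _ _ => rfl, fun _ _ => continuousAt_fst⟩

theorem Lcq.hm2 : Hm (Prod.snd : ℂ × ℂ → ℂ) := ⟨rfl, fun _ _ _ _ => rfl, fun _ _ => continuousAt_snd⟩

theorem Lcq.unit_of {N : NF} {a : ℂ × ℂ} {z : W7} (h : ac a z ∈ N.Z) : IsUnit a := by
  have := h.1
  rw [yy_ac] at this
  exact unit_iff.2 (mul_ne_zero_iff.1 (left_ne_zero_of_smul this))

namespace Md

variable {X : Type} [TopologicalSpace X] [ChartedSpace C2 X] {N : NF} {A B : SB X} {p : X → W7}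
  (h : Md N A B p)

theorem lcq_unit (A B : SB X) (x y : X) : IsUnit ((A.φ x y)⁻¹, (B.φ x y)⁻¹) :=
  unit_iff.2 ⟨inv_ne_zero (A.ne x y), inv_ne_zero (B.ne x y)⟩

include h in
theorem lcq_mem (x y : X) : ac ((A.φ x y)⁻¹, (B.φ x y)⁻¹) (p y) ∈ N.Z :=
  NF.ac_mem (inv_ne_zero (A.ne x y)) (inv_ne_zero (B.ne x y)) (h.mem y)

/-- The identification of `X` with the orbit space. -/
noncomputable def u : C(X, Quo ac N.Z) :=
  ⟨fun x => Quo.mk ac ⟨p x, h.mem x⟩, continuous_iff_continuousAt.2 fun x => by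
    have h1 : ContinuousAt (fun y => Quo.mk ac (⟨_, h.lcq_mem x y⟩ : N.Z)) x :=
      continuous_mk.continuousAt.comp
        (IsEmbedding.subtypeVal.isInducing.continuousAt_iff.2 (h.hol x).continuousAt)
    exact h1.congr (.of_forall fun y => mk_act (lcq_unit A B x y) (h.mem y) _)⟩

theorem u_apply (x : X) : h.u x = Quo.mk ac ⟨p x, h.mem x⟩ := rfl

theorem u_bij : Bijective h.u := by
  refine ⟨fun x y e => ?_, fun z => ?_⟩
  · obtain ⟨a, -, k⟩ := QMA.mk_eq e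
    exact h.inj x y a k
  · obtain ⟨z, rfl⟩ := mk_surj z
    obtain ⟨x, a, e⟩ := h.surj z z.2
    obtain ⟨z, hz⟩ := z
    obtain rfl : z = _ := e
    exact ⟨x, (mk_act (Lcq.unit_of hz) (h.mem x) hz).symm⟩

variable [IsManifold 𝓘(ℂ, C2) ω X] [FP ac N.Z]

/-- **The bundles of the characters.** -/
theorem isC1 {c : ℂ × ℂ → ℂ} (hm : Hm c) {M : SB X}
    (e : ∀ x y, c ((A.φ x y)⁻¹, (B.φ x y)⁻¹) = (M.φ x y)⁻¹) :
    IsC1 M.φ (H.map h.u (lcq ac N.Z c)) :=
  isC1_lcq h.u h.mem h.u_apply (lcq_unit A B) (fun x => by simp [A.self, B.self, Prod.ext_iff])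
    (fun x => (h.hol x).eventually.mono fun _ k => k.continuousAt) hm e

theorem isC1_A : IsC1 A.φ (H.map h.u (lcq ac N.Z Prod.fst)) := h.isC1 Lcq.hm1 fun _ _ => rfl

theorem isC1_B : IsC1 B.φ (H.map h.u (lcq ac N.Z Prod.snd)) := h.isC1 Lcq.hm2 fun _ _ => rfl

theorem isC1_AB : IsC1 (A * B).φ (H.map h.u (lcq ac N.Z Prod.fst + lcq ac N.Z Prod.snd)) :=
  lcq_mul (act := ac) (S := N.Z) Lcq.hm1 Lcq.hm2 ▸
    h.isC1 (Lcq.hm1.mul' Lcq.hm2) fun _ _ => (mul_inv _ _).symm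

end Md

section quo

variable {N : NF} [ChartedSpace C2 (Quo ac N.Z)] [IsManifold 𝓘(ℂ, C2) ω (Quo ac N.Z)]
  [FP ac N.Z] {A B : SB (Quo ac N.Z)} {p : Quo ac N.Z → W7} (h : Md N A B p)
  (e : ∀ x, Quo.mk ac ⟨p x, h.mem x⟩ = x)
include e

theorem Md.map_u (c : H (Quo ac N.Z)) : H.map h.u c = c := H.map_id e c

theorem Md.isC1_A' : IsC1 A.φ (lcq ac N.Z Prod.fst) :=
  (congrArg (IsC1 A.φ) (h.map_u e _)).mp h.isC1_A

theorem Md.isC1_B' : IsC1 B.φ (lcq ac N.Z Prod.snd) :=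
  (congrArg (IsC1 B.φ) (h.map_u e _)).mp h.isC1_B

end quo

end Vale.Agent.P287Q.D
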