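import Vale.Agent.P287Q.D.Line1
import Mathlib.RingTheory.MvPolynomial.EulerIdentity

/-!
# Coordinates adapted to a good line on a smooth cubic fourfold
-/

noncomputable section

namespace Vale.Agent.P287Q.D

open ContinuousLinearMap

variable {T : Tri}

/-- No plane of the cubic passes through a point all of whose lines are of the first type. -/
theorem Cub.no_plane (h : Cub T) {p q y : V6} (hr : Rg T p) (hi : Ind3 p q y) (hl : Ln T p q)
    (h0 : Psi T p q y 0 0 = 0) {α β γ : Fin 3 → ℂ}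
    (e1 : ∀ v, T p y v = α 0 * T p p v + α 1 * T p q v + α 2 * T q q v)
    (e2 : ∀ v, T q y v = β 0 * T p p v + β 1 * T p q v + β 2 * T q q v)
    (e3 : ∀ v, T y y v = γ 0 * T p p v + γ 1 * T p q v + γ 2 * T q q v) : False := by
  have a0 : T p p y = 0 := by simpa [Psi] using congrFun h0 0
  have a1 : T p q y = 0 := by simpa [Psi] using congrFun h0 1
  have a2 : T q q y = 0 := by simpa [Psi] using congrFun h0 2
  have a3 : T p y y = 0 := by simpa [Psi] using congrFun h0 3
  have a4 : T q y y = 0 := by simpa [Psi] using congrFun h0 4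
  have a5 : T y y y = 0 := by simpa [Psi] using congrFun h0 5
  obtain ⟨s, hs⟩ : ∃ s : ℂ, (s + α 1) * (s ^ 2 + 2 * s * β 2 + γ 2) -
      α 2 * (2 * s * β 1 + γ 1) = 0 := by
    open Polynomial in
    obtain ⟨s, hs⟩ := IsAlgClosed.exists_root (p := (X ^ 3 + C (2 * β 2 + α 1) * X ^ 2 +
      C (γ 2 + 2 * α 1 * β 2 - 2 * α 2 * β 1) * X + C (α 1 * γ 2 - α 2 * γ 1) : ℂ[X]))
      (ne_of_eq_of_ne (b := 3) (by compute_degree!) (by decide))
    refine ⟨s, ?_⟩
    simp only [Polynomial.IsRoot.def, Polynomial.eval_add, Polynomial.eval_mul, Polynomial.eval_pow,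
      Polynomial.eval_X, Polynomial.eval_C] at hs
    linear_combination hs
  have x1 : ∀ v, T p (s • q + y) v = s * T p q v + T p y v := fun v => by simp
  have x2 : ∀ v, T (s • q + y) (s • q + y) v = s ^ 2 * T q q v + 2 * s * T q y v + T y y v :=
    fun v => by simp [h.s12 y q]; ring
  have hf : F1 T p (s • q + y) := hr _ (fun a b e => by
      obtain ⟨e1, -, e3⟩ := hi a (b * s) b (by rw [← e]; module)
      exact ⟨e1, e3⟩)
    ⟨hl.1, by simp [hl.2.1, a0], by simp [hl.2.2.1, a1, a3, h.s23 p y q], by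
      rw [x2]; simp [hl.2.2.2, a2, a4, a5, h.s23 q y q, h.s13 y y q]⟩
  have b1 := (hf (α 2 * (2 * s * β 0 + γ 0) - (s ^ 2 + 2 * s * β 2 + γ 2) * α 0)
    (s ^ 2 + 2 * s * β 2 + γ 2) (-α 2) fun v => by
      rw [x1, x2, e1, e2, e3]; linear_combination T p q v * hs).2.2
  have b2 := (hf ((s + α 1) * (2 * s * β 0 + γ 0) - (2 * s * β 1 + γ 1) * α 0)
    (2 * s * β 1 + γ 1) (-(s + α 1)) fun v => by
      rw [x1, x2, e1, e2, e3]; linear_combination -T q q v * hs).2.2
  exact one_ne_zero (hf (-α 0) 1 0 fun v => by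
    rw [x1, e1]; linear_combination -T p q v * b2 - T q q v * b1).2.1

theorem ind3_iff {x w y : V6} : Ind3 x w y ↔ LinearIndependent ℂ ![x, w, y] := by
  rw [Fintype.linearIndependent_iff]
  refine ⟨fun h g e i => ?_, fun h r s t e => ?_⟩
  · obtain ⟨a, b, c⟩ := h (g 0) (g 1) (g 2) (by simpa [Fin.sum_univ_three] using e)
    fin_cases i
    exacts [a, b, c]
  · have := h ![r, s, t] (by simpa [Fin.sum_univ_three] using e)
    exact ⟨this 0, this 1, this 2⟩

theorem Ind3.ind {x w y : V6} (h : Ind3 x w y) : Ind x w := fun s t e =>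
  ⟨(h s t 0 (by simpa using e)).1, (h s t 0 (by simpa using e)).2.1⟩

theorem Cub.np (h : Cub T) {p q y : V6} (hr : Rg T p) (hi : Ind3 p q y) (hl : Ln T p q)
    (h0 : Psi T p q y 0 0 = 0) : False := by
  have a0 : T p p y = 0 := by simpa [Psi] using congrFun h0 0
  have a1 : T p q y = 0 := by simpa [Psi] using congrFun h0 1
  have a2 : T q q y = 0 := by simpa [Psi] using congrFun h0 2
  have a3 : T p y y = 0 := by simpa [Psi] using congrFun h0 3
  have a4 : T q y y = 0 := by simpa [Psi] using congrFun h0 4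
  have a5 : T y y y = 0 := by simpa [Psi] using congrFun h0 5
  have hf := (hr q hi.ind hl).surj
  have h1 : Module.finrank ℂ (LinearMap.ker (q3 T p q)) = 3 := by
    have := (q3 T p q).finrank_range_add_finrank_ker
    rw [LinearMap.range_eq_top.2 hf, finrank_top, Module.finrank_fin_fun,
      Module.finrank_fin_fun] at this
    exact Nat.add_left_cancel (this.trans (rfl : 6 = 3 + 3))
  have h2 : Submodule.span ℂ (Set.range ![p, q, y]) = LinearMap.ker (q3 T p q) := by
    refine Submodule.eq_of_le_of_finrank_eq (Submodule.span_le.2 ?_)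
      (by rw [finrank_span_eq_card (ind3_iff.1 hi), h1]; rfl)
    rintro _ ⟨i, rfl⟩
    refine funext fun j => ?_
    fin_cases i <;> fin_cases j <;>
      simp [q3, hl.1, hl.2.1, hl.2.2.1, hl.2.2.2, h.s23 p q p, h.s13 q q p, a0, a1, a2]
  choose u hu using fun i => hf (Pi.single i 1)
  have key : ∀ f : V6 →L[ℂ] ℂ, f p = 0 → f q = 0 → f y = 0 → ∀ v,
      f v = f (u 0) * T p p v + f (u 1) * T p q v + f (u 2) * T q q v := fun f f1 f2 f3 v => by
    have b1 : LinearMap.ker (q3 T p q) ≤ LinearMap.ker f.toLinearMap := by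
      rw [← h2, Submodule.span_le]
      rintro _ ⟨i, rfl⟩
      fin_cases i
      exacts [f1, f2, f3]
    have b2 : f (v - (T p p v • u 0 + T p q v • u 1 + T q q v • u 2)) = 0 := b1 (by
      simp only [LinearMap.mem_ker, map_sub, map_add, map_smul, hu]
      funext j
      fin_cases j <;> simp [q3])
    simp only [map_sub, map_add, map_smul, smul_eq_mul] at b2
    linear_combination b2
  exact h.no_plane hr hi hl h0 (α := ![_, _, _]) (β := ![_, _, _]) (γ := ![_, _, _])
    (key (T p y) (by rw [h.s23, a0]) (by rw [h.s23, a1]) a3)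
    (key (T q y) (by rw [h.s23, h.s12, a1]) (by rw [h.s23, a2]) a4)
    (key (T y y) (by rw [h.s13, a3]) (by rw [h.s13, a4]) a5)

/-- The curve of the lines through `p` is smooth. -/
theorem Cub.sm_fib (h : Cub T) {p q y : V6} (hr : Rg T p) (hi : Ind3 p q y) (hl : Ln T p q)
    {a b : Fin 3 → ℂ} (ha : a ≠ 0) (ha0 : a 0 = 0) (h0 : Psi T p q y a b = 0) (c : Fin 6 → ℂ) :
    ∃ y' b', dPsi T p q y a b 0 0 y' 0 b' = c := by
  have a0 : T p p y = 0 := by simpa [Psi, ha0] using congrFun h0 0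
  have a1 : 2 * T p q y = a 1 * b 0 := by simpa [Psi, ha0, sub_eq_zero] using congrFun h0 1
  have a2 : T q q y = a 1 * b 1 := by simpa [Psi, sub_eq_zero] using congrFun h0 2
  have a3 : T p y y = a 2 * b 0 := by simpa [Psi, ha0, sub_eq_zero] using congrFun h0 3
  have a4 : T q y y = a 1 * b 2 + a 2 * b 1 := by simpa [Psi, sub_eq_zero] using congrFun h0 4
  have a5 : T y y y = 3 * (a 2 * b 2) := by simpa [Psi, sub_eq_zero] using congrFun h0 5
  have hn : a 1 ≠ 0 ∨ a 2 ≠ 0 := (ne3 ha).resolve_left (not_not.2 ha0)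
  have x1 : ∀ v, T p (a 1 • y - a 2 • q) v = a 1 * T p y v - a 2 * T p q v := fun v => by simp
  have x2 : ∀ v, T (a 1 • y - a 2 • q) (a 1 • y - a 2 • q) v =
      a 1 ^ 2 * T y y v - 2 * a 1 * a 2 * T q y v + a 2 ^ 2 * T q q v :=
    fun v => by simp [h.s12 y q]; ring
  have hf : F1 T p (a 1 • y - a 2 • q) := hr _ (fun s t e => by
      obtain ⟨e1, e2, e3⟩ := hi s (-(t * a 2)) (t * a 1) (by rw [← e]; module)
      refine ⟨e1, hn.elim (mul_eq_zero.1 e3).resolve_right
        (mul_eq_zero.1 (neg_eq_zero.1 e2)).resolve_right⟩)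
    ⟨hl.1, by simp [hl.2.1, a0], by
      rw [x1]
      simp only [map_sub, map_smul, smul_eq_mul, hl.2.2.1, a3, h.s23 p y q]
      linear_combination -(a 1 * a 2) * a1, by
      rw [x2]
      simp only [map_sub, map_smul, smul_eq_mul, hl.2.2.2, a2, a4, a5, h.s23 q y q, h.s13 y y q]
      ring⟩
  let L : V6 × (Fin 3 → ℂ) →ₗ[ℂ] Fin 6 → ℂ :=
    { toFun := fun v => dPsi T p q y a b 0 0 v.1 0 v.2
      map_add' := fun v w => funext fun i => by fin_cases i <;> simp [dPsi] <;> ring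
      map_smul' := fun s w => funext fun i => by fin_cases i <;> simp [dPsi] <;> ring }
  refine (surj_of_dual L (fun d hd => ?_) c).elim fun v hv => ⟨v.1, v.2, hv⟩
  have hd' : ∀ v w, ∑ i, d i * dPsi T p q y a b 0 0 v 0 w i = 0 := fun v w => hd (v, w)
  simp only [Fin.sum_univ_six, dPsi] at hd'
  have n0 : d 1 * a 1 + d 3 * a 2 = 0 := by
    have := hd' 0 ![1, 0, 0]; simp [ha0] at this; linear_combination -this
  have n1 : d 2 * a 1 + d 4 * a 2 = 0 := by
    have := hd' 0 ![0, 1, 0]; simp [ha0] at this; linear_combination -this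
  have n2 : d 4 * a 1 + 3 * d 5 * a 2 = 0 := by
    have := hd' 0 ![0, 0, 1]; simp [ha0] at this; linear_combination -this
  have r : ∀ v, d 0 * T p p v + 2 * d 1 * T p q v + d 2 * T q q v + 2 * d 3 * T p y v +
      2 * d 4 * T q y v + 3 * d 5 * T y y v = 0 := fun v => by
    have := hd' v 0; simp at this; linear_combination this
  have z : d 0 = 0 ∧ d 1 = 0 ∧ d 2 = 0 ∧ d 3 = 0 ∧ d 4 = 0 ∧ d 5 = 0 := by
    rcases hn with hn | hn
    · obtain ⟨k0, k1, k2⟩ := hf (a 1 ^ 2 * d 0) (2 * a 1 * d 3) (3 * d 5) fun v => by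
        rw [x1, x2]
        linear_combination a 1 ^ 2 * r v - 2 * a 1 * T p q v * n0 - 2 * a 1 * T q y v * n2 -
          T q q v * (a 1 * n1 - a 2 * n2)
      have z5 : d 5 = 0 := by simpa using k2
      have z3 : d 3 = 0 := by simpa [hn] using k1
      have z4 : d 4 = 0 := by simpa [hn, z5] using n2
      exact ⟨by simpa [hn] using k0, by simpa [hn, z3] using n0, by simpa [hn, z4] using n1, z3,
        z4, z5⟩
    · obtain ⟨k0, k1, k2⟩ := hf (a 2 ^ 2 * d 0) (-(2 * a 2 * d 1)) (d 2) fun v => by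
        rw [x1, x2]
        linear_combination a 2 ^ 2 * r v - 2 * a 2 * T p y v * n0 - 2 * a 2 * T q y v * n1 -
          T y y v * (a 2 * n2 - a 1 * n1)
      have z1 : d 1 = 0 := by simpa [hn] using k1
      have z4 : d 4 = 0 := by simpa [hn, k2] using n1
      exact ⟨by simpa [hn] using k0, z1, k2, by simpa [hn, z1] using n0, z4,
        by simpa [hn, z4] using n2⟩
  funext i
  fin_cases i
  exacts [z.1, z.2.1, z.2.2.1, z.2.2.2.1, z.2.2.2.2.1, z.2.2.2.2.2]

/-- `p, q` span a good line and `ι` is an adapted complement. -/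
structure Gd (T : Tri) (p q : V6) (ι : (Fin 4 → ℂ) →L[ℂ] V6) : Prop where
  inj : ∀ (s t : ℂ) y, s • p + t • q + ι y = 0 → s = 0 ∧ t = 0 ∧ y = 0
  surj : ∀ v, ∃ (s t : ℂ) (y : Fin 4 → ℂ), v = s • p + t • q + ι y
  ln : Ln T p q
  rg : Rg T p
  n0 : ∀ y, T p p (ι y) = y 0
  n1 : ∀ y, 2 * T p q (ι y) = y 1
  n2 : ∀ y, T q q (ι y) = y 2
  np : ∀ y, Psi T p q (ι y) 0 0 = 0 → y = 0
  sm : ∀ y a b, y ≠ 0 → Psi T p q (ι y) a b = 0 →
    ∀ c, ∃ y' a' b', dPsi T p q (ι y) a b 0 0 (ι y') a' b' = c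
  sc : ∀ y a b, y ≠ 0 → Psi T p q (ι y) a b = 0 → a 0 = 0 →
    ∀ c, ∃ y' a' b', a' 0 = 0 ∧ dPsi T p q (ι y) a b 0 0 (ι y') a' b' = c

theorem Cub.dPsi_shear (h : Cub T) {p q y : V6} (hl : Ln T p q) {a b : Fin 3 → ℂ}
    (h0 : Psi T p q y a b = 0) (s t : ℂ) (y' : V6) (a' b' : Fin 3 → ℂ) :
    dPsi T p q y a b 0 0 (s • p + t • q + y') a' b' = dPsi T p q y a b 0 0 y'
      (a' - ![0, 0, s * a 0 + t * a 1]) (b' - ![0, 0, s * b 0 + t * b 1]) := by
  have a0 : T p p y = a 0 * b 0 := by simpa [Psi, sub_eq_zero] using congrFun h0 0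
  have a1 : 2 * T p q y = a 0 * b 1 + a 1 * b 0 := by simpa [Psi, sub_eq_zero] using congrFun h0 1
  have a2 : T q q y = a 1 * b 1 := by simpa [Psi, sub_eq_zero] using congrFun h0 2
  have a3 : T p y y = a 0 * b 2 + a 2 * b 0 := by simpa [Psi, sub_eq_zero] using congrFun h0 3
  have a4 : T q y y = a 1 * b 2 + a 2 * b 1 := by simpa [Psi, sub_eq_zero] using congrFun h0 4
  funext i
  fin_cases i
  · simp [dPsi, hl.1, hl.2.1]
  · simp [dPsi, hl.2.1, hl.2.2.1, h.s23 p q p]
  · simp [dPsi, hl.2.2.1, hl.2.2.2, h.s13 q q p]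
  · simp [dPsi, h.s23 p y p, h.s23 p y q, a0]; linear_combination t * a1
  · simp [dPsi, h.s23 q y p, h.s23 q y q, a2, h.s12 q p]; linear_combination s * a1
  · simp [dPsi, h.s13 y y p, h.s13 y y q, a3, a4]; ring

theorem Cub.gd_of (h : Cub T) {p q w : V6} (hi : Ind3 p q w) (hl : Ln T p q) (hr : Rg T p)
    (hs : Sm T p q) (w0 : T p p w = 0) (w1 : T p q w = 0) (w2 : T q q w = 0) :
    ∃ ι, Gd T p q ι ∧ ι ![0, 0, 0, 1] = w := by
  have hf := hr q hi.ind hl
  have w3 : q3 T p q w = 0 := funext fun i => by fin_cases i; exacts [w0, w1, w2]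
  obtain ⟨v0, e0⟩ := hf.surj ![1, 0, 0]
  obtain ⟨v1, e1⟩ := hf.surj ![0, 1 / 2, 0]
  obtain ⟨v2, e2⟩ := hf.surj ![0, 0, 1]
  let ι : (Fin 4 → ℂ) →L[ℂ] V6 := (proj 0).smulRight v0 + (proj 1).smulRight v1 +
    (proj 2).smulRight v2 + (proj 3).smulRight w
  have hι : ∀ y, ι y = y 0 • v0 + y 1 • v1 + y 2 • v2 + y 3 • w := fun _ => rfl
  have hq : ∀ y, q3 T p q (ι y) = ![y 0, y 1 / 2, y 2] := fun y => by
    simp only [hι, map_add, map_smul, e0, e1, e2, w3]
    funext i
    fin_cases i <;> simp [div_eq_mul_inv]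
  have n0 : ∀ y, T p p (ι y) = y 0 := fun y => congrFun (hq y) 0
  have n1 : ∀ y, 2 * T p q (ι y) = y 1 := fun y => by
    rw [show T p q (ι y) = y 1 / 2 from congrFun (hq y) 1]; ring
  have n2 : ∀ y, T q q (ι y) = y 2 := fun y => congrFun (hq y) 2
  have inj : ∀ (s t : ℂ) y, s • p + t • q + ι y = 0 → s = 0 ∧ t = 0 ∧ y = 0 := fun s t y e => by
    have b0 : y 0 = 0 := by simpa [hl.1, hl.2.1, n0] using congrArg (T p p) e
    have b1 : y 1 = 0 := by
      have := congrArg (T p q) e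
      simp [hl.2.1, hl.2.2.1, h.s23 p q p] at this
      rw [← n1 y, this, mul_zero]
    have b2 : y 2 = 0 := by simpa [hl.2.2.1, hl.2.2.2, h.s13 q q p, n2] using congrArg (T q q) e
    simp only [hι, b0, b1, b2, zero_smul, zero_add] at e
    obtain ⟨b4, b5, b3⟩ := hi s t _ e
    exact ⟨b4, b5, funext fun i => by fin_cases i; exacts [b0, b1, b2, b3]⟩
  have surj : ∀ v, ∃ (s t : ℂ) (y : Fin 4 → ℂ), v = s • p + t • q + ι y := fun v => by
    let M : (ℂ × ℂ) × (Fin 4 → ℂ) →ₗ[ℂ] V6 :=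
      ((LinearMap.toSpanSingleton ℂ _ p).coprod (.toSpanSingleton ℂ _ q)).coprod ι.toLinearMap
    obtain ⟨z, hz⟩ := (LinearMap.injective_iff_surjective_of_finrank_eq_finrank (f := M)
      (by simp)).1 ((injective_iff_map_eq_zero M).2 fun z e => by
        obtain ⟨b1, b2, b3⟩ := inj z.1.1 z.1.2 z.2 e
        exact Prod.ext (Prod.ext b1 b2) b3) v
    exact ⟨_, _, _, hz.symm⟩
  have i3 : ∀ y, y ≠ 0 → Ind3 p q (ι y) := fun y hy r s t e => by
    obtain ⟨b1, b2, b3⟩ := inj r s (t • y) (by rwa [map_smul])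
    exact ⟨b1, b2, (smul_eq_zero.1 b3).resolve_right hy⟩
  have np : ∀ y, Psi T p q (ι y) 0 0 = 0 → y = 0 := fun y h0 =>
    by_contra fun hy => h.np hr (i3 y hy) hl h0
  have na : ∀ y a b, y ≠ 0 → Psi T p q (ι y) a b = 0 → a ≠ 0 := by
    rintro y a b hy h0 rfl
    exact hy (np y (by simpa [Psi] using h0))
  refine ⟨ι, ⟨inj, surj, hl, hr, n0, n1, n2, np, fun y a b hy h0 c => ?_,
    fun y a b hy h0 ha c => ?_⟩, by simp [hι]⟩
  · obtain ⟨y', a', b', e⟩ := hs _ a b (i3 y hy) (na y a b hy h0) h0 c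
    obtain ⟨s, t, z, rfl⟩ := surj y'
    exact ⟨_, _, _, h.dPsi_shear hl h0 s t _ a' b' ▸ e⟩
  · obtain ⟨y', b', e⟩ := h.sm_fib hr (i3 y hy) hl (na y a b hy h0) ha h0 c
    obtain ⟨s, t, z, rfl⟩ := surj y'
    exact ⟨_, _, _, by simp, h.dPsi_shear hl h0 s t _ 0 b' ▸ e⟩

open MvPolynomial hiding ext

theorem pderiv_swap (p : MvPolynomial (Fin 6) ℂ) (a b : Fin 6) :
    pderiv a (pderiv b p) = pderiv b (pderiv a p) := by
  induction p using MvPolynomial.induction_on with
  | C c => simp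
  | add p q h1 h2 => simp [h1, h2]
  | mul_X p i h =>
    have k (a b : Fin 6) : pderiv a (pderiv b (X i : MvPolynomial (Fin 6) ℂ)) = 0 := by
      rw [pderiv_X, Pi.single_apply]
      split_ifs <;> simp
    simp only [Derivation.leibniz, smul_eq_mul, map_add, h, k]
    ring

theorem euler {G : MvPolynomial (Fin 6) ℂ} {n : ℕ} (hG : G.IsHomogeneous n) (x : V6) :
    ∑ i, x i * eval x (pderiv i G) = n * eval x G := by
  simpa using congrArg (eval x) hG.sum_X_mul_pderiv

/-- **The polar form** of a smooth cubic form. -/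
theorem exists_tri {F : MvPolynomial (Fin 6) ℂ} (hF : F.IsHomogeneous 3)
    (hs : ∀ z : V6, (∀ i, eval z (pderiv i F) = 0) → z = 0) :
    ∃ T, Cub T ∧ (∀ x, eval x F = T x x x) ∧
      ∀ x v, ∑ j, v j * eval x (pderiv j F) = 3 * T x x v := by
  let t : Fin 6 → Fin 6 → Fin 6 → ℂ := fun i j k => eval 0 (pderiv i (pderiv j (pderiv k F))) / 6
  let T : Tri := LinearMap.toContinuousLinearMap (Fintype.linearCombination ℂ fun i =>
    LinearMap.toContinuousLinearMap (Fintype.linearCombination ℂ fun j =>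
      LinearMap.toContinuousLinearMap (Fintype.linearCombination ℂ (t i j))))
  have hT : ∀ x y z, T x y z = ∑ i, ∑ j, ∑ k, t i j k * (x i * (y j * z k)) := fun x y z => by
    simp only [T, LinearMap.coe_toContinuousLinearMap', Fintype.linearCombination_apply, sum_apply,
      smul_apply, smul_eq_mul, Finset.mul_sum]
    exact Finset.sum_congr rfl fun _ _ => Finset.sum_congr rfl fun _ _ =>
      Finset.sum_congr rfl fun _ _ => by ring
  have c0 : ∀ i j k x, eval x (pderiv i (pderiv j (pderiv k F))) = 6 * t i j k := fun i j k x => by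
    have h0 : (pderiv i (pderiv j (pderiv k F))).IsHomogeneous 0 := hF.pderiv.pderiv.pderiv
    rw [totalDegree_eq_zero_iff_eq_C.1 ((totalDegree_zero_iff_isHomogeneous _).2 h0)]
    simp only [t, eval_C, eval_zero, constantCoeff_eq]
    ring
  have d : ∀ x v, ∑ j, v j * eval x (pderiv j F) = 3 * T x x v := fun x v => by
    have c1 : ∀ j k, eval x (pderiv j (pderiv k F)) = ∑ i, x i * (6 * t i j k) := fun j k => by
      have := euler (n := 1) (hF.pderiv (i := k)).pderiv x (G := pderiv j (pderiv k F))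
      simpa [c0] using this.symm
    have c2 : ∀ k, 2 * eval x (pderiv k F) = ∑ j, x j * ∑ i, x i * (6 * t i j k) := fun k => by
      have := euler (n := 2) (hF.pderiv (i := k)) x
      simpa [c1] using this.symm
    rw [hT, Finset.sum_comm, Finset.sum_congr rfl fun j _ => Finset.sum_comm, Finset.sum_comm,
      Finset.mul_sum]
    refine Finset.sum_congr rfl fun k _ => ?_
    have : ∑ j, ∑ i, t i j k * (x i * (x j * v k)) = v k / 6 * ∑ j, x j * ∑ i, x i * (6 * t i j k) := by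
      simp only [Finset.mul_sum]
      exact Finset.sum_congr rfl fun j _ => Finset.sum_congr rfl fun i _ => by ring
    rw [this, ← c2]
    ring
  refine ⟨T, ⟨fun x y => ?_, fun x y z => ?_, fun x hx => hs x fun i => ?_⟩, fun x => ?_, d⟩
  · ext1 z
    rw [hT, hT, Finset.sum_comm]
    refine Finset.sum_congr rfl fun i _ => Finset.sum_congr rfl fun j _ =>
      Finset.sum_congr rfl fun k _ => ?_
    simp only [t, pderiv_swap _ j i]
    ring
  · rw [hT, hT]
    refine Finset.sum_congr rfl fun i _ => Finset.sum_comm.trans (Finset.sum_congr rfl fun j _ =>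
      Finset.sum_congr rfl fun k _ => ?_)
    simp only [t, pderiv_swap F k j]
    ring
  · simpa [hx, Pi.single_apply] using d x (Pi.single i 1)
  · have := (euler hF x).symm.trans (d x x)
    simpa using this

end Vale.Agent.P287Q.D
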