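import Vale.Agent.P297.H572.Half.Zero
import Mathlib.Analysis.Complex.Polynomial.Basic
import Mathlib.Analysis.Normed.Operator.Bilinear
import Mathlib.Algebra.QuadraticDiscriminant
import Mathlib.LinearAlgebra.Dual.Lemmas

/-!
# Lines on a smooth cubic: linear algebra
-/

namespace Vale.Agent.P287Q.D

open Function

/-- the ambient space -/
abbrev V6 : Type := Fin 6 → ℂ

/-- trilinear forms -/
abbrev Tri : Type := V6 →L[ℂ] V6 →L[ℂ] V6 →L[ℂ] ℂ

/-- `T` is the polar form of a smooth cubic form. -/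
structure Cub (T : Tri) : Prop where
  s12 : ∀ x y, T x y = T y x
  s23 : ∀ x y z, T x y z = T x z y
  sm : ∀ x, T x x = 0 → x = 0

/-- two independent vectors -/
def Ind (x w : V6) : Prop := ∀ s t : ℂ, s • x + t • w = 0 → s = 0 ∧ t = 0

/-- the line through `x` and `w` lies on the cubic -/
def Ln (T : Tri) (x w : V6) : Prop := T x x x = 0 ∧ T x x w = 0 ∧ T x w w = 0 ∧ T w w w = 0

/-- the line is of the first type -/
def F1 (T : Tri) (x w : V6) : Prop :=
  ∀ α β γ : ℂ, (∀ v, α * T x x v + β * T x w v + γ * T w w v = 0) → α = 0 ∧ β = 0 ∧ γ = 0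

/-- all lines through `x` are of the first type -/
def Rg (T : Tri) (x : V6) : Prop := ∀ w, Ind x w → Ln T x w → F1 T x w

theorem surj_of_dual {E : Type*} [AddCommGroup E] [Module ℂ E] {n : ℕ} (L : E →ₗ[ℂ] Fin n → ℂ)
    (h : ∀ c : Fin n → ℂ, (∀ v, ∑ i, c i * L v i = 0) → c = 0) : Surjective L := by
  by_contra hc
  obtain ⟨f, hf, hle⟩ := Submodule.exists_le_ker_of_lt_top (LinearMap.range L)
    (lt_top_iff_ne_top.2 fun e => hc (LinearMap.range_eq_top.1 e))
  have key : ∀ y, f y = ∑ i, f (fun j => if i = j then 1 else 0) * y i := fun y => by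
    rw [LinearMap.pi_apply_eq_sum_univ]
    exact Finset.sum_congr rfl fun i _ => mul_comm _ _
  have := h (fun i => f fun j => if i = j then 1 else 0) fun v =>
    (key _).symm.trans (hle ⟨v, rfl⟩)
  refine hf (LinearMap.ext fun y => ?_)
  rw [key]
  exact Finset.sum_eq_zero fun i _ => by rw [congrFun this i]; exact zero_mul _

variable {T : Tri}

theorem Cub.s13 (h : Cub T) (x y z : V6) : T x y z = T z y x := by
  rw [h.s12, h.s23, h.s12, h.s23]

theorem Ind.left {x w : V6} (h : Ind x w) : x ≠ 0 := fun e => by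
  simpa using (h 1 0 (by simp [e])).1

theorem Ind.right {x w : V6} (h : Ind x w) : w ≠ 0 := fun e => by
  simpa using (h 0 1 (by simp [e])).2

theorem Cub.sq (h : Cub T) {x w : V6} (hi : Ind x w) {α β γ : ℂ} (hq : β ^ 2 = α * γ)
    (hr : ∀ v, α * T x x v + 2 * β * T x w v + γ * T w w v = 0) : α = 0 ∧ β = 0 ∧ γ = 0 := by
  have h1 : T (α • x + β • w) (α • x + β • w) = 0 := by
    ext1 v
    simp only [map_add, map_smul, add_apply, smul_apply,
      smul_eq_mul, h.s12 w x, zero_apply]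
    linear_combination α * hr v + T w w v * hq
  obtain ⟨rfl, rfl⟩ := hi _ _ (h.sm _ h1)
  refine ⟨rfl, rfl, by_contra fun hγ => hi.right (h.sm w ?_)⟩
  ext1 v
  exact (mul_eq_zero.1 (by simpa using hr v)).resolve_left hγ

/-- the normal bundle of a line has no first cohomology (dual form) -/
theorem Cub.k2 (h : Cub T) {x w : V6} (hi : Ind x w) {c₀ c₁ c₂ c₃ : ℂ}
    (r₁ : ∀ v, c₀ * T x x v + 2 * c₁ * T x w v + c₂ * T w w v = 0)
    (r₂ : ∀ v, c₁ * T x x v + 2 * c₂ * T x w v + c₃ * T w w v = 0) :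
    c₀ = 0 ∧ c₁ = 0 ∧ c₂ = 0 ∧ c₃ = 0 := by
  have h1 : c₁ ^ 2 = c₀ * c₂ := by
    by_contra hne
    obtain ⟨ν, hν⟩ := exists_quadratic_eq_zero (a := c₁ ^ 2 - c₀ * c₂) (b := c₀ * c₃ - c₁ * c₂)
      (c := c₂ ^ 2 - c₁ * c₃) (sub_ne_zero.2 hne) (IsAlgClosed.exists_eq_mul_self _)
    obtain ⟨a1, a2, -⟩ := h.sq hi (α := c₁ - ν * c₀) (β := c₂ - ν * c₁) (γ := c₃ - ν * c₂)
      (by linear_combination hν) fun v => by linear_combination r₂ v - ν * r₁ v
    exact hne (by linear_combination c₁ * a1 - c₀ * a2)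
  obtain ⟨rfl, rfl, rfl⟩ := h.sq hi h1 r₁
  exact ⟨rfl, rfl, rfl, (h.sq hi (α := 0) (β := 0) (by simp) r₂).2.2⟩

/-- three independent vectors -/
def Ind3 (x w y : V6) : Prop := ∀ r s t : ℂ, r • x + s • w + t • y = 0 → r = 0 ∧ s = 0 ∧ t = 0

theorem Cub.k3 (h : Cub T) {p q r : V6} (hi : Ind3 p q r) {a₀ a₁ a₂ : ℂ} (ha : a₀ ≠ 0)
    {c000 c001 c002 c011 c012 c022 c111 c112 c122 c222 : ℂ}
    (d00 : c000 * a₀ + c001 * a₁ + c002 * a₂ = 0) (d01 : c001 * a₀ + c011 * a₁ + c012 * a₂ = 0)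
    (d02 : c002 * a₀ + c012 * a₁ + c022 * a₂ = 0) (d11 : c011 * a₀ + c111 * a₁ + c112 * a₂ = 0)
    (d12 : c012 * a₀ + c112 * a₁ + c122 * a₂ = 0) (d22 : c022 * a₀ + c122 * a₁ + c222 * a₂ = 0)
    (r₁ : ∀ v, c001 * T p p v + 2 * c011 * T p q v + 2 * c012 * T p r v + c111 * T q q v +
      2 * c112 * T q r v + c122 * T r r v = 0)
    (r₂ : ∀ v, c002 * T p p v + 2 * c012 * T p q v + 2 * c022 * T p r v + c112 * T q q v +
      2 * c122 * T q r v + c222 * T r r v = 0) :
    (c000 = 0 ∧ c001 = 0 ∧ c002 = 0 ∧ c011 = 0 ∧ c012 = 0 ∧ c022 = 0) ∧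
      c111 = 0 ∧ c112 = 0 ∧ c122 = 0 ∧ c222 = 0 := by
  have h1 : Ind (a₀ • q - a₁ • p) (a₀ • r - a₂ • p) := fun s t e => by
    obtain ⟨-, b1, b2⟩ := hi (-(s * a₁ + t * a₂)) (s * a₀) (t * a₀) (by rw [← e]; module)
    exact ⟨(mul_eq_zero.1 b1).resolve_right ha, (mul_eq_zero.1 b2).resolve_right ha⟩
  obtain ⟨rfl, rfl, rfl, rfl⟩ := h.k2 h1 (c₀ := c111) (c₁ := c112) (c₂ := c122) (c₃ := c222)
    (fun v => by
      simp only [map_sub, map_smul, sub_apply, smul_apply,
        smul_eq_mul, h.s12 q p, h.s12 r p]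
      linear_combination a₀ ^ 2 * r₁ v - T p p v * (a₀ * d01 - a₁ * d11 - a₂ * d12) -
        2 * a₀ * T p q v * d11 - 2 * a₀ * T p r v * d12)
    (fun v => by
      simp only [map_sub, map_smul, sub_apply, smul_apply,
        smul_eq_mul, h.s12 q p, h.s12 r p]
      linear_combination a₀ ^ 2 * r₂ v - T p p v * (a₀ * d02 - a₁ * d12 - a₂ * d22) -
        2 * a₀ * T p q v * d12 - 2 * a₀ * T p r v * d22)
  have z : ∀ c : ℂ, c * a₀ = 0 → c = 0 := fun c e => (mul_eq_zero.1 e).resolve_right ha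
  obtain rfl := z c011 (by linear_combination d11)
  obtain rfl := z c012 (by linear_combination d12)
  obtain rfl := z c022 (by linear_combination d22)
  obtain rfl := z c001 (by linear_combination d01)
  obtain rfl := z c002 (by linear_combination d02)
  obtain rfl := z c000 (by linear_combination d00)
  simp

/-- the variety of triangles is smooth over the lines of the first type (dual form) -/
theorem Cub.k10 (h : Cub T) {p q r : V6} (hi : Ind3 p q r) (hf : F1 T p q) {a₀ a₁ a₂ : ℂ}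
    (ha : a₀ ≠ 0 ∨ a₁ ≠ 0 ∨ a₂ ≠ 0) {c000 c001 c002 c011 c012 c022 c111 c112 c122 c222 : ℂ}
    (d02 : c002 * a₀ + c012 * a₁ + c022 * a₂ = 0) (d12 : c012 * a₀ + c112 * a₁ + c122 * a₂ = 0)
    (d22 : c022 * a₀ + c122 * a₁ + c222 * a₂ = 0)
    (r₀ : ∀ v, c000 * T p p v + 2 * c001 * T p q v + 2 * c002 * T p r v + c011 * T q q v +
      2 * c012 * T q r v + c022 * T r r v = 0)
    (r₁ : ∀ v, c001 * T p p v + 2 * c011 * T p q v + 2 * c012 * T p r v + c111 * T q q v +
      2 * c112 * T q r v + c122 * T r r v = 0)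
    (r₂ : ∀ v, c002 * T p p v + 2 * c012 * T p q v + 2 * c022 * T p r v + c112 * T q q v +
      2 * c122 * T q r v + c222 * T r r v = 0) :
    (c000 = 0 ∧ c001 = 0 ∧ c002 = 0 ∧ c011 = 0 ∧ c012 = 0 ∧ c022 = 0) ∧
      c111 = 0 ∧ c112 = 0 ∧ c122 = 0 ∧ c222 = 0 := by
  obtain ⟨d00, d01, d11⟩ := hf (c000 * a₀ + c001 * a₁ + c002 * a₂)
    (2 * (c001 * a₀ + c011 * a₁ + c012 * a₂)) (c011 * a₀ + c111 * a₁ + c112 * a₂) fun v => by
      linear_combination a₀ * r₀ v + a₁ * r₁ v + a₂ * r₂ v - 2 * T p r v * d02 -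
        2 * T q r v * d12 - T r r v * d22
  replace d01 : c001 * a₀ + c011 * a₁ + c012 * a₂ = 0 := by linear_combination d01 / 2
  rcases ha with ha | ha | ha
  · exact h.k3 hi ha d00 d01 d02 d11 d12 d22 r₁ r₂
  · have := h.k3 (p := q) (q := p) (r := r) (a₀ := a₁) (a₁ := a₀) (a₂ := a₂)
      (fun a b c e => by
        obtain ⟨e1, e2, e3⟩ := hi b a c (by rw [← e]; module)
        exact ⟨e2, e1, e3⟩) ha
      (c000 := c111) (c001 := c011) (c002 := c112) (c011 := c001) (c012 := c012) (c022 := c122)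
      (c111 := c000) (c112 := c002) (c122 := c022) (c222 := c222)
      (by linear_combination d11) (by linear_combination d01) (by linear_combination d12)
      (by linear_combination d00) (by linear_combination d02) (by linear_combination d22)
      (fun v => by rw [h.s12 q p]; linear_combination r₀ v)
      (fun v => by rw [h.s12 q p]; linear_combination r₂ v)
    tauto
  · have := h.k3 (p := r) (q := q) (r := p) (a₀ := a₂) (a₁ := a₁) (a₂ := a₀)
      (fun a b c e => by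
        obtain ⟨e1, e2, e3⟩ := hi c b a (by rw [← e]; module)
        exact ⟨e3, e2, e1⟩) ha
      (c000 := c222) (c001 := c122) (c002 := c022) (c011 := c112) (c012 := c012) (c022 := c002)
      (c111 := c111) (c112 := c011) (c122 := c001) (c222 := c000)
      (by linear_combination d22) (by linear_combination d12) (by linear_combination d02)
      (by linear_combination d11) (by linear_combination d01) (by linear_combination d00)
      (fun v => by rw [h.s12 r q, h.s12 r p, h.s12 q p]; linear_combination r₁ v)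
      (fun v => by rw [h.s12 r q, h.s12 r p, h.s12 q p]; linear_combination r₀ v)
    tauto

/-- polynomial functions -/
def Pl (f : V6 → ℂ) : Prop := ∃ p : MvPolynomial (Fin 6) ℂ, ∀ w, MvPolynomial.aeval w p = f w

theorem Pl.step {E : Type} [NormedAddCommGroup E] [NormedSpace ℂ E] (l : V6 →L[ℂ] E)
    (g : V6 → E →L[ℂ] ℂ) (h : ∀ e, Pl fun w => g w e) : Pl fun w => g w (l w) := by
  choose p hp using h
  refine ⟨∑ i, MvPolynomial.X i * p (l fun j => if i = j then 1 else 0), fun w => ?_⟩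
  have := l.toLinearMap.pi_apply_eq_sum_univ w
  simp only [ContinuousLinearMap.coe_coe] at this
  simp only [map_sum, map_mul, MvPolynomial.aeval_X, hp, this, map_smul, smul_eq_mul]

theorem Pl.lin (l : V6 →L[ℂ] ℂ) : Pl l :=
  Pl.step l (fun _ => .id ℂ ℂ) fun e => ⟨MvPolynomial.C e, fun _ => by simp⟩

theorem Pl.bil (B : V6 →L[ℂ] V6 →L[ℂ] ℂ) : Pl fun w => B w w :=
  Pl.step (.id ℂ V6) (fun w => B w) fun e => Pl.lin (B.flip e)

theorem Pl.tri (T : Tri) : Pl fun w => T w w w :=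
  Pl.step (.id ℂ V6) (fun w => T w w) fun e =>
    Pl.step (.id ℂ V6) (fun w => (T w).flip e) fun e' => Pl.lin ((T.flip e').flip e)

theorem exists_zero {k : ℕ} (hk : k < 6) (f : Fin k → V6 → ℂ) (hf : ∀ i, Pl (f i))
    (h0 : ∀ i, f i 0 = 0) : ∃ v, v ≠ 0 ∧ ∀ i, f i v = 0 := by
  choose p hp using hf
  obtain ⟨v, h1, h2⟩ := P297.H572.Half.common_zero (k := ℂ) (by simpa using hk) p
    fun i => (hp i 0).trans (h0 i)
  exact ⟨v, h1, fun i => (hp i v).symm.trans (h2 i)⟩

theorem exists_pt (T : Tri) : ∃ x, x ≠ 0 ∧ T x x x = 0 :=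
  (exists_zero (k := 1) (by omega) (fun _ w => T w w w) (fun _ => Pl.tri T) (by simp)).imp
    fun _ h => ⟨h.1, h.2 0⟩

theorem exists_ln (T : Tri) {x : V6} (hx : x ≠ 0) (h0 : T x x x = 0) : ∃ w, Ind x w ∧ Ln T x w := by
  obtain ⟨j, hj⟩ := Function.ne_iff.1 hx
  obtain ⟨w, h1, h2⟩ := exists_zero (k := 4) (by omega)
    ![T x x, fun w => T x w w, fun w => T w w w, fun w => w j]
    (fun i => by
      fin_cases i
      exacts [Pl.lin _, Pl.bil _, Pl.tri _, Pl.lin (.proj j)])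
    (fun i => by fin_cases i <;> simp)
  refine ⟨w, fun s t e => ?_, h0, h2 0, h2 1, h2 2⟩
  have h3 : w j = 0 := h2 3
  have h4 : s = 0 := by simpa [h3, show x j ≠ 0 from hj] using congrFun e j
  exact ⟨h4, by simpa [h4, h1] using e⟩

end Vale.Agent.P287Q.D
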