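import Vale.Agent.P287Q.D.Line0
import Vale.Agent.P287Q.D.Sard

/-!
# A general line on a smooth cubic fourfold
-/

noncomputable section

namespace Vale.Agent.P287Q.D

open Function Filter MeasureTheory Topology ContinuousLinearMap

section hd

variable {Z W W' : Type} [NormedAddCommGroup Z] [NormedSpace ℂ Z] [NormedAddCommGroup W]
  [NormedSpace ℂ W] [NormedAddCommGroup W'] [NormedSpace ℂ W'] {z : Z}

/-- `f` is analytic at `z` with differential `d`. -/
def HD (f : Z → W) (z : Z) (d : Z → W) : Prop := AnalyticAt ℂ f z ∧ ∀ v, fderiv ℂ f z v = d v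

theorem HD.of {f : Z → W} {D : Z →L[ℂ] W} {d : Z → W} (h : AnalyticAt ℂ f z)
    (h' : HasFDerivAt f D z) (e : ∀ v, D v = d v) : HD f z d := ⟨h, fun v => h'.fderiv ▸ e v⟩

theorem HD.has {f d : Z → W} (h : HD f z d) : HasFDerivAt f (fderiv ℂ f z) z :=
  h.1.differentiableAt.hasFDerivAt

theorem HD.congr {f d d' : Z → W} (h : HD f z d) (e : ∀ v, d v = d' v) : HD f z d' :=
  ⟨h.1, fun v => (h.2 v).trans (e v)⟩

theorem HD.lin (l : Z →L[ℂ] W) : HD l z l := .of (l.analyticAt z) l.hasFDerivAt fun _ => rfl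

theorem HD.add {f d g e : Z → W} (h : HD f z d) (h' : HD g z e) :
    HD (fun z => f z + g z) z fun v => d v + e v :=
  .of (h.1.add h'.1) (h.has.add h'.has) fun v => by rw [← h.2, ← h'.2]; rfl

theorem HD.sub {f d g e : Z → W} (h : HD f z d) (h' : HD g z e) :
    HD (fun z => f z - g z) z fun v => d v - e v :=
  .of (h.1.sub h'.1) (h.has.sub h'.has) fun v => by rw [← h.2, ← h'.2]; rfl

theorem HD.mul {f d g e : Z → ℂ} (h : HD f z d) (h' : HD g z e) :
    HD (fun z => f z * g z) z fun v => d v * g z + f z * e v :=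
  .of (h.1.mul h'.1) (h.has.mul h'.has) fun v => by
    rw [← h.2, ← h'.2]; simp only [add_apply, smul_apply, smul_eq_mul]; ring

theorem HD.cmul {f d : Z → ℂ} (c : ℂ) (h : HD f z d) : HD (fun z => c * f z) z fun v => c * d v :=
  .of (analyticAt_const.mul h.1) (h.has.const_mul c) fun v => by rw [← h.2]; rfl

theorem HD.prod {f d : Z → W} {g e : Z → W'} (h : HD f z d) (h' : HD g z e) :
    HD (fun z => (f z, g z)) z fun v => (d v, e v) :=
  .of (h.1.prod h'.1) (h.has.prodMk h'.has) fun v => by rw [← h.2, ← h'.2]; rfl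

theorem HD.pi {ι : Type} [Fintype ι] {f d : Z → ι → ℂ}
    (h : ∀ i, HD (fun z => f z i) z fun v => d v i) : HD f z d :=
  .of (AnalyticAt.pi fun i => (h i).1) (hasFDerivAt_pi.2 fun i => (h i).has)
    fun v => funext fun i => (h i).2 v

theorem HD.comp {f d : W → W'} (l : Z →L[ℂ] W) (h : HD f (l z) d) :
    HD (fun z => f (l z)) z fun v => d (l v) :=
  .of (h.1.comp (l.analyticAt z)) (h.has.comp z l.hasFDerivAt) fun v => h.2 (l v)

theorem HD.smul {f d : Z → ℂ} {g e : Z → W} (h : HD f z d) (h' : HD g z e) :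
    HD (fun z => f z • g z) z fun v => d v • g z + f z • e v :=
  .of (h.1.smul h'.1) (h.has.smul h'.has) fun v => by
    rw [← h.2, ← h'.2, add_comm]; rfl

theorem HD.comp' {f d : W → W'} {g e : Z → W} (h : HD f (g z) d) (h' : HD g z e) :
    HD (fun z => f (g z)) z fun v => d (e v) :=
  .of (h.1.comp h'.1) (h.has.comp z h'.has) fun v => by rw [← h.2, ← h'.2]; rfl

theorem HD.tri {T : Tri} (h : Cub T) (f g k : Z →L[ℂ] V6) :
    HD (fun z => T (f z) (g z) (k z)) z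
      fun v => T (g z) (k z) (f v) + T (f z) (k z) (g v) + T (f z) (g z) (k v) := by
  have h1 : ContDiff ℂ ⊤ fun z => T (f z) (g z) (k z) :=
    ((T.contDiff.comp f.contDiff).clm_apply g.contDiff).clm_apply k.contDiff
  refine .of h1.contDiffAt.analyticAt
    (((T.comp f).hasFDerivAt.clm_apply g.hasFDerivAt).clm_apply k.hasFDerivAt) fun v => ?_
  simp only [add_apply, flip_apply, coe_comp, Function.comp]
  rw [h.s13 (f v), h.s12 (k z), h.s23 (f z) (g v)]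
  ring

end hd

theorem surj_of_dual₂ {E : Type*} [AddCommGroup E] [Module ℂ E] {m n : ℕ}
    (L : E →ₗ[ℂ] (Fin m → ℂ) × (Fin n → ℂ))
    (h : ∀ (c : Fin m → ℂ) (d : Fin n → ℂ),
      (∀ v, ∑ i, c i * (L v).1 i + ∑ i, d i * (L v).2 i = 0) → c = 0 ∧ d = 0) : Surjective L := by
  let e : ((Fin m → ℂ) × (Fin n → ℂ)) ≃ₗ[ℂ] (Fin (m + n) → ℂ) :=
    { Fin.appendEquiv m n with
      map_add' := fun x y => funext fun i => by cases i using Fin.addCases <;> simp
      map_smul' := fun x y => funext fun i => by cases i using Fin.addCases <;> simp }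
  have := surj_of_dual (e.toLinearMap.comp L) fun c hc => by
    obtain ⟨h1, h2⟩ := h (fun i => c (.castAdd n i)) (fun i => c (.natAdd m i)) fun v => by
      simpa [Fin.sum_univ_add, e] using hc v
    funext i
    cases i using Fin.addCases
    exacts [congrFun h1 _, congrFun h2 _]
  exact (e.toEquiv.comp_surjective L).1 this

theorem exists_compl {E W : Type} [NormedAddCommGroup E] [NormedSpace ℂ E] [FiniteDimensional ℂ E]
    [AddCommGroup W] [Module ℂ W] (L : E →ₗ[ℂ] W) (hL : Surjective L)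
    {m : ℕ} (hm : Module.finrank ℂ W + m = Module.finrank ℂ E) :
    ∃ ρ : E →L[ℂ] Fin m → ℂ, ∀ w t, ∃ v, L v = w ∧ ρ v = t := by
  let K := LinearMap.ker L
  have h1 : Module.finrank ℂ K = m := by
    have := L.finrank_range_add_finrank_ker
    rw [LinearMap.range_eq_top.2 hL, finrank_top] at this
    exact Nat.add_left_cancel (this.trans hm.symm)
  obtain ⟨κ, hκ⟩ := LinearMap.exists_leftInverse_of_injective K.subtype K.ker_subtype
  have hκ' : ∀ k : K, κ k = k := fun k => LinearMap.congr_fun hκ k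
  let b := (Module.finBasisOfFinrankEq ℂ K h1).equivFun
  refine ⟨LinearMap.toContinuousLinearMap (b.toLinearMap.comp κ), fun w t => ?_⟩
  obtain ⟨v, hv⟩ := hL w
  refine ⟨v + (b.symm t - κ v : K), ?_, ?_⟩
  · rw [map_add, hv, show L (b.symm t - κ v : K) = 0 from (b.symm t - κ v : K).2, add_zero]
  · change b (κ (v + (b.symm t - κ v : K))) = t
    rw [map_add, hκ', add_sub_cancel, b.apply_symm_apply]

variable {T : Tri}

/-- the equations of the lines -/
def Phi (T : Tri) (e : V6 × V6) : Fin 4 → ℂ :=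
  ![T e.1 e.1 e.1, T e.1 e.1 e.2, T e.1 e.2 e.2, T e.2 e.2 e.2]

/-- their differential -/
def dPhi (T : Tri) (e v : V6 × V6) : Fin 4 → ℂ :=
  ![3 * T e.1 e.1 v.1, 2 * T e.1 e.2 v.1 + T e.1 e.1 v.2, T e.2 e.2 v.1 + 2 * T e.1 e.2 v.2,
    3 * T e.2 e.2 v.2]

theorem phi_zero {e : V6 × V6} : Phi T e = 0 ↔ Ln T e.1 e.2 :=
  ⟨fun h => ⟨congrFun h 0, congrFun h 1, congrFun h 2, congrFun h 3⟩,
    fun ⟨a, b, c, d⟩ => by simp [Phi, a, b, c, d]⟩

theorem Cub.hd_phi (h : Cub T) (e : V6 × V6) : HD (Phi T) e (dPhi T e) := by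
  refine .pi fun i => ?_
  fin_cases i
  · exact (HD.tri h (fst ℂ V6 V6) (fst ℂ V6 V6) (fst ℂ V6 V6)).congr fun v => by
      simp [dPhi]; ring
  · exact (HD.tri h (fst ℂ V6 V6) (fst ℂ V6 V6) (snd ℂ V6 V6)).congr fun v => by
      simp [dPhi]; ring
  · exact (HD.tri h (fst ℂ V6 V6) (snd ℂ V6 V6) (snd ℂ V6 V6)).congr fun v => by
      simp [dPhi]; ring
  · exact (HD.tri h (snd ℂ V6 V6) (snd ℂ V6 V6) (snd ℂ V6 V6)).congr fun v => by
      simp [dPhi]; ring

theorem Cub.surj_phi (h : Cub T) {e : V6 × V6} (hi : Ind e.1 e.2) :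
    Surjective (fderiv ℂ (Phi T) e) := by
  refine surj_of_dual (fderiv ℂ (Phi T) e).toLinearMap fun c hc => ?_
  have hc' : ∀ v, ∑ i, c i * dPhi T e v i = 0 := fun v => (h.hd_phi e).2 v ▸ hc v
  obtain ⟨a0, a1, a2, a3⟩ := h.k2 hi (c₀ := 3 * c 0) (c₁ := c 1) (c₂ := c 2) (c₃ := 3 * c 3)
    (fun v => by have := hc' (v, 0); simp [Fin.sum_univ_four, dPhi] at this; linear_combination this)
    (fun v => by have := hc' (0, v); simp [Fin.sum_univ_four, dPhi] at this; linear_combination this)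
  funext i
  fin_cases i
  exacts [by simpa using a0, a1, a2, by simpa using a3]

theorem Cub.ae_rg (h : Cub T) (ρ : V6 →L[ℂ] Fin 5 → ℂ) :
    ∀ᵐ t : Fin 5 → ℂ, ∀ x, ρ x = t → Rg T x := by
  filter_upwards [sard_zero (U := {e : V6 × V6 | Ind e.1 e.2}) (G := Phi T)
    (T := ρ.comp (fst ℂ V6 V6)) (fun e _ => (h.hd_phi e).1) (fun e _ => (ρ.comp _).analyticAt e)
    fun e he _ => h.surj_phi he] with t ht x hx w hi hl
  have h1 : ∀ c τ, ∃ v, dPhi T (x, w) v = c ∧ ρ v.1 = τ := fun c τ => by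
    obtain ⟨v, hv⟩ := ht (x, w) hi (phi_zero.2 hl) hx (c, τ)
    simp only [(h.hd_phi _).2, ContinuousLinearMap.fderiv, Prod.mk.injEq] at hv
    exact ⟨v, hv⟩
  have h2 : Injective ((T x x).toLinearMap.prod ρ.toLinearMap) := by
    refine (LinearMap.injective_iff_surjective_of_finrank_eq_finrank (by simp)).2 fun c => ?_
    obtain ⟨v, a1, a2⟩ := h1 ![3 * c.1, 0, 0, 0] c.2
    exact ⟨v.1, Prod.ext (by simpa [dPhi] using congrFun a1 0) a2⟩
  have h3 : ∀ c₁ c₂ c₃ : ℂ, ∃ v, T x x v = c₁ ∧ 2 * T x w v = c₂ ∧ 3 * T w w v = c₃ := by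
    intro c₁ c₂ c₃
    obtain ⟨v, a1, a2⟩ := h1 ![0, c₁, c₂, c₃] 0
    have a3 : v.1 = 0 := (injective_iff_map_eq_zero _).1 h2 _
      (Prod.ext (by simpa [dPhi] using congrFun a1 0) a2)
    exact ⟨v.2, by simpa [dPhi, a3] using congrFun a1 1, by simpa [dPhi, a3] using congrFun a1 2,
      by simpa [dPhi, a3] using congrFun a1 3⟩
  intro α β γ hr
  obtain ⟨v, a1, a2, a3⟩ := h3 1 0 0
  obtain ⟨v', b1, b2, b3⟩ := h3 0 1 0
  obtain ⟨v'', c1, c2, c3⟩ := h3 0 0 1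
  exact ⟨by linear_combination hr v - α * a1 - β / 2 * a2 - γ / 3 * a3,
    by linear_combination 2 * hr v' - 2 * α * b1 - β * b2 - 2 * γ / 3 * b3,
    by linear_combination 3 * hr v'' - 3 * α * c1 - 3 * β / 2 * c2 - γ * c3⟩

theorem Cub.surj_xx (h : Cub T) {x : V6} (hx : x ≠ 0) : Surjective (T x x).toLinearMap :=
  LinearMap.surjective_iff_ne_zero.2 fun e => hx (h.sm x (ContinuousLinearMap.coe_injective e))

theorem Cub.exists_rg (h : Cub T) : ∃ x, x ≠ 0 ∧ T x x x = 0 ∧ Rg T x := by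
  obtain ⟨x, hx, h0⟩ := exists_pt T
  obtain ⟨ρ, hρ⟩ := exists_compl _ (h.surj_xx hx) (m := 5) (by simp)
  have h1 := HD.tri (z := x) h (.id ℂ V6) (.id ℂ V6) (.id ℂ V6)
  obtain ⟨t, ⟨y, a1, a2, a3⟩, a4⟩ := exists_of_ae (open_zero h1.1 (ρ.analyticAt x) h0 (fun c => by
    obtain ⟨v, b1, b2⟩ := hρ (c.1 / 3) c.2
    refine ⟨v, Prod.ext ?_ (by simpa using b2)⟩
    have : T x x v = c.1 / 3 := b1
    refine (h1.2 v).trans ?_
    simp only [id_apply, this]
    ring) (isOpen_ne.mem_nhds hx)) (h.ae_rg ρ)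
  exact ⟨y, a1, a2, a4 y a3⟩

/-- the three quadrics along a line -/
def q3 (T : Tri) (x w : V6) : V6 →ₗ[ℂ] Fin 3 → ℂ :=
  LinearMap.pi ![(T x x).toLinearMap, (T x w).toLinearMap, (T w w).toLinearMap]

theorem F1.surj {x w : V6} (h : F1 T x w) : Surjective (q3 T x w) :=
  surj_of_dual _ fun c hc => by
    obtain ⟨a, b, d⟩ := h (c 0) (c 1) (c 2) fun v => by simpa [q3, Fin.sum_univ_three] using hc v
    funext i
    fin_cases i
    exacts [a, b, d]

/-- the residual conic in the plane `p, q, y` is the product of the linear forms `a`, `b` -/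
def Psi (T : Tri) (p q y : V6) (a b : Fin 3 → ℂ) : Fin 6 → ℂ :=
  ![T p p y - a 0 * b 0, 2 * T p q y - (a 0 * b 1 + a 1 * b 0), T q q y - a 1 * b 1,
    T p y y - (a 0 * b 2 + a 2 * b 0), T q y y - (a 1 * b 2 + a 2 * b 1), T y y y - 3 * (a 2 * b 2)]

/-- the differential -/
def dPsi (T : Tri) (p q y : V6) (a b : Fin 3 → ℂ) (p' q' y' : V6) (a' b' : Fin 3 → ℂ) : Fin 6 → ℂ :=
  ![2 * T p y p' + T p p y' - (a' 0 * b 0 + a 0 * b' 0),
    2 * (T q y p' + T p y q' + T p q y') - (a' 0 * b 1 + a 0 * b' 1 + (a' 1 * b 0 + a 1 * b' 0)),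
    2 * T q y q' + T q q y' - (a' 1 * b 1 + a 1 * b' 1),
    T y y p' + 2 * T p y y' - (a' 0 * b 2 + a 0 * b' 2 + (a' 2 * b 0 + a 2 * b' 0)),
    T y y q' + 2 * T q y y' - (a' 1 * b 2 + a 1 * b' 2 + (a' 2 * b 1 + a 2 * b' 1)),
    3 * T y y y' - 3 * (a' 2 * b 2 + a 2 * b' 2)]

/-- the total space -/
abbrev Z1 : Type := (V6 × V6) × V6 × (Fin 3 → ℂ) × (Fin 3 → ℂ)

theorem Cub.hd_psi (h : Cub T) (z : Z1) :
    HD (fun z : Z1 => Psi T z.1.1 z.1.2 z.2.1 z.2.2.1 z.2.2.2) z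
      fun v => dPsi T z.1.1 z.1.2 z.2.1 z.2.2.1 z.2.2.2 v.1.1 v.1.2 v.2.1 v.2.2.1 v.2.2.2 := by
  let p : Z1 →L[ℂ] V6 := (fst ℂ _ _).comp (fst ℂ _ _)
  let q : Z1 →L[ℂ] V6 := (snd ℂ _ _).comp (fst ℂ _ _)
  let y : Z1 →L[ℂ] V6 := (fst ℂ _ _).comp (snd ℂ _ _)
  let a : Fin 3 → Z1 →L[ℂ] ℂ := fun i =>
    (proj i).comp ((fst ℂ _ _).comp ((snd ℂ _ _).comp (snd ℂ _ _)))
  let b : Fin 3 → Z1 →L[ℂ] ℂ := fun i =>
    (proj i).comp ((snd ℂ _ _).comp ((snd ℂ _ _).comp (snd ℂ _ _)))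
  have m := fun i j => (HD.lin (z := z) (a i)).mul (HD.lin (b j))
  refine .pi fun i => ?_
  fin_cases i
  · exact ((HD.tri h p p y).sub (m 0 0)).congr fun v => by simp [dPsi, p, y, a, b]; ring
  · exact (((HD.tri h p q y).cmul 2).sub ((m 0 1).add (m 1 0))).congr fun v => by
      simp [dPsi, p, q, y, a, b]
  · exact ((HD.tri h q q y).sub (m 1 1)).congr fun v => by simp [dPsi, q, y, a, b]; ring
  · exact ((HD.tri h p y y).sub ((m 0 2).add (m 2 0))).congr fun v => by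
      simp [dPsi, p, y, a, b]; ring
  · exact ((HD.tri h q y y).sub ((m 1 2).add (m 2 1))).congr fun v => by
      simp [dPsi, q, y, a, b]; ring
  · exact ((HD.tri h y y y).sub ((m 2 2).cmul 3)).congr fun v => by simp [dPsi, y, a, b]; ring

/-- The surface of the lines that meet the line `p, q` is smooth. -/
def Sm (T : Tri) (p q : V6) : Prop := ∀ y a b, Ind3 p q y → a ≠ 0 → Psi T p q y a b = 0 →
  ∀ c, ∃ y' a' b', dPsi T p q y a b 0 0 y' a' b' = c

theorem Cub.hd_tot (h : Cub T) (z : Z1) :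
    HD (fun z : Z1 => (Phi T z.1, Psi T z.1.1 z.1.2 z.2.1 z.2.2.1 z.2.2.2)) z fun v =>
      (dPhi T z.1 v.1,
        dPsi T z.1.1 z.1.2 z.2.1 z.2.2.1 z.2.2.2 v.1.1 v.1.2 v.2.1 v.2.2.1 v.2.2.2) :=
  ((h.hd_phi z.1).comp (fst ℂ _ _)).prod (h.hd_psi z)

theorem ne3 {a : Fin 3 → ℂ} (h : a ≠ 0) : a 0 ≠ 0 ∨ a 1 ≠ 0 ∨ a 2 ≠ 0 := by
  by_contra! hn
  exact h (funext fun i => by fin_cases i; exacts [hn.1, hn.2.1, hn.2.2])

theorem Cub.surj_tot (h : Cub T) {p q y : V6} {a b : Fin 3 → ℂ} (hf : F1 T p q) (hi : Ind3 p q y)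
    (ha : a ≠ 0) : Surjective (fderiv ℂ
      (fun z : Z1 => (Phi T z.1, Psi T z.1.1 z.1.2 z.2.1 z.2.2.1 z.2.2.2)) ((p, q), y, a, b)) := by
  refine surj_of_dual₂ (fderiv ℂ _ _).toLinearMap fun c d hc => ?_
  have hc' : ∀ v : Z1, ∑ i, c i * dPhi T (p, q) v.1 i +
      ∑ i, d i * dPsi T p q y a b v.1.1 v.1.2 v.2.1 v.2.2.1 v.2.2.2 i = 0 := fun v => by
    have := hc v
    simp only [coe_coe, (h.hd_tot _).2] at this
    exact this
  simp only [Fin.sum_univ_four, Fin.sum_univ_six, dPhi, dPsi] at hc'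
  obtain ⟨⟨k0, k1, k2, k3, k4, k5⟩, k6, k7, k8, k9⟩ := h.k10 hi hf (ne3 ha) (c000 := 3 * c 0)
    (c001 := c 1) (c011 := c 2) (c111 := 3 * c 3) (c002 := d 0) (c012 := d 1) (c112 := d 2)
    (c022 := d 3) (c122 := d 4) (c222 := 3 * d 5)
    (by have := hc' (0, 0, 0, ![1, 0, 0]); simp at this; linear_combination -this)
    (by have := hc' (0, 0, 0, ![0, 1, 0]); simp at this; linear_combination -this)
    (by have := hc' (0, 0, 0, ![0, 0, 1]); simp at this; linear_combination -this)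
    (fun v => by have := hc' ((v, 0), 0); simp at this; linear_combination this)
    (fun v => by have := hc' ((0, v), 0); simp at this; linear_combination this)
    (fun v => by have := hc' (0, v, 0); simp at this; linear_combination this)
  constructor
  · funext i
    fin_cases i
    exacts [by simpa using k0, k1, k3, by simpa using k6]
  · funext i
    fin_cases i
    exacts [k2, k4, k7, k5, k8, by simpa using k9]

theorem Cub.ae_sm (h : Cub T) (R : V6 × V6 →L[ℂ] Fin 8 → ℂ) :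
    ∀ᵐ t : Fin 8 → ℂ, ∀ e, R e = t → Ln T e.1 e.2 → F1 T e.1 e.2 → Sm T e.1 e.2 := by
  filter_upwards [sard_zero
    (U := {z : Z1 | F1 T z.1.1 z.1.2 ∧ Ind3 z.1.1 z.1.2 z.2.1 ∧ z.2.2.1 ≠ 0})
    (T := R.comp (fst ℂ _ _)) (fun z _ => (h.hd_tot z).1) (fun z _ => (R.comp _).analyticAt z)
    fun z hz _ => h.surj_tot hz.1 hz.2.1 hz.2.2] with t ht e he hl hf y a b hi ha h0 c
  have h1 : ∀ c d τ, ∃ v : Z1, dPhi T e v.1 = c ∧
      dPsi T e.1 e.2 y a b v.1.1 v.1.2 v.2.1 v.2.2.1 v.2.2.2 = d ∧ R v.1 = τ := fun c d τ => by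
    obtain ⟨v, hv⟩ := ht (e, y, a, b) ⟨hf, hi, ha⟩ (Prod.ext (phi_zero.2 hl) h0) he ((c, d), τ)
    simp only [(h.hd_tot _).2, ContinuousLinearMap.fderiv, Prod.mk.injEq] at hv
    exact ⟨v, hv.1.1, hv.1.2, hv.2⟩
  have h2 : Injective ((fderiv ℂ (Phi T) e).toLinearMap.prod R.toLinearMap) := by
    refine (LinearMap.injective_iff_surjective_of_finrank_eq_finrank (by simp)).2 fun c => ?_
    obtain ⟨v, a1, -, a2⟩ := h1 c.1 0 c.2
    exact ⟨v.1, Prod.ext (((h.hd_phi e).2 _).trans a1) a2⟩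
  obtain ⟨v, a1, a2, a3⟩ := h1 0 c 0
  have a4 : v.1 = 0 := (injective_iff_map_eq_zero _).1 h2 _
    (Prod.ext (((h.hd_phi e).2 _).trans a1) a3)
  rw [a4] at a2
  exact ⟨_, _, _, a2⟩

theorem ind_iff {x w : V6} : Ind x w ↔ LinearIndependent ℂ ![x, w] :=
  LinearIndependent.pair_iff.symm

end Vale.Agent.P287Q.D
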