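import Vale.Agent.P287Q.D.TDefs
import Vale.Agent.P287Q.D.Mod0

/-!
# The residual conic: algebraic lemmas
-/

namespace Vale.Agent.P287Q.D

open Set Function Matrix

theorem pt_ne {y : V4} {s : V3} (hy : y ≠ 0) (hs : s ≠ 0) : pt y s ≠ 0 := fun e => hs (by
  have h := Prod.ext_iff.1 e
  funext i
  fin_cases i
  exacts [congrFun h.1 0, congrFun h.1 1, (smul_eq_zero.1 h.2).resolve_right hy])

theorem pt_smul (y : V4) (c : ℂ) (s : V3) : pt y (c • s) = c • pt y s :=
  Prod.ext (by funext i; fin_cases i <;> rfl) (mul_smul _ _ _)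

theorem pt_dP (t : ℂ) (y : V4) (s : V3) : pt (t • y) (dP t s) = t • pt y s :=
  Prod.ext (by funext i; fin_cases i <;> rfl) (smul_comm _ _ _)

theorem pt_act (t c : ℂ) (y : V4) (s : V3) : pt (t • y) (c • dP t s) = (c * t) • pt y s := by
  rw [pt_smul, pt_dP, mul_smul]

theorem an_pt {E : Type} [NormedAddCommGroup E] [NormedSpace ℂ E] {y : E → V4} {s : E → V3} {x : E}
    (hy : AnalyticAt ℂ y x) (hs : AnalyticAt ℂ s x) : AnalyticAt ℂ (fun x => pt (y x) (s x)) x := by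
  refine .prod (analyticAt_pi_iff.2 fun i => ?_) ((analyticAt_pi_iff.1 hs 2).fun_smul hy)
  fin_cases i
  exacts [analyticAt_pi_iff.1 hs 0, analyticAt_pi_iff.1 hs 1]

theorem exists_dual {n : V3} (hn : n ≠ 0) : ∃ m : V3, m ⬝ᵥ n = 1 :=
  let ⟨i, h⟩ := ne_iff.1 hn
  ⟨Pi.single i (n i)⁻¹, by rw [single_dotProduct, inv_mul_cancel₀ h]⟩

theorem cross_cross_n (m a n : V3) :
    crossProduct (crossProduct m a) n = (m ⬝ᵥ n) • a - (n ⬝ᵥ a) • m := by
  funext i
  fin_cases i <;> simp [crossProduct, dotProduct, Fin.sum_univ_three] <;> ring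

theorem exists_cross {n a : V3} (hn : n ≠ 0) (h : n ⬝ᵥ a = 0) : ∃ k, a = crossProduct k n :=
  let ⟨m, e⟩ := exists_dual hn
  ⟨crossProduct m a, by rw [cross_cross_n, e, h, one_smul, zero_smul, sub_zero]⟩

theorem cross_nn (k k' n : V3) : crossProduct (crossProduct k n) (crossProduct k' n) =
    (k ⬝ᵥ crossProduct k' n) • n := by
  funext i
  fin_cases i <;> simp [crossProduct, dotProduct, Fin.sum_univ_three] <;> ring

theorem dot_cross_swap (k k' n : V3) : k' ⬝ᵥ crossProduct k n = -(k ⬝ᵥ crossProduct k' n) := by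
  simp [crossProduct, dotProduct, Fin.sum_univ_three]; ring

/-- two points of a line -/
theorem exists_cross_smul {n a b : V3} (hn : n ≠ 0) (ha : n ⬝ᵥ a = 0) (hb : n ⬝ᵥ b = 0) :
    ∃ u : ℂ, crossProduct a b = u • n := by
  obtain ⟨k, rfl⟩ := exists_cross hn ha
  obtain ⟨k', rfl⟩ := exists_cross hn hb
  exact ⟨_, cross_nn k k' n⟩

theorem exists_smul_of_cross {a b : V3} (ha : a ≠ 0) (h : crossProduct a b = 0) :
    ∃ c : ℂ, b = c • a := by
  obtain ⟨m, e⟩ := exists_dual ha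
  have := cross_cross_n a b m
  rw [h, map_zero, LinearMap.zero_apply, dotProduct_comm a, e, one_smul] at this
  exact ⟨_, sub_eq_zero.1 this.symm⟩

theorem φ3_ac (a : ℂ × ℂ) (z : W7) : φ3 (ac a z) = a.1 • dN (a.1 * a.2) (φ3 z) := by
  funext i
  fin_cases i <;> simp [φ3, ac, ch, dN]
  ring

theorem an_φ3 (z : W7) : AnalyticAt ℂ φ3 z := analyticAt_pi_iff.2 fun i => by
  fin_cases i
  exacts [an_co 0 z, an_co 1 z, an_co 5 z]

theorem χ3_dP (a : ℂ × ℂ) (c : ℂ) (s : V3) :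
    (fun k => c * χ3 k a * s k) = c • dP (a.1 * a.2) s := by
  funext i
  fin_cases i <;> simp [χ3, dP, mul_assoc]

theorem dN_dP (t : ℂ) (n s : V3) : dN t n ⬝ᵥ dP t s = t * n ⬝ᵥ s := by
  simp [dN, dP, dotProduct, Fin.sum_univ_three]; ring

theorem cross_dP (t : ℂ) (a b : V3) :
    crossProduct (dP t a) (dP t b) = t • dN t (crossProduct a b) := by
  funext i
  fin_cases i <;> simp [crossProduct, dN, dP] <;> ring

theorem cross_dN (t : ℂ) (k n : V3) : crossProduct (dN t k) (dN t n) = dP t (crossProduct k n) := by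
  funext i
  fin_cases i <;> simp [crossProduct, dN, dP] <;> ring

namespace NF

variable (N : NF) (y : V4) (s s' s'' : V3) (c : ℂ)

theorem F_pt : N.F (pt y s).1 (pt y s).2 = s 2 * N.pol y s s / 2 := by
  simp only [F, pt, pol, b_smul, c_smul, Pi.smul_apply, smul_eq_mul, cons_val_zero, cons_val_one]
  ring

theorem pol_symm : N.pol y s s' = N.pol y s' s := by simp only [pol]; ring

theorem pol_add : N.pol y (s + s') s'' = N.pol y s s'' + N.pol y s' s'' := by
  simp only [pol, Pi.add_apply]; ring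

theorem pol_add' : N.pol y s (s' + s'') = N.pol y s s' + N.pol y s s'' := by
  simp only [pol, Pi.add_apply]; ring

theorem pol_sub : N.pol y (s - s') s'' = N.pol y s s'' - N.pol y s' s'' := by
  simp only [pol, Pi.sub_apply]; ring

theorem pol_sub' : N.pol y s (s' - s'') = N.pol y s s' - N.pol y s s'' := by
  simp only [pol, Pi.sub_apply]; ring

theorem pol_smul : N.pol y (c • s) s' = c * N.pol y s s' := by
  simp only [pol, Pi.smul_apply, smul_eq_mul]; ring

theorem pol_smul' : N.pol y s (c • s') = c * N.pol y s s' := by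
  simp only [pol, Pi.smul_apply, smul_eq_mul]; ring

theorem pol_zero : N.pol y 0 s = 0 := by simp [pol]

theorem pol_zero' : N.pol y s 0 = 0 := by simp [pol]

theorem pol_dot : N.pol y s s' = (fun i => N.pol y s (Pi.single i 1)) ⬝ᵥ s' := by
  simp [pol, dotProduct, Fin.sum_univ_three]; ring

theorem pol_dP : N.pol (c • y) (dP c s) (dP c s') = c ^ 3 * N.pol y s s' := by
  simp only [pol, b_smul, c_smul]
  simp [dP]; ring

theorem an_pol {E : Type} [NormedAddCommGroup E] [NormedSpace ℂ E] {y : E → V4} {s s' : E → V3}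
    {x : E} (hy : AnalyticAt ℂ y x) (hs : AnalyticAt ℂ s x) (hs' : AnalyticAt ℂ s' x) :
    AnalyticAt ℂ (fun x => N.pol (y x) (s x) (s' x)) x := by
  have a := analyticAt_pi_iff.1 hs
  have b := analyticAt_pi_iff.1 hs'
  have d := analyticAt_pi_iff.1 hy
  have t : AnalyticAt ℂ (fun _ : E => (2 : ℂ)) x := analyticAt_const
  exact (((((((t.mul (a 0)).mul (b 0)).mul (d 0)).add ((((a 0).mul (b 1)).add
    ((a 1).mul (b 0))).mul (d 1))).add (((t.mul (a 1)).mul (b 1)).mul (d 2))).add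
    ((((a 0).mul (b 2)).add ((a 2).mul (b 0))).mul ((N.an_b 0 _).comp hy))).add
    ((((a 1).mul (b 2)).add ((a 2).mul (b 1))).mul ((N.an_b 1 _).comp hy))).add
    (((t.mul (a 2)).mul (b 2)).mul ((N.an_c _).comp hy))

variable {N}

theorem pol_yy {z : W7} (hz : z ∈ N.Z) : N.pol (yy z) s s' =
    φ3 z ⬝ᵥ s * φ3 (sw z) ⬝ᵥ s' + φ3 z ⬝ᵥ s' * φ3 (sw z) ⬝ᵥ s := by
  obtain ⟨-, a, b, c⟩ := mem_Z.1 hz
  rw [pol, a, b, c]
  simp [yy, φ3, sw, dotProduct, Fin.sum_univ_three]; ring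

theorem Good.φ3_ne (h : N.Good) {z : W7} (hz : z ∈ N.Z) : φ3 z ≠ 0 := fun e => by
  rcases h.fst hz with a | a | a
  exacts [a (congrFun e 0), a (congrFun e 1), a (congrFun e 2)]

namespace InN

variable {p : WN} (h : N.InN p)
include h

theorem exists_k : ∃ m m', p.a = crossProduct m p.n ∧ p.b = crossProduct m' p.n ∧ m ⬝ᵥ p.a = 0 ∧
    m' ⬝ᵥ p.b = 0 ∧ m ⬝ᵥ p.b = p.u ∧ m' ⬝ᵥ p.a = -p.u := by
  obtain ⟨m, e⟩ := exists_cross h.n h.na
  obtain ⟨m', e'⟩ := exists_cross h.n h.nb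
  have a := h.u
  rw [e, e', cross_nn, ← e'] at a
  have u := smul_left_injective ℂ h.n a
  exact ⟨m, m', e, e', e ▸ dot_self_cross m p.n, e' ▸ dot_self_cross m' p.n, u, by
    rw [e, dot_cross_swap, ← e', u]⟩

theorem pol_a (k : V3) : N.pol p.y p.a (crossProduct k p.n) = p.v * p.u * k ⬝ᵥ p.a := by
  obtain ⟨m, -, e, -, a, -, b, -⟩ := h.exists_k
  have c := h.v m k
  rw [← e, a, b] at c
  linear_combination c

theorem pol_b (k : V3) : N.pol p.y p.b (crossProduct k p.n) = -(p.v * p.u * k ⬝ᵥ p.b) := by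
  obtain ⟨-, m, -, e, -, a, -, b⟩ := h.exists_k
  have c := h.v m k
  rw [← e, a, b] at c
  linear_combination c

theorem pol_aa : N.pol p.y p.a p.a = 0 := by
  obtain ⟨m, -, e, -, a, -⟩ := h.exists_k
  have c := h.pol_a m
  rwa [← e, a, mul_zero] at c

theorem pol_bb : N.pol p.y p.b p.b = 0 := by
  obtain ⟨-, m, -, e, -, a, -⟩ := h.exists_k
  have c := h.pol_b m
  rwa [← e, a, mul_zero, neg_zero] at c

theorem pol_ab : N.pol p.y p.a p.b = -(p.u ^ 2 * p.v) := by
  obtain ⟨-, m, -, e, -, -, -, a⟩ := h.exists_k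
  have c := h.pol_a m
  rw [← e, a] at c
  linear_combination c

end InN

end NF

end Vale.Agent.P287Q.D
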