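import Vale.Agent.P287Q.D.N1k
import Vale.Agent.P287Q.D.TAux
import Vale.Agent.P287Q.Pv.Prm

/-!
# The fivefold of the correspondence is smooth and the two divisors are transverse
-/

namespace Vale.Agent.P287Q.D

open Set Function Topology Filter Module P269 P269.Holo Matrix

namespace N1

section gen

variable {W B : Type} [NormedAddCommGroup W] [NormedSpace ℂ W] [FiniteDimensional ℂ W]
  [NormedAddCommGroup B] [NormedSpace ℂ B] [FiniteDimensional ℂ B]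

omit [FiniteDimensional ℂ W] [FiniteDimensional ℂ B] in
theorem line {f : W → B} {p : W} (h : AnalyticAt ℂ f p) (w : W) :
    HasDerivAt (fun t : ℂ => f (p + t • w)) (fderiv ℂ f p w) 0 :=
  h.differentiableAt.hasFDerivAt.hasLineDerivAt w

/-- The zero set of a submersion and its tangent space. -/
theorem zero_set {Z : Set W} {Φ : W → B} {p : W} {n : ℕ} (hΦ : AnalyticAt ℂ Φ p) (h0 : Φ p = 0)
    (hs : Surjective (fderiv ℂ Φ p)) (hZ : ∀ᶠ s in 𝓝 p, s ∈ Z ↔ Φ s = 0)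
    (hn : n + finrank ℂ B = finrank ℂ W) :
    MfdAt Z n p ∧ ∀ w, fderiv ℂ Φ p w = 0 → w ∈ tn Z p := by
  have := FiniteDimensional.complete ℂ W
  have h1 : MfdAt Z n p := (MfdAt.univ p).sub hΦ h0 (fun b _ => Submodule.subset_span (by
    obtain ⟨w, rfl⟩ := hs b
    exact ⟨fun t => p + t • w, ⟨by fun_prop, by simp, .of_forall fun _ => trivial⟩,
      (line hΦ w).deriv⟩)) (hZ.mono fun s a => by simpa using a) hn
  refine ⟨h1, fun w hw => ?_⟩
  have h2 : tn Z p = LinearMap.ker (fderiv ℂ Φ p : W →ₗ[ℂ] B) := by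
    refine Submodule.eq_of_le_of_finrank_eq (fun v hv =>
      fderiv_eq_zero h1 hΦ (hZ.mono fun _ a => a.1) hv) ?_
    have h3 := LinearMap.finrank_range_add_finrank_ker (fderiv ℂ Φ p : W →ₗ[ℂ] B)
    rw [LinearMap.range_eq_top.2 hs, finrank_top] at h3
    rw [finrank_tn h1]
    omega
  exact h2 ▸ hw

omit [FiniteDimensional ℂ W] in
theorem dual_surj {ι : Type} [Fintype ι] (L : W →ₗ[ℂ] ι → ℂ) (U : Submodule ℂ W)
    (h : ∀ μ : ι → ℂ, (∀ w ∈ U, μ ⬝ᵥ L w = 0) → μ = 0) (b : ι → ℂ) : ∃ w ∈ U, L w = b := by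
  classical
  by_contra hb
  obtain ⟨f, f1, f2⟩ := Submodule.exists_le_ker_of_notMem (p := U.map L) hb
  have e : ∀ x, f x = (fun i => f (Pi.single i 1)) ⬝ᵥ x := fun x => by
    rw [LinearMap.pi_apply_eq_sum_univ, dotProduct]
    refine Finset.sum_congr rfl fun i _ => ?_
    rw [smul_eq_mul, mul_comm]
    exact congrArg (f · * x i) (funext fun j => by simp [Pi.single_apply, eq_comm])
  refine f1 ?_
  rw [e, h _ fun w hw => (e _).symm.trans (f2 ⟨w, hw, rfl⟩), zero_dotProduct]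

end gen

variable (N : NF) (y : V4)

theorem pol_symm (s s' : V3) : N.pol y s s' = N.pol y s' s := by
  simp only [NF.pol]; ring

theorem pol_add (s t s' : V3) : N.pol y (s + t) s' = N.pol y s s' + N.pol y t s' := by
  simp only [NF.pol, Pi.add_apply]; ring

theorem pol_smul (c : ℂ) (s s' : V3) : N.pol y (c • s) s' = c * N.pol y s s' := by
  simp only [NF.pol, Pi.smul_apply, smul_eq_mul]; ring

theorem pol_add' (s t s' : V3) : N.pol y s' (s + t) = N.pol y s' s + N.pol y s' t := by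
  simp only [NF.pol, Pi.add_apply]; ring

theorem pol_smul' (c : ℂ) (s s' : V3) : N.pol y s' (c • s) = c * N.pol y s' s := by
  simp only [NF.pol, Pi.smul_apply, smul_eq_mul]; ring

theorem pol_zero (s : V3) : N.pol y 0 s = 0 := by simp [NF.pol]

/-- The equations of the conic. -/
noncomputable def Ec (k k' : V3) (p : WN) : ℂ :=
  N.pol p.y (crossProduct k p.n) (crossProduct k' p.n) -
    p.v * (k ⬝ᵥ p.a * k' ⬝ᵥ p.b + k' ⬝ᵥ p.a * k ⬝ᵥ p.b)

/-- Local equations. -/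
noncomputable def Φ (k₁ k₂ e : V3) (p : WN) : Fin 6 → ℂ :=
  ![p.n ⬝ᵥ p.a, p.n ⬝ᵥ p.b, (crossProduct p.a p.b - p.u • p.n) ⬝ᵥ e, Ec N k₁ k₁ p, Ec N k₁ k₂ p,
    Ec N k₂ k₂ p]

theorem an_pol {P : Type} [NormedAddCommGroup P] [NormedSpace ℂ P] {y : P → V4} {s s' : P → V3}
    {p : P} (hy : AnalyticAt ℂ y p) (hs : AnalyticAt ℂ s p) (hs' : AnalyticAt ℂ s' p) :
    AnalyticAt ℂ (fun q => N.pol (y q) (s q) (s' q)) p := by
  have a1 := analyticAt_pi_iff.1 hy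
  have a2 := analyticAt_pi_iff.1 hs
  have a3 := analyticAt_pi_iff.1 hs'
  have b0 : AnalyticAt ℂ (fun q => N.b 0 (y q)) p := (N.an_b 0 _).comp hy
  have b1 : AnalyticAt ℂ (fun q => N.b 1 (y q)) p := (N.an_b 1 _).comp hy
  have b2 : AnalyticAt ℂ (fun q => N.c (y q)) p := (N.an_c _).comp hy
  exact (((((((analyticAt_const.mul (a2 0)).mul (a3 0)).mul (a1 0)).add
    ((((a2 0).mul (a3 1)).add ((a2 1).mul (a3 0))).mul (a1 1))).add
    (((analyticAt_const.mul (a2 1)).mul (a3 1)).mul (a1 2))).add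
    ((((a2 0).mul (a3 2)).add ((a2 2).mul (a3 0))).mul b0)).add
    ((((a2 1).mul (a3 2)).add ((a2 2).mul (a3 1))).mul b1)).add
    (((analyticAt_const.mul (a2 2)).mul (a3 2)).mul b2)

theorem an_dot {P : Type} [NormedAddCommGroup P] [NormedSpace ℂ P] {s s' : P → V3}
    {p : P} (hs : AnalyticAt ℂ s p) (hs' : AnalyticAt ℂ s' p) :
    AnalyticAt ℂ (fun q => s q ⬝ᵥ s' q) p :=
  Finset.analyticAt_fun_sum _ fun i _ => (analyticAt_pi_iff.1 hs i).mul (analyticAt_pi_iff.1 hs' i)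

theorem an_cross {P : Type} [NormedAddCommGroup P] [NormedSpace ℂ P] {s s' : P → V3}
    {p : P} (hs : AnalyticAt ℂ s p) (hs' : AnalyticAt ℂ s' p) :
    AnalyticAt ℂ (fun q => crossProduct (s q) (s' q)) p := by
  have a2 := analyticAt_pi_iff.1 hs
  have a3 := analyticAt_pi_iff.1 hs'
  refine analyticAt_pi_iff.2 fun i => ?_
  fin_cases i
  exacts [((a2 1).mul (a3 2)).sub ((a2 2).mul (a3 1)), ((a2 2).mul (a3 0)).sub ((a2 0).mul (a3 2)),
    ((a2 0).mul (a3 1)).sub ((a2 1).mul (a3 0))]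

theorem an_n (p : WN) : AnalyticAt ℂ WN.n p := analyticAt_fst.comp analyticAt_snd

theorem an_Φ (k₁ k₂ e : V3) (p : WN) : AnalyticAt ℂ (Φ N k₁ k₂ e) p := by
  have y : AnalyticAt ℂ WN.y p := analyticAt_fst
  have n := an_n p
  have s2 : AnalyticAt ℂ (fun q : WN => q.2.2) p := analyticAt_snd.comp analyticAt_snd
  have s3 : AnalyticAt ℂ (fun q : WN => q.2.2.2) p := analyticAt_snd.comp s2
  have s4 : AnalyticAt ℂ (fun q : WN => q.2.2.2.2) p := analyticAt_snd.comp s3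
  have a : AnalyticAt ℂ WN.a p := analyticAt_fst.comp s2
  have b : AnalyticAt ℂ WN.b p := analyticAt_fst.comp s3
  have u : AnalyticAt ℂ WN.u p := analyticAt_fst.comp s4
  have v : AnalyticAt ℂ WN.v p := analyticAt_snd.comp s4
  have E : ∀ k k', AnalyticAt ℂ (Ec N k k') p := fun k k' =>
    (an_pol N y (an_cross analyticAt_const n) (an_cross analyticAt_const n)).sub
      (v.mul (((an_dot analyticAt_const a).mul (an_dot analyticAt_const b)).add
        ((an_dot analyticAt_const a).mul (an_dot analyticAt_const b))))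
  refine analyticAt_pi_iff.2 fun i => ?_
  fin_cases i
  exacts [an_dot n a, an_dot n b, an_dot ((an_cross a b).sub (u.smul n)) analyticAt_const,
    E _ _, E _ _, E _ _]

theorem cramer (k₁ k₂ n k : V3) : (k₁ ⬝ᵥ crossProduct k₂ n) • k =
    (k ⬝ᵥ crossProduct k₂ n) • k₁ + (-(k ⬝ᵥ crossProduct k₁ n)) • k₂ +
      (k ⬝ᵥ crossProduct k₁ k₂) • n := by
  funext i
  fin_cases i <;> simp [cross_apply, dotProduct, Fin.sum_univ_three] <;> ring

theorem cramer' (k₁ k₂ n s : V3) : (k₁ ⬝ᵥ crossProduct k₂ n) • s =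
    (k₁ ⬝ᵥ s) • crossProduct k₂ n + (-(k₂ ⬝ᵥ s)) • crossProduct k₁ n +
      (n ⬝ᵥ s) • crossProduct k₁ k₂ := by
  funext i
  fin_cases i <;> simp [cross_apply, dotProduct, Fin.sum_univ_three] <;> ring

theorem cross_eq (a b n e : V3) (u : ℂ) : (n ⬝ᵥ e) • (crossProduct a b - u • n) =
    ((crossProduct a b - u • n) ⬝ᵥ e) • n + (n ⬝ᵥ a) • crossProduct e b -
      (n ⬝ᵥ b) • crossProduct e a := by
  funext i
  fin_cases i <;> simp [cross_apply, dotProduct, Fin.sum_univ_three, vecHead, vecTail] <;> ring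

theorem Ec_symm (k k' : V3) (p : WN) : Ec N k k' p = Ec N k' k p := by
  rw [Ec, Ec, pol_symm, add_comm]

theorem Ec_lin (x₁ x₂ x₃ : ℂ) (k₁ k₂ k' : V3) {p : WN} (ha : p.n ⬝ᵥ p.a = 0)
    (hb : p.n ⬝ᵥ p.b = 0) :
    Ec N (x₁ • k₁ + x₂ • k₂ + x₃ • p.n) k' p = x₁ * Ec N k₁ k' p + x₂ * Ec N k₂ k' p := by
  simp only [Ec, map_add, map_smul, LinearMap.add_apply, LinearMap.smul_apply, cross_self,
    smul_zero, add_zero, pol_add, pol_smul, add_dotProduct, smul_dotProduct, smul_eq_mul, ha, hb]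
  ring

theorem Ec_smul (x : ℂ) (k k' : V3) (p : WN) : Ec N (x • k) k' p = x * Ec N k k' p := by
  simp only [Ec, map_smul, LinearMap.smul_apply, pol_smul, smul_dotProduct, smul_eq_mul]
  ring

variable {N} {k₁ k₂ e : V3} {p : WN}

theorem Φ_zero (h : N.InN p) : Φ N k₁ k₂ e p = 0 := by
  have E : ∀ k k', Ec N k k' p = 0 := fun k k' => sub_eq_zero.2 (h.v k k')
  funext i
  fin_cases i
  exacts [h.na, h.nb, by simp [Φ, h.u], E _ _, E _ _, E _ _]

theorem inN_of (hy : p.y ≠ 0) (hn : p.n ≠ 0) (ha : p.a ≠ 0) (hb : p.b ≠ 0)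
    (hD : k₁ ⬝ᵥ crossProduct k₂ p.n ≠ 0) (he : p.n ⬝ᵥ e ≠ 0) (h : Φ N k₁ k₂ e p = 0) :
    N.InN p := by
  have h0 : p.n ⬝ᵥ p.a = 0 := congrFun h 0
  have h1 : p.n ⬝ᵥ p.b = 0 := congrFun h 1
  have h2 : (crossProduct p.a p.b - p.u • p.n) ⬝ᵥ e = 0 := congrFun h 2
  have h3 : Ec N k₁ k₁ p = 0 := congrFun h 3
  have h4 : Ec N k₁ k₂ p = 0 := congrFun h 4
  have h5 : Ec N k₂ k₂ p = 0 := congrFun h 5
  have k : ∀ k', Ec N k₁ k' p = 0 → Ec N k₂ k' p = 0 → ∀ k, Ec N k' k p = 0 := fun k' a1 a2 k => by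
    refine (mul_eq_zero.1 ?_).resolve_left hD
    rw [Ec_symm, ← Ec_smul, cramer, Ec_lin N _ _ _ _ _ _ h0 h1, a1, a2, mul_zero, mul_zero,
      add_zero]
  refine ⟨hy, hn, ha, hb, h0, h1, sub_eq_zero.1 ((smul_eq_zero.1 ?_).resolve_left he),
    fun k₀ k' => sub_eq_zero.1 (k k₀ (k _ h3 (Ec_symm N _ _ _ ▸ h4) _) (k _ h4 h5 _) k')⟩
  rw [cross_eq, h0, h1, h2, zero_smul, zero_smul, zero_smul, add_zero, sub_zero]

theorem loc (h : N.InN p) (hD : k₁ ⬝ᵥ crossProduct k₂ p.n ≠ 0) (he : p.n ⬝ᵥ e ≠ 0) :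
    ∀ᶠ q in 𝓝 p, q ∈ N.Nh ↔ Φ N k₁ k₂ e q = 0 := by
  have n := an_n p
  filter_upwards [(show ContinuousAt WN.y p by fun_prop).eventually_ne h.y,
    n.continuousAt.eventually_ne h.n, (show ContinuousAt WN.a p by fun_prop).eventually_ne h.a,
    (show ContinuousAt WN.b p by fun_prop).eventually_ne h.b,
    (an_dot analyticAt_const (an_cross analyticAt_const n)).continuousAt.eventually_ne hD,
    (an_dot n analyticAt_const).continuousAt.eventually_ne he] with q a1 a2 a3 a4 a5 a6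
  exact ⟨Φ_zero, inN_of a1 a2 a3 a4 a5 a6⟩

theorem exists_k {n : V3} (hn : n ≠ 0) :
    (∃ k₁ k₂ : V3, k₁ ⬝ᵥ crossProduct k₂ n ≠ 0) ∧ ∃ e : V3, n ⬝ᵥ e ≠ 0 := by
  constructor
  · by_contra! h
    have h0 := h ![0, 1, 0] ![0, 0, 1]
    have h1 := h ![0, 0, 1] ![1, 0, 0]
    have h2 := h ![1, 0, 0] ![0, 1, 0]
    simp [cross_apply, dotProduct, Fin.sum_univ_three] at h0 h1 h2
    exact hn (by funext i; fin_cases i; exacts [h0, h1, h2])
  · by_contra! h
    exact hn (dotProduct_eq_zero _ h)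

/-- The derivative of the equations of the conic. -/
noncomputable def dE (N : NF) (k k' : V3) (p : WN) (m a b : V3) : ℂ :=
  N.pol p.y (crossProduct k m) (crossProduct k' p.n) +
    N.pol p.y (crossProduct k' m) (crossProduct k p.n) -
    p.v * (k ⬝ᵥ a * k' ⬝ᵥ p.b + k ⬝ᵥ p.a * k' ⬝ᵥ b + k' ⬝ᵥ a * k ⬝ᵥ p.b + k' ⬝ᵥ p.a * k ⬝ᵥ b)

theorem hasDerivAt_quad {f : ℂ → ℂ} {c l q : ℂ} (h : ∀ t, f t = c + t * l + t * t * q) :
    HasDerivAt f l 0 := by
  have h1 := ((hasDerivAt_const (0 : ℂ) c).fun_add ((hasDerivAt_id' (0 : ℂ)).mul_const l)).fun_add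
    (((hasDerivAt_id' (0 : ℂ)).fun_mul (hasDerivAt_id' (0 : ℂ))).mul_const q)
  rw [show f = _ from funext h]
  exact h1.congr_deriv (by ring)

theorem Ec_line (k k' : V3) (p : WN) (m a b : V3) (u t : ℂ) :
    Ec N k k' (p + t • ((0 : V4), m, a, b, u, (0 : ℂ))) = Ec N k k' p + t * dE N k k' p m a b +
      t * t * (N.pol p.y (crossProduct k m) (crossProduct k' m) -
        p.v * (k ⬝ᵥ a * k' ⬝ᵥ b + k' ⬝ᵥ a * k ⬝ᵥ b)) := by
  simp only [Ec, dE, WN.y, WN.n, WN.a, WN.b, WN.v, Prod.fst_add, Prod.snd_add, Prod.smul_mk,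
    smul_zero, add_zero, map_add, map_smul, pol_add, pol_add', pol_smul, pol_smul',
    dotProduct_add, dotProduct_smul, smul_eq_mul, pol_symm N p.1 (crossProduct k' m)]
  ring

theorem dΦ (p : WN) (m a b : V3) (u : ℂ) :
    fderiv ℂ (Φ N k₁ k₂ e) p (0, m, a, b, u, 0) = ![m ⬝ᵥ p.a + p.n ⬝ᵥ a, m ⬝ᵥ p.b + p.n ⬝ᵥ b,
      (crossProduct a p.b + crossProduct p.a b - u • p.n - p.u • m) ⬝ᵥ e,
      dE N k₁ k₁ p m a b, dE N k₁ k₂ p m a b, dE N k₂ k₂ p m a b] := by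
  refine (line (an_Φ N k₁ k₂ e p) _).unique (hasDerivAt_pi.2 fun i => ?_)
  fin_cases i
  · refine hasDerivAt_quad (c := p.n ⬝ᵥ p.a) (q := m ⬝ᵥ a) fun t => ?_
    change (p.n + t • m) ⬝ᵥ (p.a + t • a) = _ + t * (m ⬝ᵥ p.a + p.n ⬝ᵥ a) + _
    simp only [dotProduct_add, add_dotProduct, dotProduct_smul, smul_dotProduct, smul_eq_mul]
    ring
  · refine hasDerivAt_quad (c := p.n ⬝ᵥ p.b) (q := m ⬝ᵥ b) fun t => ?_
    change (p.n + t • m) ⬝ᵥ (p.b + t • b) = _ + t * (m ⬝ᵥ p.b + p.n ⬝ᵥ b) + _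
    simp only [dotProduct_add, add_dotProduct, dotProduct_smul, smul_dotProduct, smul_eq_mul]
    ring
  · refine hasDerivAt_quad (c := (crossProduct p.a p.b - p.u • p.n) ⬝ᵥ e)
      (q := (crossProduct a b - u • m) ⬝ᵥ e) fun t => ?_
    change (crossProduct (p.a + t • a) (p.b + t • b) - (p.u + t • u) • (p.n + t • m)) ⬝ᵥ e =
      _ + t * ((crossProduct a p.b + crossProduct p.a b - u • p.n - p.u • m) ⬝ᵥ e) + _
    simp only [map_add, map_smul, LinearMap.add_apply, LinearMap.smul_apply, add_dotProduct,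
      sub_dotProduct, smul_dotProduct, smul_eq_mul]
    ring
  exacts [hasDerivAt_quad (Ec_line _ _ p m a b u), hasDerivAt_quad (Ec_line _ _ p m a b u),
    hasDerivAt_quad (Ec_line _ _ p m a b u)]

theorem dΦ_y (p : WN) (μ : Fin 6 → ℂ) (w : V4) :
    μ ⬝ᵥ fderiv ℂ (Φ N k₁ k₂ e) p (w, 0) = fderiv ℂ (fun y =>
      μ 3 * N.pol y (crossProduct k₁ p.n) (crossProduct k₁ p.n) +
      μ 4 * N.pol y (crossProduct k₁ p.n) (crossProduct k₂ p.n) +
      μ 5 * N.pol y (crossProduct k₂ p.n) (crossProduct k₂ p.n)) p.y w := by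
  have h1 := hasDerivAt_pi.1 (line (an_Φ N k₁ k₂ e p) (w, 0))
  have h2 : HasDerivAt (fun t : ℂ => μ ⬝ᵥ Φ N k₁ k₂ e (p + t • (w, 0)))
      (μ ⬝ᵥ fderiv ℂ (Φ N k₁ k₂ e) p (w, 0)) 0 :=
    HasDerivAt.fun_sum fun i _ => (h1 i).const_mul (μ i)
  have a : ∀ s s', AnalyticAt ℂ (fun y => N.pol y s s') p.y := fun s s' =>
    an_pol N analyticAt_id analyticAt_const analyticAt_const
  have h3 : AnalyticAt ℂ (fun y => μ 3 * N.pol y (crossProduct k₁ p.n) (crossProduct k₁ p.n) +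
      μ 4 * N.pol y (crossProduct k₁ p.n) (crossProduct k₂ p.n) +
      μ 5 * N.pol y (crossProduct k₂ p.n) (crossProduct k₂ p.n)) p.y :=
    ((analyticAt_const.mul (a _ _)).add (analyticAt_const.mul (a _ _))).add
      (analyticAt_const.mul (a _ _))
  have z : ∀ s s', N.pol 0 s s' = 0 := fun s s' => by simp [NF.pol, NF.b, NF.c]
  refine h2.unique (((line h3 w).add_const (μ ⬝ᵥ Φ N k₁ k₂ e (0, p.2))).congr_of_eventuallyEq
    (.of_forall fun t => ?_))
  have e1 : p + t • (w, 0) = (p.y + t • w, p.2) := Prod.ext rfl (by simp)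
  simp only [e1, dotProduct, Fin.sum_univ_six, Φ, Ec, WN.y, WN.n, WN.a, WN.b, WN.u, WN.v,
    Matrix.cons_val, z]
  ring

theorem rank_one {a b c x y : ℂ} (h0 : x ≠ 0 ∨ y ≠ 0) (h1 : 2 * a * x + b * y = 0)
    (h2 : b * x + 2 * c * y = 0) : ∃ t, a = t * y ^ 2 ∧ b = -2 * t * x * y ∧ c = t * x ^ 2 := by
  rcases h0 with h | h
  · refine ⟨c / x ^ 2, ?_, ?_, ?_⟩ <;> field_simp
    · linear_combination x / 2 * h1 - y / 2 * h2
    · linear_combination h2
  · refine ⟨a / y ^ 2, ?_, ?_, ?_⟩ <;> field_simp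
    · linear_combination h1
    · linear_combination y / 2 * h2 - x / 2 * h1

theorem pol_dot (y : V4) (a : V3) : ∃ l : V3, ∀ s, N.pol y s a = l ⬝ᵥ s :=
  ⟨![N.pol y ![1, 0, 0] a, N.pol y ![0, 1, 0] a, N.pol y ![0, 0, 1] a], fun s => by
    simp [NF.pol, dotProduct, Fin.sum_univ_three]
    ring⟩

/-- A covector which kills the derivative vanishes. -/
theorem key (hG : N.Good) (hS : N.Sm) (h : N.InN p) (hD : k₁ ⬝ᵥ crossProduct k₂ p.n ≠ 0)
    (he : p.n ⬝ᵥ e ≠ 0) (μ : Fin 6 → ℂ)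
    (hμ : ∀ w : WN, w.v = 0 → μ ⬝ᵥ fderiv ℂ (Φ N k₁ k₂ e) p w = 0) : μ = 0 := by
  have H : ∀ (m a b : V3) (u : ℂ), μ 0 * (m ⬝ᵥ p.a + p.n ⬝ᵥ a) + μ 1 * (m ⬝ᵥ p.b + p.n ⬝ᵥ b) +
      μ 2 * ((crossProduct a p.b + crossProduct p.a b - u • p.n - p.u • m) ⬝ᵥ e) +
      μ 3 * dE N k₁ k₁ p m a b + μ 4 * dE N k₁ k₂ p m a b + μ 5 * dE N k₂ k₂ p m a b = 0 :=
    fun m a b u => by
      have := hμ (0, m, a, b, u, 0) rfl
      rwa [dΦ, dotProduct, Fin.sum_univ_six] at this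
  have Hy : fderiv ℂ (fun y => μ 3 * N.pol y (crossProduct k₁ p.n) (crossProduct k₁ p.n) +
      μ 4 * N.pol y (crossProduct k₁ p.n) (crossProduct k₂ p.n) +
      μ 5 * N.pol y (crossProduct k₂ p.n) (crossProduct k₂ p.n)) p.y = 0 :=
    ContinuousLinearMap.ext fun w => (dΦ_y (e := e) p μ w).symm.trans (hμ (w, 0) rfl)
  obtain ⟨D, hD'⟩ : ∃ D, D = k₁ ⬝ᵥ crossProduct k₂ p.n := ⟨_, rfl⟩
  have d0 : p.n ⬝ᵥ crossProduct k₁ k₂ = D := by
    rw [hD', triple_product_permutation]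
  have d1 : k₂ ⬝ᵥ crossProduct k₁ p.n = -D := by
    rw [← d0, triple_product_permutation p.n, triple_product_permutation k₁, ← cross_anticomm,
      dotProduct_neg]
  have hD0 : D ≠ 0 := hD' ▸ hD
  have m2 : μ 2 = 0 := by
    have := H 0 0 0 1
    simp [dE, pol_zero] at this
    exact this.resolve_right he
  have Ha := fun a => H 0 a 0 0
  have Hb := fun b => H 0 0 b 0
  have Hn := fun m => H m 0 0 0
  simp only [dE, m2, map_zero, pol_zero, zero_dotProduct, dotProduct_zero, zero_mul, mul_zero,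
    add_zero, zero_add, zero_sub, sub_zero] at Ha Hb Hn
  have m0 : μ 0 = 0 := by
    have := Ha (crossProduct k₁ k₂)
    rw [d0, dot_self_cross, dot_cross_self] at this
    exact (mul_eq_zero.1 (by linear_combination this)).resolve_right hD0
  have m1 : μ 1 = 0 := by
    have := Hb (crossProduct k₁ k₂)
    rw [d0, dot_self_cross, dot_cross_self] at this
    exact (mul_eq_zero.1 (by linear_combination this)).resolve_right hD0
  suffices k : μ 3 = 0 ∧ μ 4 = 0 ∧ μ 5 = 0 by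
    funext i
    fin_cases i
    exacts [m0, m1, m2, k.1, k.2.1, k.2.2]
  by_cases hv : p.v = 0
  · refine hG.no_T h.y h.n (fun k k' => by rw [h.v, hv, zero_mul]) hD Hy fun m => ?_
    linear_combination Hn m - m ⬝ᵥ p.a * m0 - m ⬝ᵥ p.b * m1
  have a1 := Ha (crossProduct k₂ p.n)
  have a2 := Ha (crossProduct k₁ p.n)
  have b1 := Hb (crossProduct k₂ p.n)
  have b2 := Hb (crossProduct k₁ p.n)
  rw [dot_cross_self, dot_self_cross, ← hD'] at a1 b1
  rw [dot_cross_self, dot_self_cross, d1] at a2 b2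
  have hvD := mul_ne_zero hv hD0
  have ca := cramer' k₁ k₂ p.n p.a
  rw [← hD', h.na, zero_smul, add_zero] at ca
  have hα : k₁ ⬝ᵥ p.a ≠ 0 ∨ k₂ ⬝ᵥ p.a ≠ 0 := by
    by_contra! k
    rw [k.1, k.2, neg_zero, zero_smul, zero_smul, add_zero] at ca
    exact smul_ne_zero hD0 h.a ca
  obtain ⟨t, t3, t4, t5⟩ := rank_one (a := μ 3) (b := μ 4) (c := μ 5) hα
    (mul_left_cancel₀ hvD (by linear_combination -b1)) (mul_left_cancel₀ hvD
      (by linear_combination b2))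
  by_cases ht : t = 0
  · simp [t3, t4, t5, ht]
  exfalso
  have hδ : k₁ ⬝ᵥ p.a * k₂ ⬝ᵥ p.b - k₂ ⬝ᵥ p.a * k₁ ⬝ᵥ p.b = 0 := by
    have h2 := mul_ne_zero two_ne_zero (mul_ne_zero hvD ht)
    rw [t3, t4] at a1
    rw [t4, t5] at a2
    rcases hα with k | k
    · exact mul_left_cancel₀ (mul_ne_zero h2 k) (by linear_combination a2)
    · exact mul_left_cancel₀ (mul_ne_zero h2 k) (by linear_combination a1)
  have pa : ∀ y s, D * N.pol y s p.a = k₁ ⬝ᵥ p.a * N.pol y s (crossProduct k₂ p.n) -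
      k₂ ⬝ᵥ p.a * N.pol y s (crossProduct k₁ p.n) := fun y s => by
    rw [← pol_smul', ca, pol_add', pol_smul', pol_smul']
    ring
  obtain ⟨l, hl⟩ := pol_dot (N := N) p.y p.a
  have l1 : ∀ k, l ⬝ᵥ crossProduct k p.n = 0 := fun k => mul_left_cancel₀ hD0 (by
    rw [← hl, pa, h.v, h.v]
    linear_combination p.v * k ⬝ᵥ p.a * hδ)
  have cl := cramer k₁ k₂ p.n l
  rw [← hD', l1, l1, neg_zero, zero_smul, zero_smul, add_zero, zero_add] at cl
  obtain ⟨m, hm⟩ := (exists_k h.a).2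
  have l2 : l ⬝ᵥ crossProduct k₁ k₂ = 0 := by
    have e1 := Hn m
    have e2 := pa p.y (crossProduct k₁ m)
    have e3 := pa p.y (crossProduct k₂ m)
    have e4 := congrArg (· ⬝ᵥ crossProduct k₁ m) cl
    have e5 := congrArg (· ⬝ᵥ crossProduct k₂ m) cl
    have e6 := congrArg (· ⬝ᵥ m) ca
    have e7 : ∀ k, p.n ⬝ᵥ crossProduct k m = -(crossProduct k p.n ⬝ᵥ m) := fun k => by
      simp [cross_apply, dotProduct, Fin.sum_univ_three]
      ring
    simp only [smul_dotProduct, add_dotProduct, smul_eq_mul, e7] at e4 e5 e6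
    rw [hl] at e2 e3
    rw [m0, m1, t3, t4, t5] at e1
    refine mul_left_cancel₀ (mul_ne_zero (mul_ne_zero two_ne_zero ht) (mul_ne_zero hD0 hm)) ?_
    linear_combination -e1 - 2 * t * k₂ ⬝ᵥ p.a * (e4 - e2) +
      2 * t * k₁ ⬝ᵥ p.a * (e5 - e3) + 2 * t * l ⬝ᵥ crossProduct k₁ k₂ * e6
  rw [l2, zero_smul] at cl
  refine hS.no_sing h.y h.a (fun s => by
    rw [hl, (smul_eq_zero.1 cl).resolve_left hD0, zero_dotProduct]) ?_
  have e8 : (fun y => N.pol y p.a p.a) = fun y => (t * D * D)⁻¹ *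
      (μ 3 * N.pol y (crossProduct k₁ p.n) (crossProduct k₁ p.n) +
      μ 4 * N.pol y (crossProduct k₁ p.n) (crossProduct k₂ p.n) +
      μ 5 * N.pol y (crossProduct k₂ p.n) (crossProduct k₂ p.n)) := funext fun y => by
    have e1 := pa y p.a
    have e2 := pa y (crossProduct k₁ p.n)
    have e3 := pa y (crossProduct k₂ p.n)
    rw [pol_symm N y p.a (crossProduct k₁ p.n), pol_symm N y p.a (crossProduct k₂ p.n)] at e1
    rw [pol_symm N y (crossProduct k₂ p.n) (crossProduct k₁ p.n)] at e3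
    rw [t3, t4, t5]
    field_simp
    linear_combination D * e1 + k₁ ⬝ᵥ p.a * e3 - k₂ ⬝ᵥ p.a * e2
  have a : ∀ s s', DifferentiableAt ℂ (fun y => N.pol y s s') p.y := fun s s' =>
    (an_pol N analyticAt_id analyticAt_const analyticAt_const).differentiableAt
  rw [e8, fderiv_const_mul ((((a _ _).const_mul _).fun_add ((a _ _).const_mul _)).fun_add
    ((a _ _).const_mul _)), Hy]
  exact ContinuousLinearMap.ext fun _ => mul_zero _

end N1

open N1 in
/-- The fivefold is smooth and the two divisors are transverse. -/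
theorem stN1 : StN1 := by
  intro N hG hS p hp
  have h : N.InN p := hp
  obtain ⟨⟨k₁, k₂, hD⟩, e, he⟩ := exists_k h.n
  have hs : ∀ b, ∃ w : WN, w.v = 0 ∧ fderiv ℂ (Φ N k₁ k₂ e) p w = b := fun b =>
    dual_surj (fderiv ℂ (Φ N k₁ k₂ e) p : WN →ₗ[ℂ] Fin 6 → ℂ)
      ⟨⟨⟨{w | w.v = 0}, fun {a b} ha hb => (congrArg₂ (· + ·) ha hb).trans (add_zero 0)⟩, rfl⟩,
        fun c w hw => (congrArg (c • ·) hw).trans (smul_zero c)⟩ (key hG hS h hD he) b
  obtain ⟨h1, h2⟩ := zero_set (n := 9) (an_Φ N k₁ k₂ e p) (Φ_zero h)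
    (fun b => (hs b).imp fun _ a => a.2) (loc h hD he) (by simp)
  refine ⟨h1, fun hu => ?_, fun _ => ?_⟩
  · obtain ⟨c, hc⟩ := exists_smul_of_cross h.a (by rw [h.u, hu, zero_smul] : crossProduct p.a p.b = 0)
    obtain ⟨k, hk⟩ := (exists_k h.a).2
    have hc0 : c ≠ 0 := fun k => h.b (by rw [hc, k, zero_smul])
    refine ⟨(0, 0, crossProduct k p.n, -c • crossProduct k p.n, 2 * c * p.a ⬝ᵥ k, 0), h2 _ ?_,
      mul_ne_zero (mul_ne_zero two_ne_zero hc0) hk⟩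
    have E : ∀ l l', dE N l l' p 0 (crossProduct k p.n) (-c • crossProduct k p.n) = 0 :=
      fun l l' => by
        simp only [dE, hc, map_zero, pol_zero, dotProduct_smul, smul_eq_mul]
        ring
    have e1 : crossProduct p.a (crossProduct k p.n) = -(p.a ⬝ᵥ k) • p.n := by
      rw [cross_cross_eq_smul_sub_smul', dotProduct_comm p.a p.n, h.na, zero_smul, zero_sub,
        neg_smul, dotProduct_comm]
    rw [dΦ, E, E, E, hc, map_smul, map_smul, ← cross_anticomm p.a, e1]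
    funext i
    fin_cases i <;> simp
    ring
  · obtain ⟨w, w1, w2⟩ := hs (fderiv ℂ (Φ N k₁ k₂ e) p (0, 0, 0, 0, 0, 1))
    refine ⟨(0, 0, 0, 0, 0, 1) - w, h2 _ (by rw [map_sub, w2, sub_self]), ?_⟩
    change 1 - w.v ≠ 0
    rw [w1, sub_zero]
    exact one_ne_zero

end Vale.Agent.P287Q.D
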