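import Vale.Agent.P287Q.D.TDefs
import Vale.Agent.P287Q.Int.All
import Vale.Agent.P287Q.Mf.Api
import Vale.Agent.P287Q.Hb.QTm

/-!
# The correspondence: integrality, types, the image of the square of the hyperplane class
-/

set_option linter.unusedSectionVars false

namespace Vale.Agent.P287Q.D

open Set Function P291Z P269 P269.Holo P269.Tq P269.Coh Hb
open P287Q.Zc (Lk Lam)

variable {N : NF} {F : MvPolynomial (Fin 6) ℂ} {A : V24 ≃L[ℂ] (Fin 6 → ℂ)} [IsAct ac univ]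
  [IsAct acP univ] [IsAct acX univ] (h : QM ac N.Z 2) (hP : QM acP N.P 3) (φ : HolP N F A)

/-- The projection of the universal line. -/
noncomputable abbrev rho (N : NF) : C(Quo acP N.P, Quo ac N.Z) := (kb_hol (act := ac) χ3 N.Z φ3).q

/-- **The correspondence.** -/
noncomputable def al : H (Cub.XF F) →ₗ[ℂ] H (Quo ac N.Z) :=
  PS.push (X := hP.ps) (Y := h.ps) (rho N) ∘ₗ pl φ.q

theorem al_apply (x : H (Cub.XF F)) :
    al h hP φ x = PS.push (X := hP.ps) (Y := h.ps) (rho N) (H.map φ.q x) := rfl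

theorem al_J (x : H (Cub.XF F)) (w : H (Quo ac N.Z)) :
    h.ps.J (al h hP φ x * w) = hP.ps.J (H.map φ.q x * H.map (rho N) w) :=
  PS.J_push_mul (X := hP.ps) (Y := h.ps) _ _ _

theorem al_deg {k : ℤ} {x : H (Cub.XF F)} (hx : H.IsDeg (k + 2) x) : H.IsDeg k (al h hP φ x) := by
  have := PS.push_deg (X := hP.ps) (Y := h.ps) (rho N) (hx.map φ.q)
  rwa [show k + 2 + 2 * ((2 : ℤ) - 3) = k by ring] at this

theorem al_int (x : H (Cub.XF F)) (hx : x ∈ Lk (Cub.XF F) 4) : al h hP φ x ∈ Lk (Quo ac N.Z) 2 :=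
  ⟨(Zc.pz_qm hP).push (Zc.pz_qm h) _ (Lam.map _ hx.1), al_deg h hP φ hx.2⟩

theorem al_ty (x : H (Cub.XF F)) (hx : x ∈ QT acX (Pub.cone F) 2 2) (w : H (Quo ac N.Z))
    (hw : w ∈ QT ac N.Z 2 0) : h.ps.J (al h hP φ x * w) = 0 := by
  rw [al_J, QT_out hP (QT_mul hP (Mf.map_mem_QT hP φ hx) (Mf.map_mem_QT hP (kb_hol χ3 N.Z φ3) hw))
    (.inl (by norm_num)), map_zero]

theorem al_hm : Hm fun s : ℂ × ℂ => s.1 * s.2 := kb_fst.mul' kb_snd

include h hP in
/-- The hyperplane class on the universal line. -/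
theorem al_hyp [Mono.FP acX (Pub.cone F)] : H.map φ.q (Cub.hyp F) = lcq acP N.P Prod.snd +
    H.map (rho N) (lcq ac N.Z Prod.fst + lcq ac N.Z Prod.snd) := by
  have := h.fp
  have := hP.fp
  rw [← lcq_mul kb_fst kb_snd, (kb_hol (act := ac) χ3 N.Z φ3).toEqh.map_lcq al_hm,
    ← lcq_mul kb_snd (kb_fst.comp al_hm)]
  exact φ.toEqh.map_lcq (c := fun t => t ()) ⟨rfl, fun _ _ _ _ => rfl,
    fun _ _ => (continuous_apply ()).continuousAt⟩

theorem al_sq [Mono.FP acX (Pub.cone F)] (hs : PS.push (X := hP.ps) (Y := h.ps) (rho N)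
    ((lcq acP N.P Prod.snd + H.map (rho N) (lcq ac N.Z (χ3 0))) *
      (lcq acP N.P Prod.snd + H.map (rho N) (lcq ac N.Z (χ3 1)))) =
      lcq ac N.Z ψ3 - lcq ac N.Z (χ3 2)) :
    al h hP φ (Cub.hyp F ^ 2) = 2 • lcq ac N.Z Prod.fst + lcq ac N.Z Prod.snd := by
  have := h.fp
  rw [al_apply, map_pow, al_hyp h hP φ, ← lcq_mul kb_fst kb_snd, sq]
  refine hs.trans ?_
  rw [show lcq ac N.Z (χ3 2) = 0 from lcq_one, sub_zero, two_smul, ← lcq_mul kb_fst kb_fst,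
    ← lcq_mul (kb_fst.mul' kb_fst) kb_snd]
  rfl

end Vale.Agent.P287Q.D
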