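import Vale.Agent.P287Q.D.TDefs
import Vale.Agent.P287Q.Cub.Pv
import Vale.Agent.P291Z.Fl0

/-!
# Classes that vanish on the zero set of a section are killed by its Euler class
-/

set_option linter.unusedSectionVars false
set_option linter.style.haveILetI false

namespace Vale.Agent.P287Q

open Set Function Topology P291Z P269 P269.Holo P269.Tq

namespace Hb

/-- a class that vanishes on a closed set has a representative that vanishes near it -/
theorem exists_supp_compl {Y : Type} [TopologicalSpace Y] [Nice Y] [CompactSpace Y] {Z : Set Y}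
    (hZ : IsClosed Z) {y : H Y} (h : H.map (⟨Subtype.val, continuous_subtype_val⟩ : C(Z, Y)) y = 0) :
    ∃ b, supp (δ b) = ∅ ∧ supp b ⊆ Zᶜ ∧ hcls b = y := by
  haveI := isCompact_iff_compactSpace.1 hZ.isCompact
  have hi := hZ.isClosedEmbedding_subtypeVal
  have hj := hZ.isOpen_compl.isOpenEmbedding_subtypeVal
  obtain ⟨c, rfl⟩ := Fl.toH_bijective.2 y
  rw [← Fl.toH_pull (IsPr.of_isClosedEmbedding hi), map_eq_zero_iff _ Fl.toH_bijective.1] at h
  obtain ⟨c, rfl⟩ := (Hc.exact_push_pull hi hj (by simp only [Subtype.range_coe]) c).1 h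
  obtain ⟨b, h1, h2, rfl⟩ := cls_surj_open' hj c
  exact ⟨b, h1.2, h2.trans Subtype.range_coe.le, by rw [Hc.push_cls hj h1 h2, Fl.toH_cls h1]⟩

/-- a class supported in `Z` kills the classes that vanish on `Z` -/
theorem mul_eq_zero_of_supp {Y : Type} [TopologicalSpace Y] [Nice Y] [CompactSpace Y] {Z : Set Y}
    (hZ : IsClosed Z) {t : Coch Y} (ht : supp (δ t) = ∅) (hs : supp t ⊆ Z) {y : H Y}
    (h : H.map (⟨Subtype.val, continuous_subtype_val⟩ : C(Z, Y)) y = 0) : hcls t * y = 0 := by
  obtain ⟨b, h1, h2, rfl⟩ := exists_supp_compl hZ h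
  rw [← hcls_mul ht h1]
  refine (hcls_eq_of_null cocycle_zero fun x hx => ?_).trans hcls_zero
  rw [sub_zero] at hx
  exact h2 (supp_mul _ _ hx).2 (hs (supp_mul _ _ hx).1)

/-- the same, for the pull-back of a class that vanishes on a compact subspace -/
theorem mul_map_eq_zero {Y X L : Type} [TopologicalSpace Y] [Nice Y] [CompactSpace Y]
    [TopologicalSpace X] [T2Space X] [TopologicalSpace L] [CompactSpace L] (f : C(Y, X))
    (i : C(L, X)) (hi : Injective i) {t : Coch Y} (ht : supp (δ t) = ∅)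
    (hs : supp t ⊆ f ⁻¹' range i) {x : H X} (h : H.map i x = 0) : hcls t * H.map f x = 0 := by
  have he := i.continuous.isClosedEmbedding hi
  refine mul_eq_zero_of_supp (he.isClosed_range.preimage f.continuous) ht hs ?_
  let g : C(f ⁻¹' range i, L) := ⟨fun z => z.2.choose, he.isEmbedding.continuous_iff.2
    ((f.continuous.comp continuous_subtype_val).congr fun z => z.2.choose_spec.symm)⟩
  rw [H.map_map, show f.comp ⟨Subtype.val, continuous_subtype_val⟩ = i.comp g from
    ContinuousMap.ext fun z => z.2.choose_spec.symm, ← H.map_map, h, map_zero]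

/-- **the cut lemma** -/
theorem Sec.cut {B W ι X L : Type} [NormedRing B] [NormedAlgebra ℂ B] [NormedAddCommGroup W]
    [NormedSpace ℂ W] [FiniteDimensional ℂ B] [FiniteDimensional ℂ W] [Fintype ι] {act : B → W → W}
    [IsAct act univ] {S : Set W} [Mono.FP act S] [CompactSpace (Quo act S)] {c : ι → B → ℂ}
    {s : W → ι → ℂ} (hs : Sec act S c s) [TopologicalSpace X] [T2Space X] [TopologicalSpace L]
    [CompactSpace L] (f : C(Quo act S, X)) (i : C(L, X)) (hi : Injective i) {x : H X}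
    (h : H.map i x = 0) (h0 : ∀ p : S, s p = 0 → f (Quo.mk act p) ∈ range i) :
    (∏ i, lce act S (hs.hm i)).1 * H.map f x = 0 := by
  rw [← hs.hcls_eul]
  refine mul_map_eq_zero f i hi hs.isSec.isCo.cocycle (hs.isSec.isCo.supp.trans ?_) h
  rintro _ ⟨p, a, rfl⟩
  exact h0 ⟨Sp.val (act := act) p, Sp.val_mem (act := act) p⟩ a

end Hb

namespace D

open Cub

theorem TCut_eqv {N : NF} {F A} (h : N.Rep F A) :
    Eqv (scl (π₀ (Fin 2))) acX (Ust (π₀ (Fin 2))) (Pub.cone F) fun u => A (u, 0) :=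
  ⟨fun u a => ⟨fun e => mem_ust.1 a (congrArg Prod.fst (A.map_eq_zero_iff.1 e)),
      (h u 0).trans (by simp [NF.F, NF.b, NF.c])⟩,
    (A.continuous.comp (continuous_id.prodMk continuous_const)).continuousOn,
    fun t a u _ => ⟨t, a, Eq.trans (b := A (t () • (u, 0)))
      (congrArg A (Prod.ext rfl (smul_zero _).symm)) (map_smul A (t ()) (u, 0))⟩⟩

/-- **classes of the cubic die on the line** -/
theorem stCut : StCut := by
  intro N F A h B W ι _ _ _ _ _ _ _ act _ _ S _ _ _ θ f φ c s hs h0 x hx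
  haveI := isAct_scl (π₀ (Fin 2))
  have p := pv_proj 1
  haveI := p.fp
  haveI := p.compact
  refine Hb.Sec.cut hs _ (TCut_eqv h).qm (fun z z' e => ?_) (p.dim.H_eq_zero (hx.map _) (by norm_num))
    fun q a => ?_
  · obtain ⟨u, rfl⟩ := mk_surj z
    obtain ⟨u', rfl⟩ := mk_surj z'
    obtain ⟨g, b⟩ := (Sp.mk_eq_iff (act := acX) (S := Pub.cone F)).1 e
    have d : A (u'.1, 0) = g.val () • A (u.1, 0) := (congrArg Sp.val b).symm
    rw [← map_smul] at d
    exact Quot.sound ⟨g.val, g.isUnit, congrArg Prod.fst (A.injective d)⟩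
  · obtain ⟨u, b⟩ := h0 q q.2 a
    have d : u ∈ Ust (π₀ (Fin 2)) := mem_ust.2 fun e => (φ.maps q.2).1 (by
      rw [b, e]; exact map_zero A)
    exact ⟨Quo.mk _ ⟨u, d⟩, congrArg (Quo.mk acX) (Subtype.ext b.symm)⟩

end D

end Vale.Agent.P287Q
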