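import Vale.Agent.P287Q.D.TDefs
import Vale.Agent.P287Q.Cub.S

/-!
# From a labelling of discriminant two or six to a class on the surface
-/

namespace Vale.Agent.P287Q.D

open Set Function P291Z P269 P269.Holo P269.Mono P269.Tq P269.Coh Hb
open P287Q.Zc (Lk)

namespace TLab

/-- A class of degree four orthogonal to `h²` is primitive. -/
theorem prim {Y : PS} {T : ℤ → ℤ → Submodule ℂ (H Y.X)} {h x : H Y.X} (c : Cub.CubH Y T h)
    (hx : H.IsDeg 4 x) (h0 : Y.J (h ^ 2 * x) = 0) : h * x = 0 := by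
  obtain ⟨a, ha, v, hv, rfl⟩ := c.lf.exists_add x
  have h1 : H.IsDeg 4 v := c.n ▸ c.lf.van_deg hv
  have h2 : a ∈ H.deg _ 4 := by simpa using (H.deg _ 4).sub_mem hx h1
  have h5 := c.lf.mul_van hv
  obtain rfl | ⟨j, t, e, rfl⟩ := amb_deg c.lf.deg ha h2
  · rwa [zero_add]
  obtain rfl : j = 2 := by omega
  rw [mul_add, sq h, mul_assoc h h v, h5, mul_zero, add_zero, ← sq, mul_smul_comm, ← pow_add,
    map_smul, c.deg, smul_eq_mul] at h0
  rw [(mul_eq_zero.1 h0).resolve_right three_ne_zero, zero_smul, zero_add, h5]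

/-- The numbers. -/
theorem num {R : Type} [Ring R] [Algebra ℂ R] (J : R →ₗ[ℂ] ℂ) {l a b : R} {t s : ℂ}
    (la : a * l = l * a) (lb : b * l = l * b) (ab : b * a = a * b) (aa : J (a * a) = 1)
    (bb : J (b * b) = 1) (ab' : J (a * b) = 4)
    (h1 : J (((3 : ℂ) • l - t • (2 • a + b)) * a) = 0)
    (h2 : J (((3 : ℂ) • l - t • (2 • a + b)) * b) = 0)
    (h3 : J (((3 : ℂ) • l - t • (2 • a + b)) * ((3 : ℂ) • l - t • (2 • a + b))) =
      -2 * (9 * s - 3 * t ^ 2)) :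
    J (l * l) = 3 * t ^ 2 - 2 * s ∧ J (l * a) = 2 * t ∧ J (l * b) = 3 * t := by
  simp only [two_smul, sub_mul, mul_sub, add_mul, mul_add, smul_mul_assoc, mul_smul_comm,
    smul_add, map_sub, map_add, map_smul, smul_eq_mul, la, lb, ab, aa, bb, ab'] at h1 h2 h3
  have k1 : J (l * a) = 2 * t := by linear_combination h1 / 3
  have k2 : J (l * b) = 3 * t := by linear_combination h2 / 3
  rw [k1, k2] at h3
  exact ⟨by linear_combination h3 / 9, k1, k2⟩

variable [IsAct ac univ] [IsAct acX univ] {N : NF} {F : MvPolynomial (Fin 6) ℂ}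
  {h : QM ac N.Z 2} {q : QM acX (Pub.cone F) 4} {al : H (Cub.XF F) →ₗ[ℂ] H (Quo ac N.Z)}

/-- The class of an algebraic class of the cubic. -/
theorem top (c : Cub.CubH q.ps (QT _ (Pub.cone F)) (Cub.hyp F)) (r : Cor F h q al) (n : Num h)
    {T : H (Cub.XF F)} (hT : T ∈ Lk (Cub.XF F) 4) (ty : T ∈ QT acX (Pub.cone F) 2 2) {t s : ℂ}
    (ht : q.ps.J (Cub.hyp F ^ 2 * T) = t) (hs : q.ps.J (T * T) = s) :
    TopL h (3 * t ^ 2 - 2 * s) (2 * t) (3 * t) := by
  have d2 : H.IsDeg 4 (Cub.hyp F ^ 2) := isDeg_pow c.lf.deg 2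
  have d4 : q.ps.J (Cub.hyp F ^ 2 * Cub.hyp F ^ 2) = 3 := by rw [← pow_add]; exact c.deg
  have dx : H.IsDeg 4 ((3 : ℂ) • T - t • Cub.hyp F ^ 2) :=
    (H.deg _ 4).sub_mem ((H.deg _ 4).smul_mem _ hT.2) ((H.deg _ 4).smul_mem _ d2)
  have cm : T * Cub.hyp F ^ 2 = Cub.hyp F ^ 2 * T := (d2.commute (by decide) T).symm
  have px := prim c dx (by
    rw [mul_sub, mul_smul_comm, mul_smul_comm, map_sub, map_smul, map_smul, ht, d4, smul_eq_mul,
      smul_eq_mul, mul_comm, sub_self])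
  have e : al ((3 : ℂ) • T - t • Cub.hyp F ^ 2) =
      (3 : ℂ) • al T - t • (2 • lcq ac N.Z Prod.fst + lcq ac N.Z Prod.snd) := by
    rw [map_sub, map_smul, map_smul, r.sq]
  have := h.fp
  have da : H.IsDeg 2 (lcq ac N.Z Prod.fst) :=
    lcq_deg ⟨rfl, fun _ _ _ _ => rfl, fun _ _ => continuousAt_fst⟩
  have db : H.IsDeg 2 (lcq ac N.Z Prod.snd) :=
    lcq_deg ⟨rfl, fun _ _ _ _ => rfl, fun _ _ => continuousAt_snd⟩
  refine ⟨al T, r.int T hT, r.ty T ty, num h.ps.J (da.commute even_two _) (db.commute even_two _)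
    (db.commute even_two _) n.1 n.2.1 n.2.2 (e ▸ r.oa _ dx px) (e ▸ r.ob _ dx px)
    ((e ▸ r.pr _ _ dx dx px px).trans (congrArg _ ?_))⟩
  simp only [sub_mul, mul_sub, smul_mul_assoc, mul_smul_comm, map_sub, map_smul, smul_eq_mul, cm,
    ht, hs, d4]
  ring

theorem lab (c : Cub.CubH q.ps (QT _ (Pub.cone F)) (Cub.hyp F)) (r : Cor F h q al) (n : Num h)
    {d : ℤ} (l : Cub.Lab F d) :
    ∃ t s : ℤ, d = 3 * s - t ^ 2 ∧ ∀ ε k t' s' : ℤ, t' = ε * t + 3 * k →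
      s' = ε ^ 2 * s + 2 * ε * k * t + 3 * k ^ 2 →
        TopL h (3 * t' ^ 2 - 2 * s') (2 * t') (3 * t') := by
  obtain ⟨B, η, v, hB, sy, hη, h3, t1, t2, -, rfl⟩ := l
  refine ⟨_, _, rfl, fun ε k t' s' e1 e2 => top c r n (ε • v + k • η).2 ?_ ?_ ?_⟩
  · exact (QT acX (Pub.cone F) 2 2).add_mem
      (zsmul_mem ((Cub.hd_iff (i := 2) (j := 2)).1 t2) ε)
      (zsmul_mem ((Cub.hd_iff (i := 2) (j := 2)).1 t1) k)
  · rw [← hη]
    refine (hB η _).symm.trans (congrArg _ ?_)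
    rw [map_add, map_smul, map_smul, h3, sy.eq η v, e1, smul_eq_mul, smul_eq_mul, mul_comm k]
  · refine (hB _ _).symm.trans (congrArg _ ?_)
    simp only [map_add, map_smul, LinearMap.add_apply, LinearMap.smul_apply, smul_eq_mul, h3,
      sy.eq η v, e2]
    ring

end TLab

/-- From the correspondence to the classes. -/
theorem stLab : StLab := by
  intro _ _ N F hF hs h q al r n
  have c := Cub.cubF q hF hs
  refine ⟨fun l => ?_, fun l => ?_⟩
  · obtain ⟨t, s, e, k⟩ := TLab.lab c r n l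
    obtain ⟨m, rfl | rfl | rfl⟩ : ∃ m, t = 3 * m ∨ t = 3 * m + 1 ∨ t = 3 * m - 1 :=
      ⟨(t + 1) / 3, by omega⟩
    · have : (3 * m) ^ 2 = 3 * (3 * m ^ 2) := by ring
      omega
    · have := k 1 (-m) 1 1 (by ring) (by nlinarith)
      norm_num at this
      exact this
    · have := k (-1) m 1 1 (by ring) (by nlinarith)
      norm_num at this
      exact this
  · obtain ⟨t, s, e, k⟩ := TLab.lab c r n l
    obtain ⟨m, rfl | rfl | rfl⟩ : ∃ m, t = 3 * m ∨ t = 3 * m + 1 ∨ t = 3 * m - 1 :=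
      ⟨(t + 1) / 3, by omega⟩
    · have := k 1 (-m) 0 2 (by ring) (by nlinarith)
      norm_num at this
      exact this
    · have : (3 * m + 1) ^ 2 = 3 * (3 * m ^ 2 + 2 * m) + 1 := by ring
      omega
    · have : (3 * m - 1) ^ 2 = 3 * (3 * m ^ 2 - 2 * m) + 1 := by ring
      omega

end Vale.Agent.P287Q.D
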