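import Vale.Agent.P287Q.D.TAux
import Vale.Agent.P287Q.Cub.Pv

/-!
# The holomorphic maps of the correspondence
-/

namespace Vale.Agent.P287Q.D

open Set Function Filter Matrix P269 P269.Tq Hb

namespace TMap

theorem hol {A A' W W' : Type} [NormedRing A] [NormedAlgebra ℂ A] [NormedAddCommGroup W]
    [NormedSpace ℂ W] [NormedRing A'] [NormedAlgebra ℂ A'] [NormedAddCommGroup W']
    [NormedSpace ℂ W'] {act : A → W → W} {act' : A' → W' → W'} {S : Set W} {S' : Set W'}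
    {f : W → W'} {θ : A → A'} (hm : Hm θ) (maps : MapsTo f S S') (an : ∀ x, AnalyticAt ℂ f x)
    (eqv : ∀ a x, f (act a x) = act' (θ a) (f x)) : Hol act act' S S' θ f :=
  ⟨⟨hm, maps, fun x _ => (an x).continuousAt.continuousWithinAt, fun a _ x _ => eqv a x⟩,
    fun x _ => ⟨f, an x, .of_forall fun _ => rfl⟩⟩

variable {N : NF} {F : MvPolynomial (Fin 6) ℂ} {A : V24 ≃L[ℂ] (Fin 6 → ℂ)}

theorem mem (h : N.Rep F A) {y : V4} {s : V3} (hy : y ≠ 0) (hs : s ≠ 0) (e : N.pol y s s = 0) :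
    A (pt y s) ∈ Pub.cone F :=
  ⟨A.map_ne_zero_iff.2 (pt_ne hy hs),
    ((h _ _).trans (N.F_pt y s)).trans (by rw [e, mul_zero, zero_div])⟩

theorem sm (h : N.Rep F A) (hs : Pub.IsSmoothForm F) : N.Sm := fun p hp e => by
  obtain ⟨v, hv⟩ := Cub.exists_dir hs (A.map_ne_zero_iff.2 hp)
  have d := ((Cub.an_eval F (A p)).differentiableAt.hasFDerivAt.comp p A.hasFDerivAt).fderiv
  rw [show (fun y => MvPolynomial.eval y F) ∘ A = fun q : V24 => N.F q.1 q.2 from
    funext fun q => h q.1 q.2, e] at d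
  exact zero_ne_one (((DFunLike.congr_fun d (A.symm v)).trans
    (congrArg (fderiv ℂ _ (A p)) (A.apply_symm_apply v))).trans hv)

theorem hmN (i : Fin 4) : Hm fun (t : AN) (_ : Unit) => t i * t 0 :=
  ⟨funext fun _ => mul_one _, fun _ _ _ _ => funext fun _ => mul_mul_mul_comm _ _ _ _,
    fun _ _ => by fun_prop⟩

theorem chr : Chr χ3 := by
  have a : Hm fun s : ℂ × ℂ => s.1 * s.2 := kb_fst.mul' kb_snd
  refine ⟨fun k => ?_, fun k s _ => ?_⟩ <;> fin_cases k
  exacts [a, a, Hm.const, analyticAt_fst.mul analyticAt_snd, analyticAt_fst.mul analyticAt_snd,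
    analyticAt_const]

theorem hψ : Hm ψ3 := (kb_fst.mul' kb_fst).mul' kb_snd

theorem eqv (a : ℂ × ℂ) (z : W7) (k) : φ3 (ac a z) k * χ3 k a = ψ3 a * φ3 z k := by
  fin_cases k <;> simp only [φ3, χ3, ψ3, ac, ch, Fin.reduceFinMk, cons_val] <;> ring

theorem P_act (g : (ℂ × ℂ) × ℂ) (p : W7 × V3) :
    acP g p = (ac g.1 p.1, g.2 • dP (g.1.1 * g.1.2) p.2) := Prod.ext rfl (χ3_dP _ _ _)

end TMap

open TMap in
/-- **The maps.** -/
theorem stMap : StMap := fun N F A g h => by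
  have l : ∀ {E : Type} [NormedAddCommGroup E] [NormedSpace ℂ E] {y : E → V4} {s : E → V3} {x : E},
      AnalyticAt ℂ y x → AnalyticAt ℂ s x → AnalyticAt ℂ (fun x => A (pt (y x) (s x))) x :=
    fun a b => (A.analyticAt _).comp (an_pt a b)
  have s3 := fun p : WN => (analyticAt_snd.comp analyticAt_snd : AnalyticAt ℂ (fun p => p.2.2) p)
  refine ⟨sm h, hol (hmN 2) (fun p a => mem h a.y a.a (NF.InN.pol_aa a))
    (fun p => l analyticAt_fst (analyticAt_fst.comp (s3 p))) fun t p =>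
      (congrArg A (pt_act _ _ _ _)).trans (map_smul _ _ _),
    hol (hmN 3) (fun p a => mem h a.y a.b (NF.InN.pol_bb a))
    (fun p => l analyticAt_fst ((analyticAt_fst.comp analyticAt_snd).comp (s3 p))) fun t p =>
      (congrArg A (pt_act _ _ _ _)).trans (map_smul _ _ _),
    hol ⟨funext fun _ => by simp, fun _ _ _ _ => funext fun _ => ?_, fun _ _ => by fun_prop⟩
      (fun p a => mem h a.1.1 a.2.1 ?_)
      (fun p => l ((an_yy _).comp analyticAt_fst) analyticAt_snd) fun t p => ?_,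
    hol ⟨rfl, fun _ _ _ _ => rfl, fun _ _ => by fun_prop⟩ (fun p a => ⟨a.1.1, a.2⟩)
      (fun p => (analyticAt_fst.comp analyticAt_fst).prod analyticAt_snd) fun _ _ => rfl,
    ⟨chr, hψ, fun z _ => an_φ3 z, fun _ => g.φ3_ne, fun a _ z _ => eqv a z⟩,
    ⟨⟨fun k => kb_fst.comp (chr.hm k), fun k a b => (chr.an k _ (Prod.isUnit_iff.1 b).1).comp
      analyticAt_fst⟩, kb_fst.comp hψ, fun p _ => (an_φ3 _).comp analyticAt_fst,
      fun _ a => g.φ3_ne a.1, fun a _ p _ => eqv a.1 p.1⟩⟩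
  · simp only [Prod.fst_mul, Prod.snd_mul, Pi.mul_apply]; ring
  · rw [NF.pol_yy _ _ a.1, a.2.2, zero_mul, add_zero]
  · rw [P_act, yy_ac, pt_act, map_smul]; rfl

end Vale.Agent.P287Q.D
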