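import Vale.Agent.P287Q.D.TAux

/-!
# The action on the fivefold is free and proper with compact quotient
-/

set_option linter.unusedSectionVars false

namespace Vale.Agent.P287Q.D

open Set Function Topology Filter P291Z P269 P269.Holo P269.Tq

/-! ### algebra -/

theorem unitN {t : AN} : IsUnit t ↔ ∀ i, t i ≠ 0 := by simp [Pi.isUnit_iff]

theorem dP_one (s : V3) : dP 1 s = s := by
  funext i; fin_cases i <;> simp [dP]

theorem dN_one (s : V3) : dN 1 s = s := by
  funext i; fin_cases i <;> simp [dN]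

theorem dP_mul (t t' : ℂ) (s : V3) : dP (t * t') s = dP t (dP t' s) := by
  funext i; fin_cases i <;> simp [dP, mul_assoc]

theorem dN_mul (t t' : ℂ) (s : V3) : dN (t * t') s = dN t (dN t' s) := by
  funext i; fin_cases i <;> simp [dN, mul_assoc]

theorem dP_smul (t c : ℂ) (s : V3) : dP t (c • s) = c • dP t s := by
  funext i; fin_cases i <;> simp [dP, mul_left_comm]

theorem dN_smul (t c : ℂ) (s : V3) : dN t (c • s) = c • dN t s := by
  funext i; fin_cases i <;> simp [dN, mul_left_comm]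

theorem dP_add (t : ℂ) (s s' : V3) : dP t (s + s') = dP t s + dP t s' := by
  funext i; fin_cases i <;> simp [dP, mul_add]

theorem dN_add (t : ℂ) (s s' : V3) : dN t (s + s') = dN t s + dN t s' := by
  funext i; fin_cases i <;> simp [dN, mul_add]

theorem dP_zero (t : ℂ) : dP t 0 = 0 := by
  funext i; fin_cases i <;> simp [dP]

theorem dN_zero (t : ℂ) : dN t 0 = 0 := by
  funext i; fin_cases i <;> simp [dN]

theorem dP_ne {t : ℂ} (ht : t ≠ 0) {s : V3} (h : s ≠ 0) : dP t s ≠ 0 := fun e => h (by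
  rw [← dP_one s, ← inv_mul_cancel₀ ht, dP_mul, e, dP_zero])

theorem dN_ne {t : ℂ} (ht : t ≠ 0) {s : V3} (h : s ≠ 0) : dN t s ≠ 0 := fun e => h (by
  rw [← dN_one s, ← inv_mul_cancel₀ ht, dN_mul, e, dN_zero])

theorem acN_y (t : AN) (p : WN) : (acN t p).y = t 0 • p.y := rfl
theorem acN_n (t : AN) (p : WN) : (acN t p).n = t 1 • dN (t 0) p.n := rfl
theorem acN_a (t : AN) (p : WN) : (acN t p).a = t 2 • dP (t 0) p.a := rfl
theorem acN_b (t : AN) (p : WN) : (acN t p).b = t 3 • dP (t 0) p.b := rfl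
theorem acN_u (t : AN) (p : WN) : (acN t p).u = cu t * p.u := rfl
theorem acN_v (t : AN) (p : WN) : (acN t p).v = cv t * p.v := rfl

theorem WN.ext' {p q : WN} (hy : p.y = q.y) (hn : p.n = q.n) (ha : p.a = q.a) (hb : p.b = q.b)
    (hu : p.u = q.u) (hv : p.v = q.v) : p = q :=
  Prod.ext hy (Prod.ext hn (Prod.ext ha (Prod.ext hb (Prod.ext hu hv))))

theorem cu_one : cu 1 = 1 := by simp [cu]

theorem cv_one : cv 1 = 1 := by simp [cv]

theorem cu_mul (t t' : AN) : cu (t * t') = cu t * cu t' := by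
  simp only [cu, Pi.mul_apply, mul_inv]; ring

theorem cv_mul (t t' : AN) : cv (t * t') = cv t * cv t' := by
  simp only [cv, Pi.mul_apply, mul_inv]; ring

theorem cu_ne {t : AN} (ht : IsUnit t) : cu t ≠ 0 := by
  have h := unitN.1 ht
  simp [cu, h]

theorem cv_ne {t : AN} (ht : IsUnit t) : cv t ≠ 0 := by
  have h := unitN.1 ht
  simp [cv, h]

theorem acN_one (p : WN) : acN 1 p = p :=
  WN.ext' (one_smul _ _) ((one_smul _ _).trans (dN_one _)) ((one_smul _ _).trans (dP_one _))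
    ((one_smul _ _).trans (dP_one _)) (by rw [acN_u, cu_one, one_mul])
    (by rw [acN_v, cv_one, one_mul])

theorem acN_mul (t t' : AN) (p : WN) : acN (t * t') p = acN t (acN t' p) :=
  WN.ext' (mul_smul _ _ _)
    (by simp only [acN_n, Pi.mul_apply, dN_mul, dN_smul, mul_smul])
    (by simp only [acN_a, Pi.mul_apply, dP_mul, dP_smul, mul_smul])
    (by simp only [acN_b, Pi.mul_apply, dP_mul, dP_smul, mul_smul])
    (by simp only [acN_u, cu_mul, mul_assoc]) (by simp only [acN_v, cv_mul, mul_assoc])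

theorem lin_acN (t : AN) : IsLinearMap ℂ (acN t) :=
  ⟨fun _ _ => WN.ext' (smul_add _ _ _)
      ((congrArg (t 1 • ·) (dN_add _ _ _)).trans (smul_add _ _ _))
      ((congrArg (t 2 • ·) (dP_add _ _ _)).trans (smul_add _ _ _))
      ((congrArg (t 3 • ·) (dP_add _ _ _)).trans (smul_add _ _ _)) (mul_add _ _ _) (mul_add _ _ _),
    fun _ _ => WN.ext' (smul_comm _ _ _)
      ((congrArg (t 1 • ·) (dN_smul _ _ _)).trans (smul_comm _ _ _))
      ((congrArg (t 2 • ·) (dP_smul _ _ _)).trans (smul_comm _ _ _))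
      ((congrArg (t 3 • ·) (dP_smul _ _ _)).trans (smul_comm _ _ _)) (mul_left_comm _ _ _)
      (mul_left_comm _ _ _)⟩

/-- The fivefold is invariant. -/
theorem NF.Nh_inv (N : NF) {t : AN} (ht : IsUnit t) {p : WN} (h : p ∈ N.Nh) : acN t p ∈ N.Nh := by
  have u := unitN.1 ht
  have k : ∀ (c : ℂ) (s : V3), p.n ⬝ᵥ s = 0 → (t 1 • dN (t 0) p.n) ⬝ᵥ (c • dP (t 0) s) = 0 :=
    fun c s e => by rw [smul_dotProduct, dotProduct_smul, dN_dP, e, mul_zero, smul_zero,
      smul_zero]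
  refine ⟨smul_ne_zero (u 0) h.y, smul_ne_zero (u 1) (dN_ne (u 0) h.n),
    smul_ne_zero (u 2) (dP_ne (u 0) h.a), smul_ne_zero (u 3) (dP_ne (u 0) h.b), k _ _ h.na,
    k _ _ h.nb, ?_, fun k k' => ?_⟩
  · rw [acN_a, acN_b, acN_u, acN_n, map_smul, map_smul, LinearMap.smul_apply, cross_dP, h.u,
      dN_smul, smul_smul, smul_smul, smul_smul, smul_smul]
    refine congrArg (· • _) ?_
    have := u 1
    simp only [cu]
    field_simp
  · have e : ∀ k : V3, k = dN (t 0) (dN (t 0)⁻¹ k) := fun k => by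
      rw [← dN_mul, mul_inv_cancel₀ (u 0), dN_one]
    rw [e k, e k']
    generalize dN (t 0)⁻¹ k = κ
    generalize dN (t 0)⁻¹ k' = κ'
    simp only [acN_y, acN_n, acN_a, acN_b, acN_v, map_smul, cross_dN, NF.pol_smul, NF.pol_smul',
      NF.pol_dP, h.v,
      dotProduct_smul, dN_dP, smul_eq_mul, cv]
    have := u 2
    have := u 3
    field_simp

/-! ### analyticity -/

section an

variable {P : Type*} [NormedAddCommGroup P] [NormedSpace ℂ P] {f : P → ℂ} {g : P → V3} {q : P}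

theorem an_dP (hf : AnalyticAt ℂ f q) (hg : AnalyticAt ℂ g q) :
    AnalyticAt ℂ (fun p => dP (f p) (g p)) q := analyticAt_pi_iff.2 fun i => by
  have h := analyticAt_pi_iff.1 hg
  fin_cases i
  exacts [hf.mul (h 0), hf.mul (h 1), h 2]

theorem an_dN (hf : AnalyticAt ℂ f q) (hg : AnalyticAt ℂ g q) :
    AnalyticAt ℂ (fun p => dN (f p) (g p)) q := analyticAt_pi_iff.2 fun i => by
  have h := analyticAt_pi_iff.1 hg
  fin_cases i
  exacts [h 0, h 1, hf.mul (h 2)]

end an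

theorem an_cu {t : AN} (ht : IsUnit t) : AnalyticAt ℂ cu t := by
  have h := analyticAt_pi_iff.1 (analyticAt_id (𝕜 := ℂ) (z := t))
  exact (((h 2).mul (h 3)).mul (h 0)).mul ((h 1).inv (unitN.1 ht 1))

theorem an_cv {t : AN} (ht : IsUnit t) : AnalyticAt ℂ cv t := by
  have h := analyticAt_pi_iff.1 (analyticAt_id (𝕜 := ℂ) (z := t))
  exact (((h 1).mul (h 1)).mul (h 0)).mul
    (((h 2).mul (h 3)).inv (mul_ne_zero (unitN.1 ht 2) (unitN.1 ht 3)))

theorem an_acN {t : AN} (ht : IsUnit t) (x : WN) :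
    AnalyticAt ℂ (fun p : AN × WN => acN p.1 p.2) (t, x) := by
  have h := analyticAt_pi_iff.1 (analyticAt_fst (𝕜 := ℂ) (p := (t, x)))
  have s0 := analyticAt_snd (𝕜 := ℂ) (p := (t, x))
  have s1 := analyticAt_snd.comp s0
  have s2 := analyticAt_snd.comp s1
  have s3 := analyticAt_snd.comp s2
  have s4 := analyticAt_snd.comp s3
  exact ((h 0).smul (analyticAt_fst.comp s0)).prod
    (((h 1).smul (an_dN (h 0) (analyticAt_fst.comp s1))).prod
      (((h 2).smul (an_dP (h 0) (analyticAt_fst.comp s2))).prod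
        (((h 3).smul (an_dP (h 0) (analyticAt_fst.comp s3))).prod
          ((((an_cu ht).comp (f := Prod.fst) (x := (t, x)) analyticAt_fst).mul
            (analyticAt_fst.comp s4)).prod
            (((an_cv ht).comp (f := Prod.fst) (x := (t, x)) analyticAt_fst).mul
              (analyticAt_snd.comp s4))))))

instance isAct_acN : IsAct acN univ :=
  ⟨fun p _ => acN_one p, fun a b _ _ p _ => acN_mul a b p, fun _ _ _ _ => trivial,
    fun _ ha x _ => an_acN ha x⟩

theorem hm_cu : Hm cu := ⟨cu_one, fun a b _ _ => cu_mul a b, fun _ h => (an_cu h).continuousAt⟩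

theorem hm_cv : Hm cv := ⟨cv_one, fun a b _ _ => cv_mul a b, fun _ h => (an_cv h).continuousAt⟩

theorem hm_tN (i : Fin 4) : Hm fun t : AN => t i :=
  ⟨rfl, fun _ _ _ _ => rfl, fun _ _ => (continuous_apply i).continuousAt⟩

theorem lcq_cu (S : Set WN) [Mono.FP acN S] : lcq acN S cu =
    lcq acN S (fun t => t 2) + lcq acN S (fun t => t 3) + lcq acN S (fun t => t 0) -
      lcq acN S (fun t => t 1) := by
  rw [eq_sub_iff_add_eq, ← lcq_mul hm_cu (hm_tN 1), ← lcq_mul (hm_tN 2) (hm_tN 3),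
    ← lcq_mul ((hm_tN 2).mul' (hm_tN 3)) (hm_tN 0)]
  exact lcq_congr (((hm_tN 2).mul' (hm_tN 3)).mul' (hm_tN 0)) fun a ha =>
    inv_mul_cancel_right₀ (unitN.1 ha 1) _

theorem lcq_cv (S : Set WN) [Mono.FP acN S] : lcq acN S cv =
    lcq acN S (fun t => t 1) + lcq acN S (fun t => t 1) + lcq acN S (fun t => t 0) -
      lcq acN S (fun t => t 2) - lcq acN S (fun t => t 3) := by
  rw [sub_sub, eq_sub_iff_add_eq, ← lcq_mul (hm_tN 2) (hm_tN 3),
    ← lcq_mul hm_cv ((hm_tN 2).mul' (hm_tN 3)), ← lcq_mul (hm_tN 1) (hm_tN 1),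
    ← lcq_mul ((hm_tN 1).mul' (hm_tN 1)) (hm_tN 0)]
  exact lcq_congr (((hm_tN 1).mul' (hm_tN 1)).mul' (hm_tN 0)) fun a ha =>
    inv_mul_cancel_right₀ (mul_ne_zero (unitN.1 ha 2) (unitN.1 ha 3)) _

/-! ### properness -/

namespace N2

/-- A homogeneous size of a line. -/
noncomputable def mN (y : V4) (n : V3) : ℝ := ‖y‖ * (‖n 0‖ + ‖n 1‖) + ‖n 2‖

/-- A homogeneous size of a point. -/
noncomputable def mP (y : V4) (a : V3) : ℝ := ‖a 0‖ + ‖a 1‖ + ‖y‖ * ‖a 2‖

theorem mN_act (t c : ℂ) (y : V4) (n : V3) : mN (t • y) (c • dN t n) = ‖c‖ * ‖t‖ * mN y n := by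
  simp [mN, dN, norm_smul]; ring

theorem mP_act (t c : ℂ) (y : V4) (a : V3) : mP (t • y) (c • dP t a) = ‖c‖ * ‖t‖ * mP y a := by
  simp [mP, dP, norm_smul]; ring

theorem mN_pos {y : V4} {n : V3} (hy : y ≠ 0) (hn : n ≠ 0) : 0 < mN y n := by
  have h1 := norm_pos_iff.2 hy
  obtain ⟨k, h⟩ := ne_iff.1 hn
  have h2 : 0 < ‖n k‖ := norm_pos_iff.2 h
  unfold mN
  fin_cases k <;> simp only [Fin.zero_eta, Fin.mk_one, Fin.reduceFinMk, Fin.isValue] at h2 <;>
    positivity

theorem mP_pos {y : V4} {a : V3} (hy : y ≠ 0) (ha : a ≠ 0) : 0 < mP y a := by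
  have h1 := norm_pos_iff.2 hy
  obtain ⟨k, h⟩ := ne_iff.1 ha
  have h2 : 0 < ‖a k‖ := norm_pos_iff.2 h
  unfold mP
  fin_cases k <;> simp only [Fin.zero_eta, Fin.mk_one, Fin.reduceFinMk, Fin.isValue] at h2 <;>
    positivity

theorem mN_le {y : V4} {n : V3} (hy : ‖y‖ = 1) (h : mN y n = 1) : ‖n‖ ≤ 1 := by
  rw [mN, hy] at h
  have z := fun j => norm_nonneg (n j)
  refine (pi_norm_le_iff_of_nonneg zero_le_one).2 fun j => ?_
  fin_cases j <;> simp only [Fin.zero_eta, Fin.mk_one, Fin.reduceFinMk, Fin.isValue] <;>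
    linarith [z 0, z 1, z 2]

theorem mP_le {y : V4} {a : V3} (hy : ‖y‖ = 1) (h : mP y a = 1) : ‖a‖ ≤ 1 := by
  rw [mP, hy] at h
  have z := fun j => norm_nonneg (a j)
  refine (pi_norm_le_iff_of_nonneg zero_le_one).2 fun j => ?_
  fin_cases j <;> simp only [Fin.zero_eta, Fin.mk_one, Fin.reduceFinMk, Fin.isValue] <;>
    linarith [z 0, z 1, z 2]

theorem mN_zero (y : V4) : mN y 0 = 0 := by simp [mN]

theorem mP_zero (y : V4) : mP y 0 = 0 := by simp [mP]

/-- The four sizes. -/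
noncomputable def sz (p : WN) : Fin 4 → ℝ := ![‖p.y‖, mN p.y p.n, mP p.y p.a, mP p.y p.b]

theorem cont_sz (i : Fin 4) : Continuous fun p => sz p i := by
  fin_cases i <;> simp only [sz, mN, mP, Fin.zero_eta, Fin.mk_one, Fin.reduceFinMk, Fin.isValue,
    Matrix.cons_val] <;> fun_prop

theorem sz_pos {N : NF} {p : WN} (h : p ∈ N.Nh) (i : Fin 4) : 0 < sz p i := by
  fin_cases i
  exacts [norm_pos_iff.2 h.y, mN_pos h.y h.n, mP_pos h.y h.a, mP_pos h.y h.b]

theorem sz_act0 (t : AN) (p : WN) : sz (acN t p) 0 = ‖t 0‖ * sz p 0 := norm_smul _ _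

theorem sz_act (t : AN) (p : WN) (i : Fin 3) :
    sz (acN t p) i.succ = ‖t i.succ‖ * ‖t 0‖ * sz p i.succ := by
  fin_cases i
  exacts [mN_act _ _ _ _, mP_act _ _ _ _, mP_act _ _ _ _]

/-- A bound for the norm of the torus element. -/
noncomputable def nr (p q : WN) : ℝ :=
  sz q 0 / sz p 0 + ∑ i : Fin 3, sz q i.succ * sz p 0 / (sz p i.succ * sz q 0)

theorem nr_eq {N : NF} {t : AN} (ht : IsUnit t) {p : WN} (h : p ∈ N.Nh) :
    nr p (acN t p) = ∑ i, ‖t i‖ := by
  have h0 := (sz_pos h 0).ne'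
  have u := norm_ne_zero_iff.2 (unitN.1 ht 0)
  rw [nr, Fin.sum_univ_succ (n := 3), sz_act0, mul_div_cancel_right₀ _ h0]
  refine congrArg (_ + ·) (Finset.sum_congr rfl fun i _ => ?_)
  have h1 := (sz_pos h i.succ).ne'
  rw [sz_act]
  field_simp

theorem cont_pol (N : NF) {P : Type*} [TopologicalSpace P] {y : P → V4} {s s' : P → V3}
    (hy : Continuous y) (hs : Continuous s) (hs' : Continuous s') :
    Continuous fun p => N.pol (y p) (s p) (s' p) := by
  have b : ∀ i, Continuous fun p => N.b i (y p) := fun i =>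
    ((N.B i).continuous.comp hy).clm_apply hy
  have c : Continuous fun p => N.c (y p) :=
    ((N.C.continuous.comp hy).clm_apply hy).clm_apply hy
  have b0 := b 0
  have b1 := b 1
  unfold NF.pol
  fun_prop

theorem cont_cross {P : Type*} [TopologicalSpace P] {s s' : P → V3} (hs : Continuous s)
    (hs' : Continuous s') : Continuous fun p => crossProduct (s p) (s' p) := by
  refine continuous_pi fun i => ?_
  fin_cases i <;> simp only [_root_.cross_apply, Fin.zero_eta, Fin.mk_one, Fin.reduceFinMk, Fin.isValue,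
    Matrix.cons_val] <;> fun_prop

/-- The equations. -/
def Eqs (N : NF) : Set WN := {p | p.n ⬝ᵥ p.a = 0 ∧ p.n ⬝ᵥ p.b = 0 ∧
  crossProduct p.a p.b = p.u • p.n ∧ ∀ k k' : V3,
    N.pol p.y (crossProduct k p.n) (crossProduct k' p.n) =
      p.v * (k ⬝ᵥ p.a * k' ⬝ᵥ p.b + k' ⬝ᵥ p.a * k ⬝ᵥ p.b)}

theorem closed_Eqs (N : NF) : IsClosed (Eqs N) := by
  have cy : Continuous WN.y := by fun_prop
  have cn : Continuous WN.n := by fun_prop
  have ca : Continuous WN.a := by fun_prop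
  have cb : Continuous WN.b := by fun_prop
  have cu : Continuous WN.u := by fun_prop
  have cv : Continuous WN.v := by fun_prop
  refine (isClosed_eq (cn.dotProduct ca) continuous_const).inter
    ((isClosed_eq (cn.dotProduct cb) continuous_const).inter
      ((isClosed_eq (cont_cross ca cb) (cu.smul cn)).inter ?_))
  show IsClosed {p : WN | ∀ k k' : V3, N.pol p.y (crossProduct k p.n) (crossProduct k' p.n) =
    p.v * (k ⬝ᵥ p.a * k' ⬝ᵥ p.b + k' ⬝ᵥ p.a * k ⬝ᵥ p.b)}
  simp only [ofPred_forall]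
  exact isClosed_iInter fun k : V3 => isClosed_iInter fun k' : V3 => isClosed_eq
    (cont_pol N cy (cont_cross (continuous_const (y := k)) cn)
      (cont_cross (continuous_const (y := k')) cn))
    (cv.mul ((((continuous_const (y := k)).dotProduct ca).mul
      ((continuous_const (y := k')).dotProduct cb)).add
      (((continuous_const (y := k')).dotProduct ca).mul
        ((continuous_const (y := k)).dotProduct cb))))

theorem mem_Nh {N : NF} {p : WN} :
    p ∈ N.Nh ↔ (p.y ≠ 0 ∧ p.n ≠ 0 ∧ p.a ≠ 0 ∧ p.b ≠ 0) ∧ p ∈ Eqs N :=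
  ⟨fun h => ⟨⟨h.y, h.n, h.a, h.b⟩, h.na, h.nb, h.u, h.v⟩,
    fun ⟨⟨a, b, c, d⟩, e, f, g, h⟩ => ⟨a, b, c, d, e, f, g, h⟩⟩

theorem lc (N : NF) : IsLocallyClosed N.Nh := by
  have o : IsOpen {p : WN | p.y ≠ 0 ∧ p.n ≠ 0 ∧ p.a ≠ 0 ∧ p.b ≠ 0} :=
    (isOpen_ne.preimage (f := WN.y) (by fun_prop)).inter
      ((isOpen_ne.preimage (f := WN.n) (by fun_prop)).inter
        ((isOpen_ne.preimage (f := WN.a) (by fun_prop)).inter
          (isOpen_ne.preimage (f := WN.b) (by fun_prop))))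
  exact ⟨_, _, o, closed_Eqs N, Set.ext fun _ => mem_Nh⟩

theorem free {N : NF} {t : AN} {p : WN} (h : p ∈ N.Nh) (e : acN t p = p) : t = 1 := by
  have k : ∀ {V : Type} [AddCommGroup V] [Module ℂ V] {c : ℂ} {v : V}, v ≠ 0 → c • v = v → c = 1 :=
    fun hv e => smul_left_injective ℂ hv (e.trans (one_smul _ _).symm)
  have h0 : t 0 = 1 := k h.y (congrArg WN.y e)
  have h1 := congrArg WN.n e
  have h2 := congrArg WN.a e
  have h3 := congrArg WN.b e
  rw [acN_n, h0, dN_one] at h1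
  rw [acN_a, h0, dP_one] at h2
  rw [acN_b, h0, dP_one] at h3
  funext i
  fin_cases i
  exacts [h0, k h.n h1, k h.a h2, k h.b h3]

theorem fp (N : NF) : Mono.FP acN N.Nh := by
  refine fp_of (fun a ha x hx => N.Nh_inv ha hx) (lc N) (fun a _ x hx e => free hx e)
    fun x a x₀ x₁ ha hx h0 h1 t0 t1 h => ?_
  have p := fun i => ((cont_sz i).tendsto _).comp t0
  have q := fun i => ((cont_sz i).tendsto _).comp t1
  have r := ((q 0).div (p 0) (sz_pos h0 0).ne').add (tendsto_finsetSum Finset.univ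
    fun (i : Fin 3) _ => ((q i.succ).mul (p 0)).div ((p i.succ).mul (q 0))
      (mul_pos (sz_pos h0 i.succ) (sz_pos h1 0)).ne')
  refine not_tendsto_atTop_of_tendsto_nhds (r.congr fun n => nr_eq (ha n) (hx n))
    (tendsto_atTop_mono (fun n => ?_) h)
  exact (pi_norm_le_iff_of_nonneg (Finset.sum_nonneg fun _ _ => norm_nonneg _)).2 fun i =>
    Finset.single_le_sum (f := fun i => ‖a n i‖) (fun _ _ => norm_nonneg _) (Finset.mem_univ i)

/-- The denominator of `v`. -/
noncomputable def dv (a b : V3) : ℂ := star a ⬝ᵥ a * star b ⬝ᵥ b + star b ⬝ᵥ a * star a ⬝ᵥ b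

open scoped ComplexOrder in
theorem dv_ne {a b : V3} (ha : a ≠ 0) (hb : b ≠ 0) : dv a b ≠ 0 := by
  have h1 := Matrix.dotProduct_star_self_pos_iff.2 ha
  have h2 := Matrix.dotProduct_star_self_pos_iff.2 hb
  have h3 : 0 ≤ star b ⬝ᵥ a * star a ⬝ᵥ b := by
    rw [Matrix.star_dotProduct b a]
    exact star_mul_self_nonneg _
  exact (add_pos_of_pos_of_nonneg (mul_pos h1 h2) h3).ne'

open scoped ComplexOrder in
theorem dn_ne {n : V3} (h : n ≠ 0) : n ⬝ᵥ star n ≠ 0 :=
  (Matrix.dotProduct_self_star_pos_iff.2 h).ne'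

/-- The point with given `y`, `n`, `a`, `b`. -/
noncomputable def rc (N : NF) (p : WN) : WN :=
  (p.y, p.n, p.a, p.b, rat (crossProduct p.a p.b) p.n,
    N.pol p.y (crossProduct (star p.a) p.n) (crossProduct (star p.b) p.n) / dv p.a p.b)

theorem rc_eq {N : NF} {p : WN} (h : p ∈ N.Nh) : rc N (p.y, p.n, p.a, p.b, 0, 0) = p :=
  WN.ext' rfl rfl rfl rfl
    (by
      show (crossProduct p.a p.b ⬝ᵥ star p.n) / (p.n ⬝ᵥ star p.n) = p.u
      rw [h.u, smul_dotProduct, smul_eq_mul, mul_div_cancel_right₀ _ (dn_ne h.n)])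
    (by
      show N.pol p.y (crossProduct (star p.a) p.n) (crossProduct (star p.b) p.n) / dv p.a p.b = p.v
      rw [h.v]
      exact mul_div_cancel_right₀ _ (dv_ne h.a h.b))

theorem ne_of_sz {p : WN} (h : ∀ i, sz p i = 1) : p.y ≠ 0 ∧ p.n ≠ 0 ∧ p.a ≠ 0 ∧ p.b ≠ 0 :=
  ⟨fun e => zero_ne_one (norm_zero.symm.trans ((congrArg norm e).symm.trans (h 0))),
    fun e => zero_ne_one ((mN_zero _).symm.trans ((congrArg (mN p.y) e).symm.trans (h 1))),
    fun e => zero_ne_one ((mP_zero _).symm.trans ((congrArg (mP p.y) e).symm.trans (h 2))),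
    fun e => zero_ne_one ((mP_zero _).symm.trans ((congrArg (mP p.y) e).symm.trans (h 3)))⟩

theorem cpt (N : NF) : CompactSpace (Quo acN N.Nh) := by
  have c1 : IsClosed {p : WN | ∀ i, sz p i = 1} := by
    rw [ofPred_forall]
    exact isClosed_iInter fun i => isClosed_eq (cont_sz i) continuous_const
  have k0 : IsCompact (Metric.closedBall (0 : WN) 1 ∩ {p | ∀ i, sz p i = 1}) :=
    (isCompact_closedBall _ _).inter_right c1
  have cy : Continuous WN.y := by fun_prop
  have cn : Continuous WN.n := by fun_prop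
  have ca : Continuous WN.a := by fun_prop
  have cb : Continuous WN.b := by fun_prop
  have k1 : IsCompact (rc N '' (Metric.closedBall (0 : WN) 1 ∩ {p | ∀ i, sz p i = 1})) := by
    refine k0.image_of_continuousOn (cy.continuousOn.prodMk (cn.continuousOn.prodMk
      (ca.continuousOn.prodMk (cb.continuousOn.prodMk (ContinuousOn.prodMk ?_ ?_)))))
    · exact ((cont_cross ca cb).dotProduct cn.star).continuousOn.div
        (cn.dotProduct cn.star).continuousOn fun p hp => dn_ne (ne_of_sz hp.2).2.1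
    · exact (cont_pol N cy (cont_cross ca.star cn) (cont_cross cb.star cn)).continuousOn.div
        (((ca.star.dotProduct ca).mul (cb.star.dotProduct cb)).add
          ((cb.star.dotProduct ca).mul (ca.star.dotProduct cb))).continuousOn
        fun p hp => dv_ne (ne_of_sz hp.2).2.2.1 (ne_of_sz hp.2).2.2.2
  have k : IsCompact ({p : WN | ∀ i, sz p i = 1} ∩ Eqs N) := by
    refine k1.of_isClosed_subset (c1.inter (closed_Eqs N)) fun p hp => ?_
    refine ⟨(p.y, p.n, p.a, p.b, 0, 0), ⟨mem_closedBall_zero_iff.2 ?_, hp.1⟩,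
      rc_eq (mem_Nh.2 ⟨ne_of_sz hp.1, hp.2⟩)⟩
    have h0 : ‖p.y‖ = 1 := hp.1 0
    simp only [Prod.norm_def, norm_zero, max_le_iff]
    exact ⟨h0.le, mN_le h0 (hp.1 1), mP_le h0 (hp.1 2), mP_le h0 (hp.1 3), zero_le_one,
      zero_le_one⟩
  have k' := (IsInducing.subtypeVal (t := N.Nh)).isCompact_preimage' k fun p hp =>
    ⟨⟨p, mem_Nh.2 ⟨ne_of_sz hp.1, hp.2⟩⟩, rfl⟩
  refine ⟨(k'.image (continuous_mk (act := acN))).of_isClosed_subset isClosed_univ fun x _ => ?_⟩
  obtain ⟨p, rfl⟩ := mk_surj x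
  have hp := sz_pos p.2
  let r : Fin 4 → ℝ := Fin.cons (sz p.1 0)⁻¹ fun i : Fin 3 => sz p.1 0 / sz p.1 i.succ
  have hr : ∀ i, 0 < r i := fun i =>
    Fin.cases (inv_pos.2 (hp 0)) (fun i => div_pos (hp 0) (hp i.succ)) i
  have h1 : IsUnit fun i => (r i : ℂ) := unitN.2 fun i => Complex.ofReal_ne_zero.2 (hr i).ne'
  have h2 : ∀ i, ‖(r i : ℂ)‖ = r i := fun i => Complex.norm_of_nonneg (hr i).le
  have h4 := N.Nh_inv h1 p.2
  refine ⟨⟨_, h4⟩, ⟨fun i => ?_, (mem_Nh.1 h4).2⟩, mk_act h1 p.2 h4⟩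
  refine Fin.cases ?_ (fun i => ?_) i
  · exact (sz_act0 _ _).trans (by rw [h2]; exact inv_mul_cancel₀ (hp 0).ne')
  · refine (sz_act _ _ i).trans ?_
    rw [h2, h2]
    have e0 := (hp 0).ne'
    have e1 := (hp i.succ).ne'
    show sz p.1 0 / sz p.1 i.succ * (sz p.1 0)⁻¹ * sz p.1 i.succ = 1
    field_simp

end N2

/-- **The action is free and proper with compact quotient.** -/
theorem stN2 : StN2 := ⟨isAct_acN, fun t _ => lin_acN t, fun N => ⟨N2.fp N, N2.cpt N⟩⟩

end Vale.Agent.P287Q.D
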