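import Vale.Agent.P287Q.D.TDefs
import Vale.Agent.P287Q.Mf.Var

/-!
# The divisor `a = b` has degree one over the cubic
-/

set_option linter.unusedSectionVars false
set_option linter.style.haveILetI false

namespace Vale.Agent.P287Q.D

open Set Function Topology P291Z P269 P269.Holo P269.Mono P269.Tq P269.Coh P269.Tq.QMA

namespace TU

section gen

variable {A A' W W' : Type} [NormedRing A] [NormedAlgebra ℂ A] [NormedAddCommGroup W]
  [NormedSpace ℂ W] [NormedRing A'] [NormedAlgebra ℂ A'] [NormedAddCommGroup W'] [NormedSpace ℂ W']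
  [FiniteDimensional ℂ A] [FiniteDimensional ℂ W] [FiniteDimensional ℂ A'] [FiniteDimensional ℂ W']
  {act : A → W → W} {act' : A' → W' → W'} {S : Set W} {S' : Set W'} {f : W → W'} {θ : A → A'}
  [IsAct act univ] [IsAct act' univ] {n : ℤ}

/-- A map which is bijective over the invariant open set `g ≠ 0` has degree one. -/
theorem J_open (h : QM act S n) (h' : QM act' S' n) (φ : Tq.Hol act act' S S' θ f)
    (hc : IsConnected S') {g : W' → ℂ} (hg : Continuous g)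
    (hO : ∀ t, IsUnit t → ∀ x, g x ≠ 0 → g (act' t x) ≠ 0) (hne : ∃ x ∈ S', g x ≠ 0)
    (inj : ∀ x ∈ S, ∀ y ∈ S, g (f x) ≠ 0 → ∀ t, IsUnit t → f y = act' t (f x) →
      ∃ a, IsUnit a ∧ y = act a x)
    (surj : ∀ y ∈ S', g y ≠ 0 → ∃ x ∈ S, f x = y) (b : H (Quo act' S')) :
    h.ps.J (H.map φ.q b) = h'.ps.J b := by
  let O : Set W' := {x | x ∈ S' ∧ g x ≠ 0}
  have e : O ⊆ S' := fun _ k => k.1
  have ho : IsOpen (Subtype.val ⁻¹' O : Set S') := by
    rw [show (Subtype.val ⁻¹' O : Set S') = {y | g y.1 ≠ 0} from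
      Set.ext fun y => and_iff_right y.2]
    exact isOpen_ne_fun (hg.comp continuous_subtype_val) continuous_const
  have := QMA.fp_sub h'.fp e (fun t ht x hx => ⟨h'.fp.mem t ht x hx.1, hO t ht x hx.2⟩)
    (haveI := h'.fp.lc; (IsOpenEmbedding.inclusion e ho).locallyCompactSpace)
  have := h'.fp
  have := isConnected_iff_connectedSpace.1 hc
  have : ConnectedSpace (Quo act' S') := mk_surj.connectedSpace continuous_mk
  have h1 : ∀ x : S', Quo.mk act' x ∈ range (qinc act' e) ↔ x.1 ∈ O := fun x =>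
    mk_mem_range_qinc e (x := Sp.of _ x.1 x.2)
  refine Mf.J_map_open h h' φ (C := (range (qinc act' e))ᶜ)
    (isOpenEmbedding_qinc e ho).isOpen_range.isClosed_compl (fun T hT k => ?_) ?_ ?_ b
  · obtain ⟨x, hx, hx'⟩ := hne
    exact hT.eq_univ ⟨_, k (not_not.2 ((h1 ⟨x, hx⟩).2 ⟨hx, hx'⟩))⟩
  · refine mk_surj.forall.2 fun x hx => mk_surj.forall.2 fun y _ k => ?_
    obtain ⟨t, h2, h3⟩ := mk_eq (x := ⟨f x, φ.maps x.2⟩) (y := ⟨f y, φ.maps y.2⟩) k
    exact Quot.sound (inj x x.2 y y.2 ((h1 ⟨f x, φ.maps x.2⟩).1 (not_not.1 hx)).2 t h2 h3)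
  · refine mk_surj.forall.2 fun y hy => ?_
    obtain ⟨x, hx, k⟩ := surj y y.2 ((h1 y).1 (not_not.1 hy)).2
    exact ⟨Quo.mk _ ⟨x, hx⟩, congrArg (Quo.mk _) (Subtype.ext k)⟩

end gen

variable (N : NF)

/-- The equation of the bad set. -/
noncomputable def g (p : V24) : ℂ := 2 * p.1 0 * p.2 0 + p.1 1 * p.2 1 + N.b 0 p.2

theorem g_smul (t : ℂ) (p : V24) : g N (t • p) = t ^ 2 * g N p := by
  simp only [g, Prod.smul_fst, Prod.smul_snd, Pi.smul_apply, smul_eq_mul, NF.b_smul]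
  ring

theorem g_cont : Continuous (g N) := by
  have : Continuous fun p : V24 => N.b 0 p.2 :=
    ((N.B 0).continuous.comp continuous_snd).clm_apply continuous_snd
  unfold g
  fun_prop

/-- The polar line. -/
noncomputable def pl (y : V4) (a : V3) : V3 :=
  ![2 * a 0 * y 0 + a 1 * y 1 + a 2 * N.b 0 y, a 0 * y 1 + 2 * a 1 * y 2 + a 2 * N.b 1 y,
    a 0 * N.b 0 y + a 1 * N.b 1 y + 2 * a 2 * N.c y]

theorem g_pt (y : V4) (a : V3) : g N (pt y a) = a 2 * pl N y a 0 := by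
  simp only [g, pt, pl, NF.b_smul]
  simp
  ring

variable {N}

theorem par_b {a b : V3} (h : crossProduct a b = 0) (h2 : a 2 ≠ 0) : b = (b 2 / a 2) • a := by
  have e0 := congrFun h 0
  have e1 := congrFun h 1
  simp only [_root_.cross_apply, Matrix.cons_val, Pi.zero_apply] at e0 e1
  funext i
  fin_cases i <;> simp <;> field_simp
  · linear_combination e1
  · linear_combination -e0

theorem par_n {p : WN} (hp : p ∈ N.NU) (h2 : p.a 2 ≠ 0) (h0 : pl N p.y p.a 0 ≠ 0) :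
    p.n = (p.n 0 / pl N p.y p.a 0) • pl N p.y p.a := by
  have hb := par_b (hp.1.u.trans (by rw [hp.2, zero_smul])) h2
  have hna := hp.1.na
  have h1 : ∀ c k : V3, (c ⬝ᵥ p.n) * (pl N p.y p.a ⬝ᵥ crossProduct k p.n) = 0 := fun c k => by
    have e := hp.1.v (crossProduct c p.a) k
    rw [hb] at e
    simp only [NF.pol, _root_.cross_apply, dotProduct, Fin.sum_univ_three, Matrix.cons_val, pl,
      Pi.smul_apply, smul_eq_mul] at e hna ⊢
    linear_combination e + ((2 * c 0 * p.y 0 + c 1 * p.y 1 + c 2 * N.b 0 p.y) *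
      (k 1 * p.n 2 - k 2 * p.n 1) + (c 0 * p.y 1 + 2 * c 1 * p.y 2 + c 2 * N.b 1 p.y) *
      (k 2 * p.n 0 - k 0 * p.n 2) + (c 0 * N.b 0 p.y + c 1 * N.b 1 p.y + 2 * c 2 * N.c p.y) *
      (k 0 * p.n 1 - k 1 * p.n 0)) * hna
  obtain ⟨i, hi⟩ := Function.ne_iff.1 hp.1.n
  have h3 : ∀ k : V3, pl N p.y p.a ⬝ᵥ crossProduct k p.n = 0 := fun k =>
    (mul_eq_zero.1 (h1 (Pi.single i 1) k)).resolve_left (by simpa using hi)
  have e1 := h3 ![0, 1, 0]
  have e2 := h3 ![0, 0, 1]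
  simp only [_root_.cross_apply, dotProduct, Fin.sum_univ_three, Matrix.cons_val] at e1 e2
  generalize pl N p.y p.a = w at *
  funext j
  fin_cases j <;> simp <;> field_simp
  · linear_combination -e2
  · linear_combination e1

theorem dN_one (n : V3) : dN 1 n = n := by
  funext i
  fin_cases i <;> simp [dN]

theorem dP_one (n : V3) : dP 1 n = n := by
  funext i
  fin_cases i <;> simp [dP]

theorem inj1 (hm : ∀ t, IsUnit t → ∀ p ∈ N.NU, acN t p ∈ N.NU) {p p' : WN} (hp : p ∈ N.NU)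
    (hp' : p' ∈ N.NU) (h2 : p.a 2 ≠ 0) (h0 : pl N p.y p.a 0 ≠ 0) (ey : p'.y = p.y)
    (ea : p'.a = p.a) : ∃ t, IsUnit t ∧ p' = acN t p := by
  have hb := par_b (hp.1.u.trans (by rw [hp.2, zero_smul])) h2
  have hb' := par_b (hp'.1.u.trans (by rw [hp'.2, zero_smul])) (ea ▸ h2)
  have hn := par_n hp h2 h0
  have hn' := par_n hp' (ea ▸ h2) (by rwa [ey, ea])
  rw [ey, ea] at hn'
  rw [ea] at hb'
  have b2 : p.b 2 ≠ 0 := fun e => hp.1.b (by rw [hb, e, zero_div, zero_smul])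
  have b2' : p'.b 2 ≠ 0 := fun e => hp'.1.b (by rw [hb', e, zero_div, zero_smul])
  have n0 : p.n 0 ≠ 0 := fun e => hp.1.n (by rw [hn, e, zero_div, zero_smul])
  have n0' : p'.n 0 ≠ 0 := fun e => hp'.1.n (by rw [hn', e, zero_div, zero_smul])
  let t : AN := ![1, p'.n 0 / p.n 0, 1, p'.b 2 / p.b 2]
  have ht : IsUnit t := unit_iff.2 fun i => by
    fin_cases i
    exacts [one_ne_zero, div_ne_zero n0' n0, one_ne_zero, div_ne_zero b2' b2]
  have hq := hm t ht p hp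
  have c1 : p'.y = (acN t p).y := ey.trans (one_smul ℂ _).symm
  have c2 : p'.n = (acN t p).n := by
    change _ = (p'.n 0 / p.n 0) • dN 1 p.n
    rw [dN_one]
    nth_rewrite 1 [hn']
    nth_rewrite 2 [hn]
    rw [smul_smul, div_mul_div_cancel₀ n0]
  have c3 : p'.a = (acN t p).a := by
    change _ = (1 : ℂ) • dP 1 p.a
    rw [dP_one, one_smul, ea]
  have c4 : p'.b = (acN t p).b := by
    change _ = (p'.b 2 / p.b 2) • dP 1 p.b
    rw [dP_one]
    nth_rewrite 1 [hb']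
    nth_rewrite 2 [hb]
    rw [smul_smul, div_mul_div_cancel₀ b2]
  have c5 : p'.v = (acN t p).v := by
    have e := hq.1.v ![0, 0, 1] ![0, 0, 1]
    rw [← c1, ← c2, ← c3, ← c4, hp'.1.v] at e
    refine mul_right_cancel₀ ?_ e
    have : p'.a 2 * p'.b 2 ≠ 0 := mul_ne_zero (ea ▸ h2) b2'
    simpa [dotProduct, Fin.sum_univ_three, ← two_mul] using this
  exact ⟨t, ht, Prod.ext c1 (Prod.ext c2 (Prod.ext c3 (Prod.ext c4
    (Prod.ext (hp'.2.trans hq.2.symm) c5))))⟩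

theorem inj [IsAct acN univ] (hm : ∀ t, IsUnit t → ∀ p ∈ N.NU, acN t p ∈ N.NU) {p p' : WN}
    (hp : p ∈ N.NU) (hp' : p' ∈ N.NU) (hg : g N (pt p.y p.a) ≠ 0) {s : ℂ} (hs : s ≠ 0)
    (e : pt p'.y p'.a = s • pt p.y p.a) : ∃ t, IsUnit t ∧ p' = acN t p := by
  have hg' : g N (pt p'.y p'.a) ≠ 0 := by
    rw [e, g_smul]
    exact mul_ne_zero (pow_ne_zero _ hs) hg
  rw [g_pt] at hg hg'
  have a2 := left_ne_zero_of_mul hg
  have a2' := left_ne_zero_of_mul hg'
  have e0 : p'.a 0 = s * p.a 0 := congrArg (fun q => q.1 0) e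
  have e1 : p'.a 1 = s * p.a 1 := congrArg (fun q => q.1 1) e
  have e2 : p'.a 2 • p'.y = s • p.a 2 • p.y := congrArg Prod.snd e
  let t : AN := ![s * p.a 2 / p'.a 2, 1, p'.a 2 / p.a 2, 1]
  have ht : IsUnit t := unit_iff.2 fun i => by
    fin_cases i
    exacts [div_ne_zero (mul_ne_zero hs a2) a2', one_ne_zero, div_ne_zero a2' a2, one_ne_zero]
  have c1 : p'.y = (acN t p).y := by
    change _ = (s * p.a 2 / p'.a 2) • p.y
    rw [div_eq_inv_mul, mul_smul, mul_smul, ← e2, inv_smul_smul₀ a2']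
  have c2 : p'.a = (acN t p).a := by
    change _ = (p'.a 2 / p.a 2) • dP (s * p.a 2 / p'.a 2) p.a
    funext i
    fin_cases i <;> simp [dP, e0, e1] <;> field_simp
  obtain ⟨t', h1, h2⟩ := inj1 hm (hm t ht p hp) hp' (c2 ▸ a2')
    (c1 ▸ c2 ▸ right_ne_zero_of_mul hg') c1 c2
  exact ⟨t' * t, h1.mul ht, h2.trans (IsAct.mul (act := acN) _ _ h1 ht p (mem_univ p)).symm⟩

theorem surj {q : V24} (hF : N.F q.1 q.2 = 0) (hg : g N q ≠ 0) :
    ∃ p ∈ N.NU, pt p.y p.a = q := by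
  obtain ⟨u, y⟩ := q
  let a : V3 := ![u 0, u 1, 1]
  have e : pt y a = (u, y) := Prod.ext (by
    funext i
    fin_cases i <;> rfl) (one_smul ℂ y)
  have ha : a ≠ 0 := fun k => one_ne_zero (congrFun k 2)
  have hn : pl N y a ⬝ᵥ a = 0 := by
    simp only [NF.F, dotProduct, Fin.sum_univ_three, Matrix.cons_val, pl, a] at hF ⊢
    linear_combination 2 * hF
  refine ⟨(y, pl N y a, a, a, 0, -(4 * y 0 * y 2 * N.c y + y 1 * N.b 0 y * N.b 1 y -
    y 0 * N.b 1 y ^ 2 - y 2 * N.b 0 y ^ 2 - y 1 ^ 2 * N.c y)),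
    ⟨⟨fun k => hg ?_, fun k => hg ?_, ha, ha, hn, hn, ?_, fun k k' => ?_⟩, rfl⟩, e⟩
  · have k' : y = 0 := k
    simp [g, NF.b, k']
  · have k' : pl N y a = 0 := k
    rw [← e, g_pt, k', Pi.zero_apply, mul_zero]
  · exact (cross_self a).trans (zero_smul ℂ _).symm
  · change N.pol y (crossProduct k (pl N y a)) (crossProduct k' (pl N y a)) =
      _ * (k ⬝ᵥ a * k' ⬝ᵥ a + k' ⬝ᵥ a * k ⬝ᵥ a)
    simp only [NF.F, NF.pol, _root_.cross_apply, dotProduct, Fin.sum_univ_three, Matrix.cons_val,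
      pl, a, WN.v] at hF ⊢
    linear_combination 2 * (k 0 * k' 0 * (4 * y 2 * N.c y - N.b 1 y ^ 2) +
      k 1 * k' 1 * (4 * y 0 * N.c y - N.b 0 y ^ 2) + k 2 * k' 2 * (4 * y 0 * y 2 - y 1 ^ 2) +
      (k 0 * k' 1 + k 1 * k' 0) * (N.b 0 y * N.b 1 y - 2 * y 1 * N.c y) +
      (k 0 * k' 2 + k 2 * k' 0) * (y 1 * N.b 1 y - 2 * y 2 * N.b 0 y) +
      (k 1 * k' 2 + k 2 * k' 1) * (y 1 * N.b 0 y - 2 * y 0 * N.b 1 y)) * hF

end TU

theorem stU : StU := fun N F A hA hc h q φ x => by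
  have e : ∀ (t : Unit → ℂ) (z : Fin 6 → ℂ), acX t z = t () • z := fun _ _ => rfl
  refine TU.J_open h q φ hc (g := fun z => TU.g N (A.symm z))
    ((TU.g_cont N).comp A.symm.continuous) (fun t ht z hz => ?_) ?_
    (fun p hp p' hp' hg t ht k => ?_) (fun z hz hg => ?_) x
  · rw [e, map_smul, TU.g_smul]
    exact mul_ne_zero (pow_ne_zero _ (unit_iff.1 ht ())) hz
  · let y : V4 := ![0, 1, 0, 0]
    refine ⟨A (![-(1 - N.b 0 y) * N.b 1 y - N.c y, 1 - N.b 0 y], y), ⟨fun k => ?_, ?_⟩, ?_⟩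
    · have := congrArg (fun p => p.2 1) ((map_eq_zero_iff A A.injective).1 k)
      simp [y] at this
    · rw [hA]
      simp only [NF.F, Matrix.cons_val, show y 0 = 0 from rfl, show y 1 = 1 from rfl,
        show y 2 = 0 from rfl]
      ring
    · rw [A.symm_apply_apply]
      simp [TU.g, show y 0 = 0 from rfl, show y 1 = 1 from rfl]
  · rw [e, ← map_smul] at k
    rw [A.symm_apply_apply] at hg
    exact TU.inj h.fp.mem hp hp' hg (unit_iff.1 ht ()) (A.injective k)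
  · obtain ⟨p, h1, h2⟩ := TU.surj (q := A.symm z) (by
      rw [← hA, A.apply_symm_apply]; exact hz.2) hg
    exact ⟨p, h1, by rw [h2, A.apply_symm_apply]⟩

end Vale.Agent.P287Q.D
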