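import Vale.Agent.P287Q.D.TDefs
import Vale.Agent.P287Q.D.Mod0

/-!
# The divisor of the lines in the conic is the fibre square of the universal line
-/

namespace Vale.Agent.P287Q.D

open Set Function Filter Topology Matrix P269 P269.Holo P269.Tq Hb

namespace TV

open scoped ComplexOrder in
theorem rat_smul (u : ℂ) {n : V3} (h : n ≠ 0) : rat (u • n) n = u := by
  rw [rat, smul_dotProduct, smul_eq_mul,
    mul_div_cancel_right₀ _ (mt dotProduct_self_star_eq_zero.1 h)]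

theorem dual {n : V3} (h : n ≠ 0) : ∃ e : V3, n ⬝ᵥ e = 1 :=
  let ⟨i, hi⟩ := Function.ne_iff.1 h
  ⟨Pi.single i (n i)⁻¹, by rw [dotProduct_single, mul_inv_cancel₀ hi]⟩

theorem cross_dual {n e : V3} (h : n ⬝ᵥ e = 1) (s : V3) :
    crossProduct (crossProduct e s) n = s - (n ⬝ᵥ s) • e := by
  rw [cross_cross_eq_smul_sub_smul, dotProduct_comm e, h, one_smul, dotProduct_comm]

theorem cross_eq {n a b : V3} (h : n ≠ 0) (ha : n ⬝ᵥ a = 0) (hb : n ⬝ᵥ b = 0) :
    crossProduct a b = rat (crossProduct a b) n • n := by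
  obtain ⟨e, he⟩ := dual h
  have k := cross_cross_eq_smul_sub_smul (crossProduct e a) n b
  rw [cross_dual he, ha, hb, zero_smul, zero_smul, sub_zero, sub_zero] at k
  rw [k, rat_smul _ h]

theorem rat_of {n w : V3} {u : ℂ} (h : n ≠ 0) (e : w = u • n) : rat w n = u := e ▸ rat_smul u h

variable {N : NF}

theorem φ3_ne (g : N.Good) {z : W7} (hz : z ∈ N.Z) : φ3 z ≠ 0 := fun e => by
  rcases g.fst hz with k | k | k
  exacts [k (congrFun e 0), k (congrFun e 1), k (congrFun e 2)]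

theorem an_φ3 (z : W7) : AnalyticAt ℂ φ3 z := analyticAt_pi_iff.2 fun i => by
  fin_cases i
  exacts [an_co 0 z, an_co 1 z, an_co 5 z]

theorem pol_yy {z : W7} (hz : z ∈ N.Z) (s s' : V3) : N.pol (yy z) s s' =
    (φ3 z ⬝ᵥ s) * (φ3 (sw z) ⬝ᵥ s') + (φ3 z ⬝ᵥ s') * (φ3 (sw z) ⬝ᵥ s) := by
  obtain ⟨-, a, b, c⟩ := NF.mem_Z.1 hz
  rw [NF.pol, a, b, c]
  simp only [vec3_dotProduct]
  simp [yy, φ3, sw]
  ring

theorem φ3_ac (s : ℂ × ℂ) (z : W7) : φ3 (ac s z) = s.1 • dN (s.1 * s.2) (φ3 z) := by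
  funext i
  fin_cases i <;> simp [φ3, ac, ch, dN]
  ring

theorem χ3_eq (s : ℂ × ℂ) (u : ℂ) (a : V3) :
    (fun k => u * χ3 k s * a k) = u • dP (s.1 * s.2) a := by
  funext i
  fin_cases i <;> simp [χ3, dP, mul_assoc]

theorem cross_dP (t : ℂ) (a b : V3) :
    crossProduct (dP t a) (dP t b) = t • dN t (crossProduct a b) := by
  funext i
  fin_cases i <;> simp [cross_apply, dP, dN] <;> ring

theorem dN_smul (t u : ℂ) (n : V3) : dN t (u • n) = u • dN t n := by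
  funext i
  fin_cases i <;> simp [dN]
  ring

theorem acN_one (p : WN) : acN 1 p = p := by
  have h1 : ∀ n : V3, dN 1 n = n := fun n => by
    funext i
    fin_cases i <;> simp [dN]
  have h2 : ∀ n : V3, dP 1 n = n := fun n => by
    funext i
    fin_cases i <;> simp [dP]
  simp [acN, cu, cv, h1, h2]

theorem hm : Hm θj := by
  refine ⟨?_, fun a b _ _ => ?_, fun a _ => Continuous.continuousAt (continuous_pi fun i => ?_)⟩
  · funext i
    fin_cases i <;> simp [θj]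
  · funext i
    fin_cases i <;> simp [θj]
    ring
  · fin_cases i <;> simp [θj] <;> fun_prop

theorem maps (g : N.Good) : MapsTo jP N.PP N.NV := fun p hp =>
  ⟨⟨hp.1.1.1, φ3_ne g hp.1.1, hp.1.2.1, hp.2.1, hp.1.2.2, hp.2.2,
    cross_eq (φ3_ne g hp.1.1) hp.1.2.2 hp.2.2, fun k k' => by
      refine (pol_yy hp.1.1 _ _).trans ?_
      simp only [jP, WN.n, WN.v, dot_cross_self, zero_mul, add_zero]⟩, rfl⟩

theorem an (g : N.Good) (p) (hp : p ∈ N.PP) :
    ∃ Φ, AnalyticAt ℂ Φ p ∧ ∀ᶠ q in 𝓝[N.PP] p, jP q = Φ q := by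
  obtain ⟨i, hi⟩ := Function.ne_iff.1 (φ3_ne g hp.1.1)
  have a1 : AnalyticAt ℂ (fun q : (W7 × V3) × V3 => q.1.1) p := analyticAt_fst.comp analyticAt_fst
  have a2 : AnalyticAt ℂ (fun q : (W7 × V3) × V3 => q.1.2) p := analyticAt_snd.comp analyticAt_fst
  have a3 : AnalyticAt ℂ (fun q : (W7 × V3) × V3 => q.2) p := analyticAt_snd
  have a4 := (an_φ3 _).comp a1
  have a5 := analyticAt_pi_iff.1 a4 i
  have b2 := analyticAt_pi_iff.1 a2
  have b3 := analyticAt_pi_iff.1 a3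
  have a6 : AnalyticAt ℂ (fun q : (W7 × V3) × V3 => crossProduct q.1.2 q.2 i) p := by
    fin_cases i
    exacts [((b2 1).mul (b3 2)).sub ((b2 2).mul (b3 1)), ((b2 2).mul (b3 0)).sub
      ((b2 0).mul (b3 2)), ((b2 0).mul (b3 1)).sub ((b2 1).mul (b3 0))]
  refine ⟨fun q => (yy q.1.1, φ3 q.1.1, q.1.2, q.2, crossProduct q.1.2 q.2 i / φ3 q.1.1 i, 0),
    ((an_yy _).comp a1).prod (a4.prod (a2.prod (a3.prod ((a6.div a5 hi).prod analyticAt_const)))),
    ?_⟩
  filter_upwards [self_mem_nhdsWithin,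
    mem_nhdsWithin_of_mem_nhds (a5.continuousAt.eventually_ne hi)] with q hq k
  have e := congrFun (cross_eq (φ3_ne g hq.1.1) hq.1.2.2 hq.2.2) i
  rw [jP, e, Pi.smul_apply, smul_eq_mul, mul_div_cancel_right₀ _ (show φ3 q.1.1 i ≠ 0 from k)]

theorem eqv (g : N.Good) (a) (ha : IsUnit a) (p) (hp : p ∈ N.PP) :
    jP (acPP a p) = acN (θj a) (jP p) := by
  obtain ⟨h1, h2⟩ := unit_iff.1 (Prod.isUnit_iff.1 (Prod.isUnit_iff.1 ha).1).1
  refine Prod.ext (yy_ac _ _) (Prod.ext (φ3_ac _ _) (Prod.ext (χ3_eq _ _ _) (Prod.ext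
    (χ3_eq _ _ _) (Prod.ext (rat_of (φ3_ne g (NF.ac_mem h1 h2 hp.1.1)) ?_) (mul_zero _).symm))))
  simp only [pbAct, χ3_eq, φ3_ac, map_smul, LinearMap.smul_apply, cross_dP]
  rw [cross_eq (φ3_ne g hp.1.1) hp.1.2.2 hp.2.2, dN_smul]
  simp only [smul_smul]
  congr 1
  simp [acN, cu, θj, jP]
  field_simp

theorem hol (g : N.Good) : HolJ N :=
  ⟨⟨hm, maps g, fun p hp =>
    let ⟨_, h1, h2⟩ := an g p hp
    h1.continuousAt.continuousWithinAt.congr_of_eventuallyEq h2 (h2.self_of_nhdsWithin hp),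
    eqv g⟩, an g⟩

theorem Z_ext (g : N.Good) {z w : W7} (hz : z ∈ N.Z) (hw : w ∈ N.Z) (e : yy z = yy w)
    (e' : φ3 z = φ3 w) : z = w := by
  obtain ⟨s, hs⟩ := dual (φ3_ne g hz)
  have k := fun s s' => (pol_yy hz s s').symm.trans (e ▸ e' ▸ pol_yy hw s s')
  have k1 : φ3 (sw z) ⬝ᵥ s = φ3 (sw w) ⬝ᵥ s := by
    have := k s s
    rw [hs] at this
    linear_combination this / 2
  have k2 : ∀ i, φ3 (sw z) i = φ3 (sw w) i := fun i => by
    simpa [hs, k1] using k s (Pi.single i 1)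
  funext i
  fin_cases i
  exacts [congrFun e' 0, congrFun e' 1, k2 0, k2 1, congrFun e 3, congrFun e' 2, k2 2]

theorem orb (g : N.Good) (x y : N.PP) (t : AN) (ht : IsUnit t) (e : jP y.1 = acN t (jP x.1)) :
    P269.Pub.Orb acPP N.PP x y := by
  have h := fun i => (Pi.isUnit_iff.1 ht i).ne_zero
  have h0 : t 1 * (t 0 / t 1) = t 0 := mul_div_cancel₀ _ (h 1)
  have h1 := div_ne_zero (h 0) (h 1)
  simp only [jP, acN, Prod.mk.injEq] at e
  obtain ⟨e1, e2, e3, e4, -⟩ := e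
  refine ⟨(((t 1, t 0 / t 1), t 2), t 3), Prod.isUnit_iff.2 ⟨Prod.isUnit_iff.2
    ⟨unit_iff.2 ⟨h 1, h1⟩, (h 2).isUnit⟩, (h 3).isUnit⟩, Prod.ext (Prod.ext
    (Z_ext g y.2.1.1 (NF.ac_mem (h 1) h1 x.2.1.1) ?_ ?_) ?_) ?_⟩
  · simp only [pbAct, yy_ac, h0, e1]
  · simp only [pbAct, φ3_ac, h0, e2]
  · simp only [pbAct, χ3_eq, h0, e3]
  · simp only [pbAct, χ3_eq, h0, e4]

theorem pol_sub (y : V4) (s s' e : V3) (α β : ℂ) : N.pol y (s - α • e) (s' - β • e) =
    N.pol y s s' - α * N.pol y e s' - β * N.pol y e s + α * β * N.pol y e e := by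
  simp only [NF.pol, Pi.sub_apply, Pi.smul_apply, smul_eq_mul]
  ring

theorem surj (p : N.NV) : ∃ x : N.PP, jP x.1 = p.1 := by
  obtain ⟨⟨y, n, a, b, u, v⟩, hp, hv⟩ := p
  change ∃ x : N.PP, jP x.1 = (y, n, a, b, u, v)
  obtain rfl : v = 0 := hv
  obtain ⟨e, he⟩ := dual hp.n
  have k := fun i j : Fin 3 => hp.v (crossProduct e (Pi.single i 1)) (crossProduct e (Pi.single j 1))
  simp only [cross_dual he, pol_sub, WN.v, WN.y, WN.n, zero_mul, dotProduct_single, mul_one] at k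
  let m : V3 := fun j => N.pol y e (Pi.single j 1) - N.pol y e e * n j / 2
  have k' : ∀ i j, N.pol y (Pi.single i 1) (Pi.single j 1) = n i * m j + n j * m i := fun i j => by
    simp only [m]
    linear_combination k i j
  clear_value m
  have e1 : yy ![n 0, n 1, m 0, m 1, y 3, n 2, m 2] = y := by
    have k0 := k' 0 0
    have k1 := k' 0 1
    have k2 := k' 1 1
    simp [NF.pol] at k0 k1 k2
    funext i
    fin_cases i <;> simp [yy]
    exacts [by linear_combination -k0 / 2, k1.symm, by linear_combination -k2 / 2]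
  have e2 : φ3 ![n 0, n 1, m 0, m 1, y 3, n 2, m 2] = n := by
    funext i
    fin_cases i <;> rfl
  have e3 : ![n 0, n 1, m 0, m 1, y 3, n 2, m 2] ∈ N.Z := by
    have k0 := k' 0 2
    have k1 := k' 1 2
    have k2 := k' 2 2
    simp [NF.pol] at k0 k1 k2
    rw [NF.mem_Z, e1]
    refine ⟨hp.y, ?_, ?_, ?_⟩ <;> simp
    exacts [by linear_combination k0, by linear_combination k1, by linear_combination k2 / 2]
  generalize ![n 0, n 1, m 0, m 1, y 3, n 2, m 2] = z at e1 e2 e3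
  subst e1 e2
  exact ⟨⟨((z, a), b), ⟨e3, hp.a, hp.na⟩, hp.b, hp.nb⟩, by rw [jP, rat_of hp.n hp.u]⟩

end TV

open TV in
/-- **The divisor `v = 0` is the fibre square.** -/
theorem stV : StV := fun N g => by
  choose s hs using surj (N := N)
  refine ⟨hol g, bijective_iff_has_inverse.2 ⟨Quot.map s fun p q ⟨t, ht, e⟩ =>
    orb g _ _ t ht (by rw [hs, hs, e]), mk_surj.forall.2 fun x => ?_,
    mk_surj.forall.2 fun p => ?_⟩⟩
  · exact (Quot.sound (orb g _ _ 1 isUnit_one ((hs _).trans (acN_one _).symm))).symm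
  · exact congrArg (Quo.mk acN) (Subtype.ext (hs p))

end Vale.Agent.P287Q.D
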