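import Vale.Agent.P287Q.D.TCor
import Vale.Agent.P287Q.D.TAl
import Vale.Agent.P287Q.D.TN2
import Vale.Agent.P287Q.D.TMap
import Vale.Agent.P287Q.D.TU
import Vale.Agent.P287Q.D.TV
import Vale.Agent.P287Q.D.TCut
import Vale.Agent.P287Q.D.TLab
import Vale.Agent.P287Q.Hb.KB0
import Vale.Agent.P287Q.Top.CubV

/-!
# The correspondence between the cubic fourfold and the surface of incident lines: assembly
-/

namespace Vale.Agent.P287Q.D

open Set Function P291Z P269 P269.Holo P269.Tq P269.Coh Hb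

/-- The cohomology of a bundle of lines in a bundle of planes. -/
def StKB : Prop := ∀ (B W : Type) [NormedRing B] [NormedAlgebra ℂ B] [NormedAddCommGroup W]
  [NormedSpace ℂ W] [FiniteDimensional ℂ B] [FiniteDimensional ℂ W] (act : B → W → W)
  [IsAct act univ] (S : Set W) (χ : Fin 3 → B → ℂ) (ψ : B → ℂ) (φ : W → Fin 3 → ℂ)
  [IsAct (pbAct act χ) univ], KB act S χ ψ φ → ∀ (n m : ℤ) (h : QM act S n)
    (h' : QM (pbAct act χ) (kbS S φ) m), m = n + 1 →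
  LHB h.ps h'.ps 1 (kb_hol χ S φ).q (lcq _ _ Prod.snd) ∧
  PS.push (X := h'.ps) (Y := h.ps) (kb_hol χ S φ).q
    ((lcq _ _ Prod.snd + H.map (kb_hol χ S φ).q (lcq act S (χ 0))) *
      (lcq _ _ Prod.snd + H.map (kb_hol χ S φ).q (lcq act S (χ 1)))) =
    lcq act S ψ - lcq act S (χ 2)

theorem cor_of (h1 : StN1) (hK : StKB) [IsAct ac univ] [IsAct acX univ] {N : NF}
    {F : MvPolynomial (Fin 6) ℂ} {A : V24 ≃L[ℂ] (Fin 6 → ℂ)} (hs : Pub.IsSmoothForm F)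
    (cn : IsConnected (Pub.cone F)) (g : N.Good) (r : N.Rep F A) (h : QM ac N.Z 2)
    (q : QM acX (Pub.cone F) 4) : ∃ al, Cor F h q al := by
  obtain ⟨s, fa, fb, f, p, k₁, k₂⟩ := stMap N F A g r
  obtain ⟨j, hj⟩ := stV N g
  have : IsAct acP univ := k₁.toChr.isAct
  have : IsAct acPP univ := k₂.toChr.isAct
  have := q.fp
  have hP : QM acP N.P 3 := k₁.qm h (r := 1) rfl
  have hQ : QM acPP N.PP 4 := k₂.qm hP (r := 1) rfl
  have hN := TC.qmN h1 stN2 g (s hs)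
  obtain ⟨l₁, e⟩ := hK _ _ ac N.Z _ _ _ k₁ 2 3 h hP rfl
  obtain ⟨k, G⟩ := TC.geo hN h hP hQ q fa fb f p j h1 stU g (s hs) r cn hj l₁
    (hK _ _ acP N.P _ _ _ k₂ 3 4 hP hQ rfl).1
  exact ⟨al h hP f, al_int h hP f, al_ty h hP f, al_sq h hP f e,
    fun _ hx h0 => TC.oa hN h hP hQ q fa fb f p j stCut r hx G h0,
    fun _ hx h0 => TC.ob hN h hP hQ q fa fb f p j stCut r hx G h0,
    fun _ _ hx hx' h0 _ => TC.pr hN h hP hQ q fa fb f p j stCut r hx G h0 hx'⟩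

theorem stTop_of (h1 : StN1) (hK : StKB) : StTop := fun N F _ hF hs g r h n =>
  haveI := isAct_scl (Cub.π₀ (Fin 6))
  have c := Cub.S_cb hF hs
  let ⟨al, k⟩ := cor_of h1 hK hs (Cub.S_cone F ▸ (Cub.sc_scl (Cub.π₀ _)).conn c.ci c.hn (by simp))
    g r h (Cub.qmF hF hs)
  stLab N F hF hs h _ al k n

end Vale.Agent.P287Q.D
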