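import Vale.Agent.P287Q.D.Main1
import Vale.Agent.P287Q.D.TTop
import Vale.Agent.P287Q.D.N1
import Vale.Agent.P287Q.Hb.KB

/-!
# There are no smooth cubic fourfolds of discriminant two or six
-/

namespace Vale.Agent.P287Q.D

/-- **`C₂` and `C₆` are empty.** -/
theorem d26 : Cub.D26 := d26_of_top (stTop_of stN1 fun _ _ _ _ _ _ _ _ _ _ _ _ _ _ _ k _ _ h h' e =>
  ⟨k.lhb h h' rfl e, k.push_sq h h' e⟩)

end Vale.Agent.P287Q.D
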