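import Vale.Agent.P287Q.D.Defs
import Vale.Agent.P287Q.Hb.KBD
import Vale.Agent.P287Q.Cub.Defs
import Mathlib.LinearAlgebra.CrossProduct

/-!
# The correspondence between the cubic fourfold and the surface of incident lines: definitions
-/

namespace Vale.Agent.P287Q.D

open Set Function P291Z P269 P269.Holo P269.Tq P269.Coh Hb
open P287Q.Zc (Lk)

/-- Coordinates in the planes through the line. -/
abbrev V3 : Type := Fin 3 → ℂ

/-- The ambient space. -/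
abbrev V24 : Type := (Fin 2 → ℂ) × V4

/-- The point with the coordinates `s` in the plane of `y`. -/
def pt (y : V4) (s : V3) : V24 := (![s 0, s 1], s 2 • y)

/-- Twice the polar form of the residual conic in the plane of `y`. -/
noncomputable def NF.pol (N : NF) (y : V4) (s s' : V3) : ℂ :=
  2 * s 0 * s' 0 * y 0 + (s 0 * s' 1 + s 1 * s' 0) * y 1 + 2 * s 1 * s' 1 * y 2 +
    (s 0 * s' 2 + s 2 * s' 0) * N.b 0 y + (s 1 * s' 2 + s 2 * s' 1) * N.b 1 y +
    2 * s 2 * s' 2 * N.c y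

/-- The cubic is smooth. -/
def NF.Sm (N : NF) : Prop := ∀ p : V24, p ≠ 0 → fderiv ℂ (fun q : V24 => N.F q.1 q.2) p ≠ 0

/-- A plane `y`, a line `n` in it, two points `a`, `b` of the line and two scalars `u`, `v`. -/
abbrev WN : Type := V4 × V3 × V3 × V3 × ℂ × ℂ

/-- the plane -/
abbrev WN.y (p : WN) : V4 := p.1
/-- the line -/
abbrev WN.n (p : WN) : V3 := p.2.1
/-- the first point -/
abbrev WN.a (p : WN) : V3 := p.2.2.1
/-- the second point -/
abbrev WN.b (p : WN) : V3 := p.2.2.2.1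
/-- the equation of `a = b` -/
abbrev WN.u (p : WN) : ℂ := p.2.2.2.2.1
/-- the equation of the lines in the conic -/
abbrev WN.v (p : WN) : ℂ := p.2.2.2.2.2

/-- The torus (scalings of `y`, `n`, `a`, `b`). -/
abbrev AN : Type := Fin 4 → ℂ

/-- Rescaling `y`, on points. -/
def dP (t : ℂ) (s : V3) : V3 := ![t * s 0, t * s 1, s 2]

/-- Rescaling `y`, on lines. -/
def dN (t : ℂ) (n : V3) : V3 := ![n 0, n 1, t * n 2]

/-- The weight of `u`. -/
noncomputable def cu (t : AN) : ℂ := t 2 * t 3 * t 0 * (t 1)⁻¹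

/-- The weight of `v`. -/
noncomputable def cv (t : AN) : ℂ := t 1 * t 1 * t 0 * (t 2 * t 3)⁻¹

/-- The action. -/
noncomputable def acN (t : AN) (p : WN) : WN :=
  (t 0 • p.y, t 1 • dN (t 0) p.n, t 2 • dP (t 0) p.a, t 3 • dP (t 0) p.b, cu t * p.u, cv t * p.v)

/-- The conic meets the line `n` in `a` and `b`. -/
structure NF.InN (N : NF) (p : WN) : Prop where
  y : p.y ≠ 0
  n : p.n ≠ 0
  a : p.a ≠ 0
  b : p.b ≠ 0
  na : p.n ⬝ᵥ p.a = 0
  nb : p.n ⬝ᵥ p.b = 0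
  u : crossProduct p.a p.b = p.u • p.n
  v : ∀ k k' : V3, N.pol p.y (crossProduct k p.n) (crossProduct k' p.n) =
    p.v * (k ⬝ᵥ p.a * k' ⬝ᵥ p.b + k' ⬝ᵥ p.a * k ⬝ᵥ p.b)

/-- The cone over the fivefold. -/
def NF.Nh (N : NF) : Set WN := {p | N.InN p}

/-- The divisor `a = b`. -/
def NF.NU (N : NF) : Set WN := {p | p ∈ N.Nh ∧ p.u = 0}

/-- The divisor of the lines in the conic. -/
def NF.NV (N : NF) : Set WN := {p | p ∈ N.Nh ∧ p.v = 0}

/-- The weights of the points of the planes over the surface. -/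
def χ3 : Fin 3 → ℂ × ℂ → ℂ := ![fun s => s.1 * s.2, fun s => s.1 * s.2, fun _ => 1]

/-- The weight of the equation of the line. -/
def ψ3 (s : ℂ × ℂ) : ℂ := s.1 * s.1 * s.2

/-- The equation of the line. -/
def φ3 (z : W7) : V3 := ![z 0, z 1, z 5]

/-- The action on the universal line. -/
abbrev acP : (ℂ × ℂ) × ℂ → W7 × V3 → W7 × V3 := pbAct ac χ3

/-- The universal line. -/
abbrev NF.P (N : NF) : Set (W7 × V3) := kbS N.Z φ3

/-- The action on its fibre square. -/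
abbrev acPP : ((ℂ × ℂ) × ℂ) × ℂ → (W7 × V3) × V3 → (W7 × V3) × V3 :=
  pbAct acP fun k g => χ3 k g.1

/-- The fibre square. -/
abbrev NF.PP (N : NF) : Set ((W7 × V3) × V3) := kbS N.P fun p => φ3 p.1

/-- The factor `u` in `w = u • n`. -/
noncomputable def rat (w n : V3) : ℂ := (w ⬝ᵥ star n) / (n ⬝ᵥ star n)

/-- The embedding of the fibre square. -/
noncomputable def jP (p : (W7 × V3) × V3) : WN :=
  (yy p.1.1, φ3 p.1.1, p.1.2, p.2, rat (crossProduct p.1.2 p.2) (φ3 p.1.1), 0)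

/-- Its homomorphism. -/
def θj (g : ((ℂ × ℂ) × ℂ) × ℂ) : AN := ![g.1.1.1 * g.1.1.2, g.1.1.1, g.1.2, g.2]

/-- The action on the cubic. -/
abbrev acX : (Unit → ℂ) → (Fin 6 → ℂ) → Fin 6 → ℂ := scl (Cub.π₀ (Fin 6))

variable (N : NF) (F : MvPolynomial (Fin 6) ℂ) (A : V24 ≃L[ℂ] (Fin 6 → ℂ))

/-- The first point. -/
abbrev HolA : Prop :=
  Hol acN acX N.Nh (Pub.cone F) (fun t _ => t 2 * t 0) fun p => A (pt p.y p.a)

/-- The second point. -/
abbrev HolB : Prop :=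
  Hol acN acX N.Nh (Pub.cone F) (fun t _ => t 3 * t 0) fun p => A (pt p.y p.b)

/-- The point of the universal line. -/
abbrev HolP : Prop := Hol acP acX N.P (Pub.cone F) (fun g _ => g.2 * (g.1.1 * g.1.2))
  fun p => A (pt (yy p.1) p.2)

/-- The second projection of the fibre square. -/
abbrev HolQ : Prop := Hol acPP acP N.PP N.P (fun g => (g.1.1, g.2)) fun p => (p.1.1, p.2)

/-- The embedding of the fibre square. -/
abbrev HolJ : Prop := Hol acPP acN N.PP N.NV θj jP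

/-- The fivefold is smooth and the two divisors are transverse. -/
def StN1 : Prop := ∀ N : NF, N.Good → N.Sm → ∀ p ∈ N.Nh, MfdAt N.Nh 9 p ∧
  (p.u = 0 → ∃ w : WN, w ∈ tn N.Nh p ∧ w.u ≠ 0) ∧ (p.v = 0 → ∃ w : WN, w ∈ tn N.Nh p ∧ w.v ≠ 0)

/-- The action is free and proper with compact quotient. -/
def StN2 : Prop := IsAct acN univ ∧ (∀ t, IsUnit t → IsLinearMap ℂ (acN t)) ∧
  ∀ N : NF, Mono.FP acN N.Nh ∧ CompactSpace (Quo acN N.Nh)

/-- The maps. -/
def StMap : Prop := ∀ (N : NF) F A, N.Good → N.Rep F A → (Pub.IsSmoothForm F → N.Sm) ∧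
  HolA N F A ∧ HolB N F A ∧ HolP N F A ∧ HolQ N ∧ KB ac N.Z χ3 ψ3 φ3 ∧
  KB acP N.P (fun k g => χ3 k g.1) (fun g => ψ3 g.1) fun p => φ3 p.1

/-- The divisor `a = b` is birational to the cubic. -/
def StU : Prop := ∀ [IsAct acN univ] [IsAct acX univ] (N : NF) F A, N.Rep F A →
  IsConnected (Pub.cone F) → ∀ (h : QM acN N.NU 4) (q : QM acX (Pub.cone F) 4)
    (φ : Hol acN acX N.NU (Pub.cone F) (fun t _ => t 2 * t 0) fun p => A (pt p.y p.a)) (x),
  h.ps.J (H.map φ.q x) = q.ps.J x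

/-- The divisor `v = 0` is the fibre square. -/
def StV : Prop := ∀ N : NF, N.Good → ∃ φ : HolJ N, Bijective φ.q

/-- Classes of the cubic die on the line. -/
def StCut : Prop := ∀ (N : NF) F A, N.Rep F A → ∀ (B W ι : Type) [NormedRing B]
  [NormedAlgebra ℂ B] [NormedAddCommGroup W] [NormedSpace ℂ W] [FiniteDimensional ℂ B]
  [FiniteDimensional ℂ W] [Fintype ι] (act : B → W → W) [IsAct act univ] [IsAct acX univ]
  (S : Set W) [Mono.FP act S] [CompactSpace (Quo act S)] [Mono.FP acX (Pub.cone F)]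
  (θ : B → Unit → ℂ) (f : W → Fin 6 → ℂ) (φ : Eqh act acX S (Pub.cone F) θ f) (c : ι → B → ℂ)
  (s : W → ι → ℂ) (hs : Sec act S c s), (∀ p ∈ S, s p = 0 → ∃ u, f p = A (u, 0)) →
  ∀ x, H.IsDeg 4 x → (∏ i, lce act S (hs.hm i)).1 * H.map φ.toEqv.qm x = 0

section top

variable {N} [IsAct ac univ] (h : QM ac N.Z 2)

/-- An integral class, orthogonal to the holomorphic forms, with given intersection numbers. -/
def TopL (i j k : ℂ) : Prop := ∃ l ∈ Lk (Quo ac N.Z) 2,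
  (∀ w ∈ QT ac N.Z 2 0, h.ps.J (l * w) = 0) ∧ h.ps.J (l * l) = i ∧
    h.ps.J (l * lcq ac N.Z Prod.fst) = j ∧ h.ps.J (l * lcq ac N.Z Prod.snd) = k

/-- The correspondence. -/
structure Cor [IsAct acX univ] (q : QM acX (Pub.cone F) 4)
    (al : H (Cub.XF F) →ₗ[ℂ] H (Quo ac N.Z)) : Prop where
  int : ∀ x ∈ Lk (Cub.XF F) 4, al x ∈ Lk (Quo ac N.Z) 2
  ty : ∀ x ∈ QT acX (Pub.cone F) 2 2, ∀ w ∈ QT ac N.Z 2 0, h.ps.J (al x * w) = 0
  sq : al (Cub.hyp F ^ 2) = 2 • lcq ac N.Z Prod.fst + lcq ac N.Z Prod.snd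
  oa : ∀ x, H.IsDeg 4 x → Cub.hyp F * x = 0 → h.ps.J (al x * lcq ac N.Z Prod.fst) = 0
  ob : ∀ x, H.IsDeg 4 x → Cub.hyp F * x = 0 → h.ps.J (al x * lcq ac N.Z Prod.snd) = 0
  pr : ∀ x x', H.IsDeg 4 x → H.IsDeg 4 x' → Cub.hyp F * x = 0 → Cub.hyp F * x' = 0 →
    h.ps.J (al x * al x') = -2 * q.ps.J (x * x')

/-- The intersection numbers of the two pencils. -/
def Num : Prop := h.ps.J (lcq ac N.Z Prod.fst * lcq ac N.Z Prod.fst) = 1 ∧
  h.ps.J (lcq ac N.Z Prod.snd * lcq ac N.Z Prod.snd) = 1 ∧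
  h.ps.J (lcq ac N.Z Prod.fst * lcq ac N.Z Prod.snd) = 4

end top

/-- From the correspondence to the classes. -/
def StLab : Prop := ∀ [IsAct ac univ] [IsAct acX univ] (N : NF) (F : MvPolynomial (Fin 6) ℂ),
  F.IsHomogeneous 3 → Pub.IsSmoothForm F → ∀ (h : QM ac N.Z 2) (q : QM acX (Pub.cone F) 4) al,
  Cor F h q al → Num h → (Cub.Lab F 2 → TopL h 1 2 3) ∧ (Cub.Lab F 6 → TopL h (-4) 0 0)

/-- **The topological half.** -/
def StTop : Prop := ∀ [IsAct ac univ] (N : NF) (F : MvPolynomial (Fin 6) ℂ) A,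
  F.IsHomogeneous 3 → Pub.IsSmoothForm F → N.Good → N.Rep F A → ∀ h : QM ac N.Z 2, Num h →
  (Cub.Lab F 2 → TopL h 1 2 3) ∧ (Cub.Lab F 6 → TopL h (-4) 0 0)

end Vale.Agent.P287Q.D
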