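import Vale.Agent.P287Q.D.Pk
import Vale.Agent.P287Q.D.Barg
import Vale.Agent.P287Q.D.Brg
import Vale.Agent.P287Q.D.Chi
import Vale.Agent.P287Q.D.Cmp
import Vale.Agent.P287Q.D.EndAll
import Vale.Agent.P287Q.D.Add
import Vale.Agent.P287Q.D.TDefs
import Vale.Agent.P287Q.D.Line2
import Vale.Agent.P287Q.Mf.Surf

/-!
# Discriminants two and six: the assembly
-/

set_option linter.unusedSectionVars false
set_option linter.style.haveILetI false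

namespace Vale.Agent.P287Q.D

open Set Function Topology Filter Module P291Z P267.FL P267.RR P269 P269.Holo P269.Mono P269.Tq
open P287Q.Zc (Lk)
open scoped ContDiff Manifold

/-- The analytic inputs. -/
def StAn : Prop := ∀ (X : Type) [MetricSpace X] [CompactSpace X] [ConnectedSpace X]
  [ChartedSpace C2 X] [IsManifold 𝓘(ℂ, C2) ω X], StRR X ∧ StSm X ∧ StHol X

theorem no_cls (h : StAn) (X : Type) [MetricSpace X] [CompactSpace X] [ConnectedSpace X]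
    [ChartedSpace C2 X] [IsManifold 𝓘(ℂ, C2) ω X] {N : NF} {A B : SB X} {p : X → W7}
    {ip : SB X → SB X → ℤ} (k : Pk N A B p ip) (e : Eul (M7 A B) (Q3 A B)) {I : H X →ₗ[ℂ] ℂ}
    {C : LinearMap.BilinForm ℤ (Lk X 2)} (T : Sf.Top I C) (hi : IPc I ip) {a b l : H X}
    (ha : IsC1 A.φ a) (hb : IsC1 B.φ b) (hl : l ∈ Lk X 2)
    (h0 : ∀ w, Mf.IsHg 2 2 0 w → I (l * w) = 0) :
    ¬(I (l * l) = 1 ∧ I (l * a) = 2 ∧ I (l * b) = 3) ∧
      ¬(I (l * l) = -4 ∧ I (l * a) = 0 ∧ I (l * b) = 0) := by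
  obtain ⟨h2, h3, h4⟩ := h X
  obtain ⟨h5, h6⟩ := stCmp stBarg stC1Ex stC1Mul h3 h4 (stRl X) (stRl' X) (stFrs X) I C T ip hi
    ⟨A, k.AA⟩
  obtain ⟨M, hM⟩ := h6 l hl h0
  have an := h2 ip h5
  rw [stChi_of (stRl X) stAdd (rrBlock X).2.2.1 (rrBlock X).2.2.2 A B ip k.ip' h5 k.AA k.BB k.AB
    e] at an
  rw [← hi _ _ _ _ hM hM, ← hi _ _ _ _ hM ha, ← hi _ _ _ _ hM hb]
  norm_cast
  refine ⟨fun ⟨b1, b2, b3⟩ => end2_all N A B p ip k an (M / A) ?_ ?_ ?_,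
    fun ⟨b1, b2, b3⟩ => end6_all N A B p ip k an M b1 b2 b3⟩
  · rw [k.ip'.div, k.ip'.div', k.ip'.div', k.ip'.symm A M, b1, b2, k.AA]; rfl
  · rw [k.ip'.div, b2, k.AA]; rfl
  · rw [k.ip'.div, b3, k.AB]; rfl

theorem NF.no_topL (h : StAn) (N : NF) [g : Fact N.Good] :
    ¬TopL g.out.qm 1 2 3 ∧ ¬TopL g.out.qm (-4) 0 0 := by
  obtain ⟨ip, h1, h2⟩ := N.exists_pk
  obtain ⟨C, h3, -⟩ := N.exists_form
  have := conn_all _ _ _ _ _ h2
  have T := Mf.top_qm g.out.qm h3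
  letI := TopologicalSpace.metrizableSpaceMetric (Quo ac N.Z)
  exact ⟨fun ⟨_, a, b, c⟩ => (no_cls h _ h2 N.eul T h1 N.c1A N.c1B a
      fun w k => b w (N.pres.mem_HT.2 k)).1 c,
    fun ⟨_, a, b, c⟩ => (no_cls h _ h2 N.eul T h1 N.c1A N.c1B a
      fun w k => b w (N.pres.mem_HT.2 k)).2 c⟩

/-- **`C₂` and `C₆` are empty**, from the correspondence. -/
theorem d26_of (h : StAn) (hT : StTop) : Cub.D26 := fun F h1 h2 => by
  obtain ⟨N, A, g, r⟩ := exists_nf h1 h2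
  have k := hT N F A h1 h2 g r g.qm ⟨g.num.1, g.num.2.2, g.num.2.1⟩
  have := Fact.mk g
  exact ⟨fun e => (N.no_topL h).1 (k.1 e), fun e => (N.no_topL h).2 (k.2 e)⟩

end Vale.Agent.P287Q.D
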