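import Vale.Agent.P287Q.D.Main0
import Vale.Agent.P287Q.Sf.Pg

/-!
# Discriminants two and six: the analytic inputs
-/

set_option linter.unusedSectionVars false

namespace Vale.Agent.P287Q.D

namespace M1

open Set Function Topology Filter Module P267.FL P267.BlockC P267.RR Sf
open P267.H682 (up dw up_dw dw_up mem_H0_OX lb_eq_OX isHol_OX sec_OX reg0_clm reg2_clm)
open scoped ContDiff Manifold ComplexConjugate

variable {X : Type} [MetricSpace X] [CompactSpace X] [ConnectedSpace X] [ChartedSpace C2 X]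
  [IsManifold 𝓘(ℂ, C2) ω X]

theorem rr : StRR X := fun ip h => by
  refine ⟨fun M => ?_, fun M => ?_⟩
  · obtain ⟨R⟩ := stRl X M
    have := ((rrBlock X).1 _ _ _ R.hol 0).1
    have e := (R.eqv 0).symm.finiteDimensional
    rwa [zpow_zero, mul_one] at e
  · obtain ⟨R⟩ := stRl X M
    have e := chi_rr (stRl X) (rrBlock X).2.2.1 h R
    have e1 := R.h0_eq 0
    have e2 := ((rrBlock X).2.1 _ _ _ R.hol 0).2.2.trans (R.dual.h0_eq _)
    rw [zpow_zero, mul_one] at e1
    rw [sub_zero, zpow_one, inv_mul_eq_div] at e2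
    rw [show chi R.A.L R.a 0 = h0 R.A.L R.a 0 - h1 R.A.L R.a 0 + h2 R.A.L R.a 0 from rfl, e1,
      e2] at e
    omega

/-- The two-form of a section of the canonical bundle. -/
noncomputable def fm (s : H0 (OX X) 0 1) : TwoF X :=
  ⟨fun x => dw ((s : X → EuclideanSpace ℂ (Fin 1)) x), 0, 0⟩

theorem fm_hol (s : H0 (OX X) 0 1) : Hol2 (fm s) := by
  obtain ⟨h1, h2⟩ := mem_H0_OX.1 s.2
  refine ⟨⟨rfl, rfl⟩, ⟨reg0_clm dw h1, pg_reg11_zero, reg2_zero 0⟩,
    (pg_closed_iff ⟨rfl, rfl⟩).2 (funext₂ fun y i => ?_)⟩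
  change dbar0 1 (fun x => dw (s.1 x)) y i = 0
  rw [dbar0_clm dw ((h1.at y).of_le (by simp)), h2]
  simp

theorem fm_zero {s : H0 (OX X) 0 1} (h : pair (fm s) (fm s).bar = 0) : s = 0 := by
  have e : fm s = 0 := by_contra fun k => by
    simpa [h] using pos _ (fm_hol s).1 (fm_hol s).2.1 k
  exact Subtype.ext (funext fun x => (up_dw _).symm.trans
    ((congrArg up (congrFun (congrArg TwoF.f20 e) x)).trans (map_zero _)))

/-- The conjugate form. -/
noncomputable def cj : H0 (OX X) 0 1 →ₛₗ[starRingEnd ℂ] A2 (OX X) 0 where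
  toFun s := ⟨fun x => up ((fm s).bar.f02 x),
    reg2_clm up (pg_bar_smooth (fm_hol s).1 (fm_hol s).2.1).s02, sec_OX _⟩
  map_add' s t := Subtype.ext (funext fun x => by simp [fm, TwoF.bar])
  map_smul' c s := Subtype.ext (funext fun x => by simp [fm, TwoF.bar, ← map_smul])

/-- **Serre duality** for forms of type `(0, 2)`. -/
theorem serre {F : TwoF X} (hF : F.Smooth) (h : ∀ η, Hol2 η → pair η F = 0) :
    ∃ w : X → Fin 2 → ℂ, Reg1 ∞ 0 w ∧ dbar1 0 w = F.f02 := by
  obtain ⟨f0, -, -⟩ := (rrBlock X).1 _ _ _ isHol_OX 1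
  obtain ⟨-, -, f2⟩ := (rrBlock X).1 _ _ _ isHol_OX 0
  have e := ((rrBlock X).2.1 _ _ _ isHol_OX 0).2.2
  rw [lb_eq_OX (OX X).dual, neg_zero, sub_zero] at e
  let b := finBasis ℂ (H0 (OX X) 0 1)
  let c : H0 (OX X) 0 1 → H2 (OX X) 0 0 := fun s => Submodule.Quotient.mk (cj s)
  have hc : ∀ t : _ → ℂ, c (∑ i, conj (t i) • b i) = ∑ i, t i • c (b i) := fun t => by
    simp only [c, map_sum, map_smulₛₗ, Complex.conj_conj]
    exact map_sum (Submodule.mkQ _) _ _
  have h1 : LinearIndependent ℂ fun i => c (b i) := Fintype.linearIndependent_iff.2 fun t k i => by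
    obtain ⟨w, w1, w2⟩ := pg_mk_eq_zero (cj _).2 ((hc t).trans k)
    exact (map_eq_zero _).1 (Fintype.linearIndependent_iff.1 b.linearIndependent _ (fm_zero
      ((pg_pair_congr (fm_hol _).1 w2.symm).trans (pg_stokes (fm_hol _).2 w1).2)) i)
  have hm : (fun x => up (F.f02 x)) ∈ A2 (OX X) 0 := ⟨reg2_clm up hF.s02, sec_OX _⟩
  obtain ⟨t, ht⟩ := (Submodule.mem_span_range_iff_exists_fun ℂ).1
    ((h1.span_eq_top_of_card_eq_finrank' ((Fintype.card_fin _).trans e.symm)).ge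
      (Submodule.mem_top (x := Submodule.Quotient.mk ⟨_, hm⟩)))
  rw [← hc] at ht
  generalize ∑ i, conj (t i) • b i = s at ht
  have k := fm_hol s
  have hb := pg_bar_smooth k.1 k.2.1
  have hG : (F + (-1 : ℂ) • (fm s).bar).Smooth := smooth_add hF (smooth_smul _ hb)
  obtain ⟨w, w1, w2⟩ := pg_mk_eq_zero ⟨reg2_clm up hG.s02, sec_OX _⟩
    (((congrArg _ (Subtype.ext (funext fun x => by
      change up (F.f02 x + (-1 : ℂ) • (fm s).bar.f02 x) = up (F.f02 x) - up ((fm s).bar.f02 x)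
      rw [neg_one_smul, ← sub_eq_add_neg, map_sub]))).trans
        (Submodule.Quotient.mk_sub _ (x := ⟨_, hm⟩) (y := cj s))).trans (sub_eq_zero.2 ht.symm))
  have h4 := (pg_pair_congr k.1 w2.symm).trans (pg_stokes k.2 w1).2
  rw [P267.BlockC.pair_comm, pair_add hF (smooth_smul _ hb) k.2.1 (.of_compactSpace _)
    (.of_compactSpace _), pair_smul _ hb k.2.1 (.of_compactSpace _), P267.BlockC.pair_comm F,
    P267.BlockC.pair_comm (fm s).bar, h _ k, zero_add, neg_one_mul, neg_eq_zero] at h4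
  obtain rfl := fm_zero h4
  exact ⟨w, w1, w2.trans (funext fun x => by simp [fm, TwoF.bar])⟩

theorem hol : StHol X := fun L h => by
  obtain ⟨_, -, k, -⟩ := c1Int X L
  obtain ⟨w, w1, w2⟩ := serre k.1 h
  refine ⟨(2 * Real.pi * Complex.I : ℂ) • w, Reg1.smul _ w1, fun x => ?_⟩
  have e : dbar1 0 w x = Complex.I / (2 * Real.pi) * L.L.F02 x := congrFun w2 x
  rw [dbar1_smul _ w1, Pi.smul_apply, e, smul_eq_mul]
  field_simp [pi_ne]
  linear_combination L.L.F02 x * Complex.I_mul_I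

theorem an : StAn := fun _ _ _ _ _ _ => ⟨rr, fun _ => exists_lb, hol⟩

end M1

/-- **`C₂` and `C₆` are empty**, from the topological half. -/
theorem d26_of_top (h : StTop) : Cub.D26 := d26_of M1.an h

end Vale.Agent.P287Q.D
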