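import Vale.Agent.P287Q.D.Mod0
import Vale.Agent.P287Q.D.St

/-!
# The surface of the lines meeting a line: charts, line bundles, coordinates
-/

set_option linter.unusedSectionVars false

namespace Vale.Agent.P287Q.D

open Set Function Topology Filter Module P291Z P267.FL P269 P269.Holo P269.Mono P269.Tq
open scoped ContDiff Manifold

theorem unit_of_mem {N : NF} {a : ℂ × ℂ} {z : W7} (h : ac a z ∈ N.Z) : IsUnit a :=
  unit_iff.2 (mul_ne_zero_iff.1 fun e => h.1 (by rw [yy_ac, e, zero_smul]))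

/-- The projection from the cone to the surface is holomorphic. -/
def Prx {X : Type} [TopologicalSpace X] [ChartedSpace C2 X] (N : NF) (p : X → W7) : Prop :=
  ∀ x, ∃ P : W7 → C2, AnalyticAt ℂ P (p x) ∧ P (p x) = chartAt C2 x x ∧
    ∀ᶠ w in 𝓝 (p x), w ∈ N.Z → ∃ a, w = ac a (p ((chartAt C2 x).symm (P w)))

theorem Prx.swap {X : Type} [TopologicalSpace X] [ChartedSpace C2 X] {N : NF} {p : X → W7}
    (h : Prx N p) : Prx N fun x => sw (p x) := fun x => by
  obtain ⟨P, h1, h2, h3⟩ := h x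
  rw [← sw_sw (p x)] at h1 h2 h3
  refine ⟨fun w => P (sw w), h1.comp (an_sw _), h2,
    ((an_sw _).continuousAt.eventually h3).mono fun w k hw => ?_⟩
  obtain ⟨a, e⟩ := k (NF.sw_mem hw)
  exact ⟨a.swap, by rw [← sw_ac, ← e, sw_sw]⟩

theorem Md.eq_of {X : Type} [TopologicalSpace X] [ChartedSpace C2 X] {N : NF} {A B : SB X}
    {p : X → W7} (m : Md N A B p) {x y : X} {a b : ℂ × ℂ} (h : ac a (p x) ∈ N.Z)
    (e : ac a (p x) = ac b (p y)) : x = y := by
  obtain ⟨g, rfl⟩ := unit_of_mem (e ▸ h)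
  exact m.inj x y (↑g⁻¹ * a) (by rw [ac_mul, e, ← ac_mul, Units.inv_mul, ac_one])

theorem Prx.mdP {X : Type} [TopologicalSpace X] [ChartedSpace C2 X] {N : NF} {A B : SB X}
    {p : X → W7} (h : Prx N p) (m : Md N A B p) (x : X) : ∃ Ψ : W7 → C2, AnalyticAt ℂ Ψ (p x) ∧
      ∀ᶠ z in 𝓝 (p x), z ∈ N.Z → ∀ y a, z = ac a (p y) → Ψ z = chartAt C2 x y := by
  obtain ⟨P, h1, h2, h3⟩ := h x
  refine ⟨P, h1, ?_⟩
  filter_upwards [h3, h1.continuousAt.eventually (h2 ▸ chart_target_mem_nhds C2 x)]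
    with z k1 k2 hz y a e
  obtain ⟨b, e'⟩ := k1 hz
  rw [m.eq_of (e ▸ hz) (e.symm.trans e'), (chartAt C2 x).right_inv k2]

namespace NF

variable (N : NF)

/-- A point of the cone over `x`. -/
noncomputable def pt (x : Quo ac N.Z) : W7 := x.out.1

theorem pt_mem (x : Quo ac N.Z) : N.pt x ∈ N.Z := x.out.2

theorem mk_pt (x : Quo ac N.Z) : Quo.mk ac ⟨N.pt x, N.pt_mem x⟩ = x := mk_out x

theorem exists_pt (z : N.Z) : ∃ a, IsUnit a ∧ z.1 = ac a (N.pt (Quo.mk ac z)) :=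
  QMA.mk_eq (mk_out _)

variable [h : Fact N.Good]

instance instFP : FP ac N.Z := h.out.fp

noncomputable instance instCS : ChartedSpace C2 (Quo ac N.Z) := Mf.cs h.out.dim

instance instMf : IsManifold 𝓘(ℂ, C2) ω (Quo ac N.Z) := Mf.isManifold h.out.dim

instance instCpt : CompactSpace (Quo ac N.Z) := h.out.cpt

theorem pres : Mf.Pres 2 (Quo.mk ac : N.Z → Quo ac N.Z) := Mf.pres h.out.dim

theorem exists_gm (x : Quo ac N.Z) : ∃ g : Quo ac N.Z → (ℂ × ℂ)ˣ, g x = 1 ∧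
    Ho (fun y => ac ↑(g y)⁻¹ (N.pt y)) x := by
  have e0 : Sp.mk (act := ac) x.out = x := mk_out x
  obtain ⟨σ, h1, h2, h3⟩ := (Mf.gd_chartAt h.out.dim x).sec (x := x.out)
    (e0.symm ▸ mem_chart_source C2 x)
  rw [e0] at h1 h2
  have h4 : ∀ y, ∃ g : (ℂ × ℂ)ˣ, y ∈ (chartAt C2 x).source → g • σ (chartAt C2 x y) = y.out :=
    fun y => by
      by_cases hy : y ∈ (chartAt C2 x).source
      · exact (Sp.mk_eq_iff.1 ((h3 _ ((chartAt C2 x).map_source hy)).trans
          (((chartAt C2 x).left_inv hy).trans (mk_out y).symm))).imp fun _ k _ => k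
      · exact ⟨1, fun k => absurd k hy⟩
  choose g hg using h4
  refine ⟨g, FP.free (act := ac) x.out _ (by
    have := hg x (mem_chart_source C2 x)
    rwa [show σ (chartAt C2 x x) = x.out from h2] at this), h1.congr ?_⟩
  filter_upwards [chart_target_mem_nhds C2 x] with z hz
  have := inv_smul_eq_iff.2 (hg _ ((chartAt C2 x).map_target hz)).symm
  rw [(chartAt C2 x).right_inv hz] at this
  exact (congrArg Sp.val this).symm

/-- The factor between the chosen point and a holomorphic lift near `x`. -/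
noncomputable def gm (x : Quo ac N.Z) : Quo ac N.Z → (ℂ × ℂ)ˣ := (N.exists_gm x).choose

/-- A holomorphic lift near `x`. -/
noncomputable def lf (x y : Quo ac N.Z) : W7 := ac ↑(N.gm x y)⁻¹ (N.pt y)

theorem gm_self (x : Quo ac N.Z) : N.gm x x = 1 := (N.exists_gm x).choose_spec.1

theorem ho_lf (x : Quo ac N.Z) : Ho (N.lf x) x := (N.exists_gm x).choose_spec.2

theorem lf_mem (x y : Quo ac N.Z) : N.lf x y ∈ N.Z :=
  FP.toIsAct.mem _ (Units.isUnit _) _ (N.pt_mem y)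

theorem lf_eq (x y w : Quo ac N.Z) : N.lf y w = ac ↑(N.gm x w / N.gm y w) (N.lf x w) := by
  rw [lf, lf, ← ac_mul, ← Units.val_mul, div_mul_eq_mul_div, mul_inv_cancel, one_div]

/-- The line bundle of a character. -/
noncomputable def sb (c : ℂ × ℂ →* ℂ) (hc : ∀ z ∈ N.Z, ∃ f : W7 → ℂ, f z ≠ 0 ∧
    (∀ w (t : ℂ), t ≠ 0 → yy w = t • yy z → AnalyticAt ℂ f w) ∧
    ∀ a, IsUnit a → ∀ w, f (ac a w) = c a * f w) : SB (Quo ac N.Z) where
  φ x y := c (N.gm x y)
  self x := by rw [gm_self, Units.val_one, map_one]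
  ne x y := ((N.gm x y).isUnit.map c).ne_zero
  hol x := (N.ho_lf x).eventually.mono fun y hy => by
    obtain ⟨f, h1, h2, h3⟩ := hc _ (N.lf_mem x y)
    have h4 := hy.comp (h2 _ 1 one_ne_zero (one_smul _ _).symm)
    have h5 := unit_iff.1 (N.gm x y / N.gm y y).isUnit
    refine (((N.ho_lf y).comp (h2 _ _ (mul_ne_zero h5.1 h5.2)
      (by rw [N.lf_eq x, yy_ac]))).div h4 h1).congr
      ((h4.continuousAt.eventually_ne h1).mono fun w k => ?_)
    simp only [N.lf_eq x y w, h3 _ (Units.isUnit _), mul_div_cancel_right₀ _ k]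
    exact (eq_div_iff ((N.gm y w).isUnit.map c).ne_zero).2
      (by rw [← map_mul, ← Units.val_mul, div_mul_cancel])

/-- The bundle of `λ`. -/
noncomputable def sA : SB (Quo ac N.Z) := N.sb (MonoidHom.fst ℂ ℂ) fun _ => h.out.exists_wt

/-- The bundle of `λ'`. -/
noncomputable def sB : SB (Quo ac N.Z) := N.sb (MonoidHom.snd ℂ ℂ) fun _ => h.out.exists_wt'

theorem lf_eq' (x y : Quo ac N.Z) :
    N.lf x y = ac ((N.sA.φ x y)⁻¹, (N.sB.φ x y)⁻¹) (N.pt y) :=
  congrArg (ac · _) (Units.val_inv_eq_inv_val _)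

/-- **The model.** -/
theorem md : Md N N.sA N.sB N.pt where
  mem := N.pt_mem
  inj x y a e := (mk_out x).symm.trans (.trans (Quot.sound
    (show ∃ a, IsUnit a ∧ N.pt y = ac a (N.pt x) from ⟨a, unit_of_mem (e ▸ N.pt_mem y), e⟩))
    (mk_out y))
  surj z hz := let ⟨a, _, e⟩ := N.exists_pt ⟨z, hz⟩; ⟨_, a, e⟩
  hol x := (N.ho_lf x).congr (.of_forall (N.lf_eq' x))

theorem prx : Prx N N.pt := fun x => by
  obtain ⟨P, h1, h2⟩ := N.pres.prj x.out
  rw [mk_out] at h2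
  refine ⟨P, h1, h2.self_of_nhds.trans (congrArg _ (mk_out x)), (ev_sub (N.pt_mem x)).1 ?_⟩
  have h3 : ∀ᶠ z : N.Z in 𝓝 x.out, Quo.mk ac z ∈ (chartAt C2 x).source :=
    continuous_mk.continuousAt.eventually ((mk_out x).symm ▸ chart_source_mem_nhds C2 x)
  filter_upwards [h2, h3] with z k1 k2
  rw [k1, (chartAt C2 x).left_inv k2]
  exact (N.exists_pt z).imp fun _ k => k.2

/-- **The first Chern class of the bundle of a character.** -/
theorem isC1 {c : ℂ × ℂ → ℂ} (hc : Hm c) :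
    IsC1 (fun x y => c (N.gm x y)) (lcq ac N.Z c) :=
  ⟨sp ac N.Z, hc.ρ, fun x y => Sp.of ac _ (N.lf_mem x y), .id _, fun g t => FP.free t g,
    fun x => (N.ho_lf x).eventually.mono fun _ k =>
      Sp.isEmbedding_val.isInducing.continuousAt_iff.2 k.continuousAt,
    fun z => (mk_act (Units.isUnit _) (N.pt_mem z) _).trans (mk_out z),
    fun x z => ⟨N.gm z z / N.gm x z, Sp.ext (N.lf_eq z x z).symm, by
      rw [gm_self, one_div, map_inv, Units.val_inv_eq_inv_val]; rfl⟩,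
    ((H.map_id (fun _ => rfl) _).trans (lce_val hc)).symm⟩

theorem _root_.Vale.Agent.P287Q.D.hm_fst : Hm (Prod.fst : ℂ × ℂ → ℂ) :=
  ⟨rfl, fun _ _ _ _ => rfl, fun _ _ => continuousAt_fst⟩

theorem _root_.Vale.Agent.P287Q.D.hm_snd : Hm (Prod.snd : ℂ × ℂ → ℂ) :=
  ⟨rfl, fun _ _ _ _ => rfl, fun _ _ => continuousAt_snd⟩

theorem c1A : IsC1 N.sA.φ (lcq ac N.Z Prod.fst) := N.isC1 hm_fst

theorem c1B : IsC1 N.sB.φ (lcq ac N.Z Prod.snd) := N.isC1 hm_snd

end NF

end Vale.Agent.P287Q.D
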