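import Vale.Agent.P287Q.D.TDefs

/-!
# The two surjectivity statements for the smoothness of the fivefold
-/

namespace Vale.Agent.P287Q.D.NF

open Set Function Matrix

variable {N : NF} {y : V4} {a n : V3}

theorem n1_b (i : Fin 2) : Differentiable ℂ (N.b i) := by
  unfold b
  fun_prop

theorem n1_c : Differentiable ℂ N.c := by
  unfold c
  fun_prop

theorem n1_pol (s s' : V3) : Differentiable ℂ fun y => N.pol y s s' := by
  have := n1_b (N := N)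
  have := n1_c (N := N)
  unfold pol
  fun_prop

theorem n1_fd (s s' : V3) (y δ : V4) : fderiv ℂ (fun y => N.pol y s s') y δ =
    2 * s 0 * s' 0 * δ 0 + (s 0 * s' 1 + s 1 * s' 0) * δ 1 + 2 * s 1 * s' 1 * δ 2 +
      (s 0 * s' 2 + s 2 * s' 0) * fderiv ℂ (N.b 0) y δ +
      (s 1 * s' 2 + s 2 * s' 1) * fderiv ℂ (N.b 1) y δ + 2 * s 2 * s' 2 * fderiv ℂ N.c y δ :=
  DFunLike.congr_fun (((((((hasFDerivAt_apply 0 y).const_mul _).add
    ((hasFDerivAt_apply 1 y).const_mul _)).add ((hasFDerivAt_apply 2 y).const_mul _)).add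
    ((n1_b 0 y).hasFDerivAt.const_mul _)).add ((n1_b 1 y).hasFDerivAt.const_mul _)).add
    ((n1_c y).hasFDerivAt.const_mul _)).fderiv δ

theorem n1_two (hS : N.Sm) (hy : y ≠ 0) (ha : a ≠ 0) (h : ∀ s, N.pol y a s = 0) :
    ∃ δ, fderiv ℂ (fun y => N.pol y a a) y δ ≠ 0 := by
  by_contra! k
  by_cases e : a 2 = 0
  · have k0 := k (Pi.single 0 1)
    have k2 := k (Pi.single 2 1)
    rw [n1_fd, e] at k0 k2
    refine ha (funext fun i => ?_)
    fin_cases i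
    exacts [by simpa using k0, by simpa using k2, e]
  refine hS (pt y a) (fun f => smul_ne_zero e hy (congrArg Prod.snd f)) (ContinuousLinearMap.ext fun w => ?_)
  have d : Differentiable ℂ fun q : V24 => N.F q.1 q.2 := by
    have := n1_b (N := N)
    have := n1_c (N := N)
    unfold F
    fun_prop
  have l : ∀ s s', HasDerivAt (fun t : ℂ => N.pol (y + t • (a 2)⁻¹ • w.2) s s') _ 0 := fun s s' =>
    (n1_pol s s' y).hasFDerivAt.hasLineDerivAt _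
  let s : V3 := ![w.1 0, w.1 1, 0]
  have := (((l a a).fun_add (((hasDerivAt_id' 0).fun_mul (l a s)).const_mul 2)).fun_add
    (((hasDerivAt_id' 0).fun_mul (hasDerivAt_id' 0)).fun_mul (l s s))).const_mul (a 2 / 2)
  refine ((d _).hasFDerivAt.hasLineDerivAt w).unique ((this.congr_deriv ?_).congr_of_eventuallyEq
    (.of_forall fun t => ?_))
  · simp [k, h]
  · have : (pt y a + t • w).2 = a 2 • (y + t • (a 2)⁻¹ • w.2) := by
      simp [pt, smul_smul, mul_left_comm (a 2), mul_inv_cancel₀ e]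
    simp only [F, this, b_smul, c_smul]
    simp [pt, pol, s]
    ring

theorem n1_fac (hn : n ≠ 0) (h : ∀ k k', N.pol y (k ⨯₃ n) (k' ⨯₃ n) = 0) :
    ∃ n' : V3, ∀ s s', N.pol y s s' = n ⬝ᵥ s * n' ⬝ᵥ s' + n ⬝ᵥ s' * n' ⬝ᵥ s := by
  obtain ⟨i, hi⟩ := ne_iff.1 hn
  obtain ⟨e, he⟩ : ∃ e : V3, e ⬝ᵥ n = 1 := ⟨Pi.single i (n i)⁻¹, by simpa using inv_mul_cancel₀ hi⟩
  refine ⟨fun j => N.pol y e (Pi.single j 1) - n j * N.pol y e e / 2, fun s s' => ?_⟩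
  have := h (e ⨯₃ s) (e ⨯₃ s')
  rw [cross_cross_eq_smul_sub_smul, cross_cross_eq_smul_sub_smul, he] at this
  simp [pol, dotProduct, Fin.sum_univ_three] at this ⊢
  linear_combination this

theorem n1_three (hG : N.Good) (hy : y ≠ 0) (hn : n ≠ 0)
    (h : ∀ k k', N.pol y (k ⨯₃ n) (k' ⨯₃ n) = 0) (M : Matrix (Fin 3) (Fin 3) ℂ) (hM : M.IsSymm) :
    ∃ δy δn, ∀ k k', fderiv ℂ (fun y => N.pol y (k ⨯₃ n) (k' ⨯₃ n)) y δy +
      N.pol y (k ⨯₃ δn) (k' ⨯₃ n) + N.pol y (k ⨯₃ n) (k' ⨯₃ δn) = (k ⨯₃ n) ⬝ᵥ M *ᵥ (k' ⨯₃ n) := by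
  obtain ⟨m, hm⟩ := n1_fac hn h
  let z : W7 := ![n 0, n 1, m 0, m 1, y 3, n 2, m 2]
  have p : ∀ i j, N.pol y (Pi.single i 1) (Pi.single j 1) = n i * m j + n j * m i := fun i j => by
    simp [hm]
  have p0 := p 0 0
  have p1 := p 0 1
  have p2 := p 1 1
  have p3 := p 0 2
  have p4 := p 1 2
  have p5 := p 2 2
  simp [pol] at p0 p1 p2 p3 p4 p5
  have e : yy z = y := by
    funext i
    fin_cases i <;> simp [yy, z]
    exacts [by linear_combination -p0 / 2, by linear_combination -p1, by linear_combination -p2 / 2]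
  have hz : z ∈ N.Z := by
    rw [mem_Z, e]
    simp [z]
    exact ⟨hy, by linear_combination p3, by linear_combination p4, by linear_combination p5 / 2⟩
  let δ : V4 := ![M 0 0 / 2, M 0 1, M 1 1 / 2, 0]
  obtain ⟨ζ, hζ⟩ := hG.sm z hz ![M 0 2 - fderiv ℂ (N.b 0) y δ, M 1 2 - fderiv ℂ (N.b 1) y δ,
    M 2 2 / 2 - fderiv ℂ N.c y δ]
  have dy : Differentiable ℂ yy := differentiable_pi.2 fun i => by
    fin_cases i <;> simp [yy] <;> fun_prop
  have dG : Differentiable ℂ N.G := differentiable_pi.2 fun i => by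
    have := n1_b (N := N)
    have := n1_c (N := N)
    fin_cases i <;> simp [G] <;> fun_prop
  have c : ∀ j, HasDerivAt (fun t : ℂ => (z + t • ζ) j) (ζ j) 0 := fun j =>
    (hasFDerivAt_apply (𝕜 := ℂ) j z).hasLineDerivAt ζ
  have Y : HasDerivAt (fun t : ℂ => yy (z + t • ζ)) (fderiv ℂ yy z ζ) 0 :=
    (dy z).hasFDerivAt.hasLineDerivAt ζ
  have Γ := hasDerivAt_pi.1 (hζ ▸ (dG z).hasFDerivAt.hasLineDerivAt ζ)
  have f : ∀ {g : V4 → ℂ}, Differentiable ℂ g →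
      HasDerivAt (fun t : ℂ => g (yy (z + t • ζ))) (fderiv ℂ g y (fderiv ℂ yy z ζ)) 0 := fun hg =>
    (hg y).hasFDerivAt.comp_hasDerivAt_of_eq 0 Y (by simp [e])
  have y0 := (hasDerivAt_pi.1 Y 0).unique ((c 0).mul (c 2))
  have y1 := (hasDerivAt_pi.1 Y 1).unique (((c 0).mul (c 3)).add ((c 1).mul (c 2)))
  have y2 := (hasDerivAt_pi.1 Y 2).unique ((c 1).mul (c 3))
  have g0 := (Γ 0).unique (((f (n1_b 0)).sub ((c 0).mul (c 6))).sub ((c 2).mul (c 5)))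
  have g1 := (Γ 1).unique (((f (n1_b 1)).sub ((c 1).mul (c 6))).sub ((c 3).mul (c 5)))
  have g2 := (Γ 2).unique ((f n1_c).sub ((c 5).mul (c 6)))
  refine ⟨δ + fderiv ℂ yy z ζ, ![ζ 0, ζ 1, ζ 5], fun k k' => ?_⟩
  rw [n1_fd, hm, hm]
  simp only [map_add, Pi.add_apply, y0, y1, y2]
  simp [z] at g0 g1 g2
  have m1 : M 1 0 = M 0 1 := hM.apply _ _
  have m2 : M 2 0 = M 0 2 := hM.apply _ _
  have m3 : M 2 1 = M 1 2 := hM.apply _ _
  rw [eq_add_of_sub_eq (eq_add_of_sub_eq g0.symm), eq_add_of_sub_eq (eq_add_of_sub_eq g1.symm),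
    eq_add_of_sub_eq g2.symm]
  simp [z, δ, dotProduct, mulVec, Fin.sum_univ_three, cross_apply, m1, m2, m3]
  ring

theorem n1_symm (y : V4) (s s' : V3) : N.pol y s s' = N.pol y s' s := by
  unfold pol
  ring

theorem Sm.no_sing (h : N.Sm) (hy : y ≠ 0) (ha : a ≠ 0) (h1 : ∀ s, N.pol y s a = 0)
    (h2 : fderiv ℂ (fun y => N.pol y a a) y = 0) : False :=
  let ⟨δ, e⟩ := n1_two h hy ha fun s => (n1_symm ..).trans (h1 s)
  e (DFunLike.congr_fun h2 δ)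

theorem Good.no_T (g : N.Good) (hy : y ≠ 0) (hn : n ≠ 0)
    (h0 : ∀ k k', N.pol y (crossProduct k n) (crossProduct k' n) = 0) {k₁ k₂ : V3}
    (hD : k₁ ⬝ᵥ crossProduct k₂ n ≠ 0) {α β γ : ℂ}
    (h1 : fderiv ℂ (fun y => α * N.pol y (crossProduct k₁ n) (crossProduct k₁ n) +
      β * N.pol y (crossProduct k₁ n) (crossProduct k₂ n) +
      γ * N.pol y (crossProduct k₂ n) (crossProduct k₂ n)) y = 0)
    (h2 : ∀ m : V3, 2 * α * N.pol y (crossProduct k₁ m) (crossProduct k₁ n) +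
      β * (N.pol y (crossProduct k₁ m) (crossProduct k₂ n) +
        N.pol y (crossProduct k₂ m) (crossProduct k₁ n)) +
      2 * γ * N.pol y (crossProduct k₂ m) (crossProduct k₂ n) = 0) : α = 0 ∧ β = 0 ∧ γ = 0 := by
  have k : ∀ w : V3, α * (k₁ ⨯₃ n ⬝ᵥ w) ^ 2 + β * (k₁ ⨯₃ n ⬝ᵥ w * k₂ ⨯₃ n ⬝ᵥ w) +
      γ * (k₂ ⨯₃ n ⬝ᵥ w) ^ 2 = 0 := fun w => by
    obtain ⟨δ, m, e⟩ := n1_three g hy hn h0 (vecMulVec w w) (.ext fun _ _ => mul_comm _ _)
    have f := DFunLike.congr_fun ((((((n1_pol _ _ y).hasFDerivAt.const_mul α).add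
      ((n1_pol _ _ y).hasFDerivAt.const_mul β)).add
      ((n1_pol _ _ y).hasFDerivAt.const_mul γ)).fderiv).symm.trans h1) δ
    simp only [vecMulVec_mulVec, dotProduct_smul, op_smul_eq_mul, dotProduct_comm w] at e
    simp only [_root_.add_apply, _root_.smul_apply, smul_eq_mul, _root_.zero_apply] at f
    linear_combination f + h2 m - α * e k₁ k₁ - β * e k₁ k₂ - γ * e k₂ k₂ +
      α * n1_symm y (k₁ ⨯₃ n) (k₁ ⨯₃ m) + β * n1_symm y (k₁ ⨯₃ n) (k₂ ⨯₃ m) +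
      γ * n1_symm y (k₂ ⨯₃ n) (k₂ ⨯₃ m)
  have e1 : k₁ ⨯₃ n ⬝ᵥ k₁ = 0 := (dotProduct_comm _ _).trans (dot_self_cross _ _)
  have e2 : k₂ ⨯₃ n ⬝ᵥ k₂ = 0 := (dotProduct_comm _ _).trans (dot_self_cross _ _)
  have e3 : k₁ ⨯₃ n ⬝ᵥ k₂ = -(k₁ ⬝ᵥ k₂ ⨯₃ n) := by
    simp [cross_apply, dotProduct, Fin.sum_univ_three]
    ring
  have a1 := k k₁
  have a2 := k k₂
  have a3 := k (k₁ + k₂)
  simp only [dotProduct_add, e1, e2, e3, dotProduct_comm _ k₁] at a1 a2 a3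
  have d := pow_ne_zero 2 hD
  exact ⟨(mul_eq_zero_iff_right d).1 (by linear_combination a2),
    (mul_eq_zero_iff_right d).1 (by linear_combination a1 + a2 - a3),
    (mul_eq_zero_iff_right d).1 (by linear_combination a1)⟩

end Vale.Agent.P287Q.D.NF
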