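import Vale.Agent.P287Q.D.Num0
import Vale.Agent.P287Q.D.Mod0

/-!
# The intersection numbers on the surface of incident lines
-/

set_option linter.style.haveILetI false

namespace Vale.Agent.P287Q.D

open Set Function Topology Filter Module P291Z P269 P269.Holo P269.Mono P269.Coh P269.Tq

namespace Nm

theorem an_p (j : Fin 11) (p : W11) : AnalyticAt ℂ (fun p : W11 => p j) p :=
  (ContinuousLinearMap.proj (R := ℂ) (φ := fun _ : Fin 11 => ℂ) j).analyticAt p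

theorem an_Y (p : W11) : AnalyticAt ℂ (fun p : W11 => p ∘ i1) p :=
  analyticAt_pi_iff.2 fun k => an_p (i1 k) p

/-- The six equations. -/
noncomputable def eq (N : NF) (p : W11) : Fin 3 ⊕ Fin 3 → ℂ :=
  Sum.elim ![p 10 * p 7 - p 0 * p 2, p 10 * p 8 - (p 0 * p 3 + p 1 * p 2), p 10 * p 9 - p 1 * p 3]
    ![p 10 * N.b 0 (p ∘ i1) - p 0 * p 6 - p 2 * p 5, p 10 * N.b 1 (p ∘ i1) - p 1 * p 6 - p 3 * p 5,
      p 10 * N.c (p ∘ i1) - p 5 * p 6]

/-- The chart `t ≠ 0`. -/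
def ψ (t : ℂ) (q : W7 × (Fin 3 → ℂ)) : W11 :=
  ![q.1 0, q.1 1, t * q.1 2, t * q.1 3, q.1 4, q.1 5, t * q.1 6, yy q.1 0 + q.2 0,
    yy q.1 1 + q.2 1, yy q.1 2 + q.2 2, t]

variable {N : NF}

theorem an_eq (p : W11) : AnalyticAt ℂ (eq N) p := by
  have m := fun i j => (an_p i p).mul (an_p j p)
  refine analyticAt_pi_iff.2 (Sum.rec (fun i => ?_) fun i => ?_) <;> fin_cases i
  exacts [(m 10 7).sub (m 0 2), (m 10 8).sub ((m 0 3).add (m 1 2)), (m 10 9).sub (m 1 3),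
    (((an_p 10 p).mul ((N.an_b 0 _).comp (an_Y p))).sub (m 0 6)).sub (m 2 5),
    (((an_p 10 p).mul ((N.an_b 1 _).comp (an_Y p))).sub (m 1 6)).sub (m 3 5),
    ((an_p 10 p).mul ((N.an_c _).comp (an_Y p))).sub (m 5 6)]

theorem an_ψ (t : ℂ) (q : W7 × (Fin 3 → ℂ)) : AnalyticAt ℂ (ψ t) q := by
  have a := fun j => (an_co j q.1).comp (f := Prod.fst) (x := q) analyticAt_fst
  have y := fun j => (analyticAt_pi_iff.1 (an_yy q.1) j).comp (f := Prod.fst) (x := q)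
    analyticAt_fst
  have b := fun j => ((ContinuousLinearMap.proj (R := ℂ) (φ := fun _ : Fin 3 => ℂ) j).analyticAt
    q.2).comp (f := Prod.snd) (x := q) analyticAt_snd
  refine analyticAt_pi_iff.2 fun j => ?_
  fin_cases j
  exacts [a 0, a 1, analyticAt_const.mul (a 2), analyticAt_const.mul (a 3), a 4, a 5,
    analyticAt_const.mul (a 6), (y 0).add (b 0), (y 1).add (b 1), (y 2).add (b 2), analyticAt_const]

theorem ψ_i1 (t : ℂ) (z : W7) : ψ t (z, 0) ∘ i1 = yy z := by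
  funext k
  fin_cases k
  exacts [add_zero _, add_zero _, add_zero _, rfl]

theorem eq_inl (t : ℂ) (q : W7 × (Fin 3 → ℂ)) (i) : eq N (ψ t q) (.inl i) = t * q.2 i := by
  fin_cases i <;> simp [eq, ψ, yy] <;> ring

theorem eq_inr (t : ℂ) (z : W7) (i) : eq N (ψ t (z, 0)) (.inr i) = t * N.G z i := by
  fin_cases i <;> simp only [eq, ψ_i1] <;> simp [ψ, NF.G] <;> ring

theorem eq_a3 (a : A3) (p : W11) (i) : eq N (a3 a p) i = mn (we i) a * eq N p i := by
  rcases i with i | i <;> fin_cases i <;> simp only [eq, a3_i1, NF.b_smul, NF.c_smul] <;>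
    simp [a3, wt, we, mn] <;> ring

theorem sec_eq : Sec a3 Ω (fun k => mn (we k)) (eq N) :=
  ⟨fun _ => hm _, fun p _ => (an_eq p).continuousAt.continuousWithinAt, fun a _ p _ => eq_a3 a p⟩

theorem exists_ψ {p : W11} (hp : p ∈ Ω) (h : eq N p = 0) :
    ∃ t ≠ 0, ∃ z ∈ N.Z, p = ψ t (z, 0) := by
  have e0 : p 10 * p 7 - p 0 * p 2 = 0 := congrFun h (.inl 0)
  have e1 : p 10 * p 8 - (p 0 * p 3 + p 1 * p 2) = 0 := congrFun h (.inl 1)
  have e2 : p 10 * p 9 - p 1 * p 3 = 0 := congrFun h (.inl 2)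
  have ht : p 10 ≠ 0 := fun t => by
    have e3 : p 10 * _ - p 0 * p 6 - p 2 * p 5 = 0 := congrFun h (.inr 0)
    have e4 : p 10 * _ - p 1 * p 6 - p 3 * p 5 = 0 := congrFun h (.inr 1)
    have e5 : p 10 * _ - p 5 * p 6 = 0 := congrFun h (.inr 2)
    have k : p 2 = 0 ∧ p 3 = 0 ∧ p 6 = 0 := by
      obtain ⟨k, a⟩ := ne_iff.1 hp.2.1
      fin_cases k
      · have a : p 0 ≠ 0 := a
        grind
      · have a : p 1 ≠ 0 := a
        grind
      · have a : p 5 ≠ 0 := a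
        grind
    exact hp.2.2 (by funext i; fin_cases i; exacts [k.1, k.2.1, k.2.2, t])
  have e : p = ψ (p 10) (![p 0, p 1, p 2 / p 10, p 3 / p 10, p 4, p 5, p 6 / p 10], 0) := by
    funext j
    fin_cases j <;> simp [ψ, yy] <;> field_simp
    exacts [by linear_combination e0, by linear_combination e1, by linear_combination e2]
  refine ⟨_, ht, _, ⟨?_, funext fun i => ?_⟩, e⟩
  · rw [← ψ_i1 (p 10), ← e]
    exact hp.1
  · have := eq_inr (N := N) (p 10) ![p 0, p 1, p 2 / p 10, p 3 / p 10, p 4, p 5, p 6 / p 10] i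
    rw [← e, h] at this
    exact (mul_eq_zero.1 this.symm).resolve_left ht

theorem surj (g : N.Good) {p : W11} (hp : p ∈ Ω) (h : eq N p = 0) :
    Surjective (fderiv ℂ (eq N) p) := by
  obtain ⟨t, ht, z, hz, rfl⟩ := exists_ψ hp h
  have d := (an_eq (N := N) (ψ t (z, 0))).differentiableAt.hasFDerivAt.comp _
    (an_ψ t (z, 0)).differentiableAt.hasFDerivAt
  suffices Surjective ((fderiv ℂ (eq N) (ψ t (z, 0))).comp (fderiv ℂ (ψ t) (z, 0))) from
    .of_comp (g := fderiv ℂ (ψ t) (z, 0)) this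
  generalize (fderiv ℂ (eq N) (ψ t (z, 0))).comp (fderiv ℂ (ψ t) (z, 0)) = L at d
  have h1 : ∀ q i, L q (.inl i) = t * q.2 i := fun q i => DFunLike.congr_fun
    ((hasFDerivAt_pi'.1 d (.inl i)).unique
      (((hasFDerivAt_pi'.1 (hasFDerivAt_snd (𝕜 := ℂ) (p := (z, (0 : Fin 3 → ℂ)))) i).const_mul
        t).congr_of_eventuallyEq (.of_forall fun q => eq_inl t q i))) q
  have h2 : ∀ v i, L (v, 0) (.inr i) = t * fderiv ℂ N.G z v i := fun v i => DFunLike.congr_fun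
    ((HasFDerivAt.comp (f := fun e => (e, (0 : Fin 3 → ℂ))) z (hasFDerivAt_pi'.1 d (.inr i))
      (hasFDerivAt_prodMk_left z 0)).unique
      (((hasFDerivAt_pi'.1 (N.an_G z).differentiableAt.hasFDerivAt i).const_mul
        t).congr_of_eventuallyEq (.of_forall fun x => eq_inr t x i))) v
  intro w
  obtain ⟨v, hv⟩ := g.sm z hz fun i => (w (.inr i) - L (0, fun j => w (.inl j) / t) (.inr i)) / t
  refine ⟨(v, 0) + (0, fun j => w (.inl j) / t), funext (Sum.rec (fun i => ?_) fun i => ?_)⟩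
  · rw [h1]
    exact (congrArg _ (zero_add _)).trans (mul_div_cancel₀ _ ht)
  · rw [map_add, Pi.add_apply, h2, hv, mul_div_cancel₀ _ ht, sub_add_cancel]

theorem ψ_ac (a : ℂ × ℂ) (z : W7) : ψ 1 (ac a z, 0) = a3 (a.1, a.2, 1) (ψ 1 (z, 0)) := by
  funext j
  fin_cases j <;> simp only [ψ, yy_ac] <;> simp [a3, wt, mn, ac, ch]

theorem ψ_eq (t : ℂ) (z : W7) : ψ t (z, 0) = a3 (1, 1, t) (ψ 1 (z, 0)) := by
  funext j
  fin_cases j <;> simp [ψ, a3, wt, mn]

theorem hol (g : N.Good) : Hol ac a3 N.Z {p | p ∈ Ω ∧ eq N p = 0} (fun a => (a.1, a.2, 1))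
    fun z => ψ 1 (z, 0) := by
  refine .of_an ⟨rfl, fun _ _ _ _ => by simp, fun _ _ => by fun_prop⟩ (fun z hz => ?_)
    (fun z _ => (an_ψ 1 _).comp (f := fun z => (z, 0)) (analyticAt_id.prod analyticAt_const))
    fun a _ z _ => ψ_ac a z
  refine ⟨⟨(ψ_i1 1 z).trans_ne hz.1, fun e => ?_, fun e => one_ne_zero (congrFun e 3)⟩,
    funext (Sum.rec (fun i => (eq_inl _ _ i).trans (mul_zero _)) fun i =>
      (eq_inr _ _ i).trans (by rw [hz.2]; exact mul_zero _))⟩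
  rcases g.fst hz with a | a | a
  exacts [a (congrFun e 0), a (congrFun e 1), a (congrFun e 2)]

theorem bij (g : N.Good) : Bijective (hol g).q := by
  refine ⟨Hol.q_injective _ fun x _ y _ ⟨u, v, s⟩ hb e => ?_, Hol.q_surjective _ fun p hp => ?_⟩
  · obtain rfl : s = 1 := by simpa [ψ, a3, wt, mn] using (congrFun e 10).symm
    rw [← ψ_ac (u, v)] at e
    refine ⟨(u, v), D.unit_iff.2 ⟨(unit_iff.1 hb).1, (unit_iff.1 hb).2.1⟩, funext fun j => ?_⟩
    fin_cases j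
    exacts [congrFun e 0, congrFun e 1, mul_left_cancel₀ one_ne_zero (congrFun e 2),
      mul_left_cancel₀ one_ne_zero (congrFun e 3), congrFun e 4, congrFun e 5,
      mul_left_cancel₀ one_ne_zero (congrFun e 6)]
  · obtain ⟨t, ht, z, hz, rfl⟩ := exists_ψ hp.1 hp.2
    exact ⟨z, hz, (1, 1, t), unit_iff.2 ⟨one_ne_zero, one_ne_zero, ht⟩, ψ_eq t z⟩

end Nm

open Nm in
/-- **The intersection numbers.** -/
theorem NF.Good.num {N : NF} (g : N.Good) :
    g.qm.ps.J (lcq ac N.Z Prod.fst * lcq ac N.Z Prod.fst) = 1 ∧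
    g.qm.ps.J (lcq ac N.Z Prod.fst * lcq ac N.Z Prod.snd) = 4 ∧
    g.qm.ps.J (lcq ac N.Z Prod.snd * lcq ac N.Z Prod.snd) = 1 := by
  obtain ⟨k, f, h⟩ := J_zero (Z := {p | p ∈ Ω ∧ eq N p = 0}) sec_eq (fun _ => Iff.rfl)
    (fun p _ => an_eq p) fun p hp => surj g hp.1 hp.2
  haveI := g.fp
  haveI := k.fp
  have m : ∀ e, H.map (hol g).q (H.map (qinc a3 f) (cl e).1) =
      lcq ac N.Z fun a => mn e (a.1, a.2, 1) := fun e => by
    rw [cl_val, ← Eqv.qm_incl, (Eqh.incl f).map_lcq (hm e), (hol g).toEqh.map_lcq (hm e)]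
  have a := (m (1, 0, 0)).trans (congrArg _ (funext fun a => (by simp [mn] : _ = a.1)))
  have b := (m (0, 1, 0)).trans (congrArg _ (funext fun a => (by simp [mn] : _ = a.2)))
  have j := fun c : Ch.Hev _ => (g.qm.J_map (n := 2) k (hol g) (bij g) _).trans (h c)
  have r := fun c c' : Ch.Hev _ => (congrArg g.qm.ps.J ((map_mul _ _ _).symm.trans
    (congrArg _ (map_mul _ c.1 c'.1).symm))).trans (j (c * c'))
  refine ⟨?_, ?_, ?_⟩
  · rw [← J_e.1, ← r, a]
  · rw [← J_e.2.1, ← r, a, b]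
  · rw [← J_e.2.2, ← r, b]

end Vale.Agent.P287Q.D
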