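import Vale.Agent.P287Q.Cub.N0

/-!
# A smooth toric eightfold containing the surface of incident lines
-/

set_option linter.unusedSectionVars false
set_option linter.style.haveILetI false

namespace Vale.Agent.P287Q.D.Nm

open Set Function Topology Filter Module P291Z P269 P269.Holo P269.Mono P269.Coh P269.Tq

/-- The torus. -/
abbrev A3 : Type := ℂ × ℂ × ℂ

/-- The coordinates `λ₀, λ₁, λ₀', λ₁', w, μ, μ', y₀, y₁, y₂, t`. -/
abbrev W11 : Type := Fin 11 → ℂ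

/-- The characters. -/
def mn (e : ℕ × ℕ × ℕ) (a : A3) : ℂ := a.1 ^ e.1 * a.2.1 ^ e.2.1 * a.2.2 ^ e.2.2

/-- The weights. -/
def wt : Fin 11 → ℕ × ℕ × ℕ := ![(1, 0, 0), (1, 0, 0), (0, 1, 1), (0, 1, 1), (1, 1, 0), (2, 1, 0),
  (1, 2, 1), (1, 1, 0), (1, 1, 0), (1, 1, 0), (0, 0, 1)]

/-- The action. -/
def a3 (a : A3) (p : W11) : W11 := fun j => mn (wt j) a * p j

theorem mn_one (e) : mn e 1 = 1 := by simp [mn]

theorem mn_mul (e) (a b : A3) : mn e (a * b) = mn e a * mn e b := by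
  simp only [mn, Prod.fst_mul, Prod.snd_mul, mul_pow]; ring

theorem mn_add (e e') (a : A3) : mn (e + e') a = mn e a * mn e' a := by
  simp only [mn, Prod.fst_add, Prod.snd_add, pow_add]; ring

theorem mn_an (e) (a : A3) : AnalyticAt ℂ (mn e) a :=
  ((analyticAt_fst.pow _).mul ((analyticAt_fst.comp analyticAt_snd).pow _)).mul
    ((analyticAt_snd.comp analyticAt_snd).pow _)

theorem hm (e) : Tq.Hm (mn e) :=
  ⟨mn_one e, fun a b _ _ => mn_mul e a b, fun a _ => (mn_an e a).continuousAt⟩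

theorem unit_iff {a : A3} : IsUnit a ↔ a.1 ≠ 0 ∧ a.2.1 ≠ 0 ∧ a.2.2 ≠ 0 := by
  simp only [Prod.isUnit_iff, isUnit_iff_ne_zero]

theorem mn_ne (e) {a : A3} (h : IsUnit a) : mn e a ≠ 0 := ((hm e).isUnit h).ne_zero

instance isAct : IsAct a3 univ :=
  ⟨fun x _ => funext fun j => by rw [a3, mn_one, one_mul],
    fun a b _ _ x _ => funext fun j => by simp only [a3, mn_mul, mul_assoc], fun _ _ _ _ => trivial,
    fun a _ x _ => analyticAt_pi_iff.2 fun j => ((mn_an _ _).comp analyticAt_fst).mul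
      (((ContinuousLinearMap.proj j : W11 →L[ℂ] ℂ).analyticAt _).comp analyticAt_snd)⟩

theorem lin (a : A3) (_ : IsUnit a) : IsLinearMap ℂ (a3 a) :=
  ⟨fun _ _ => funext fun _ => mul_add _ _ _, fun _ _ => funext fun _ => mul_left_comm _ _ _⟩

/-- The plane. -/
def i1 : Fin 4 → Fin 11 := ![7, 8, 9, 4]

/-- The first factor. -/
def i2 : Fin 3 → Fin 11 := ![0, 1, 5]

/-- The second factor and the homogenising variable. -/
def i3 : Fin 4 → Fin 11 := ![2, 3, 6, 10]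

/-- The stable points. -/
def Ω : Set W11 := {p | p ∘ i1 ≠ 0 ∧ p ∘ i2 ≠ 0 ∧ p ∘ i3 ≠ 0}

theorem isOpen_Ω : IsOpen Ω :=
  have k : ∀ {n} (i : Fin n → Fin 11), IsOpen {p : W11 | p ∘ i ≠ 0} := fun i =>
    isOpen_ne_fun (by fun_prop) continuous_const
  (k i1).inter ((k i2).inter (k i3))

theorem a3_ne {ι : Type} (i : ι → Fin 11) {a : A3} (h : IsUnit a) {p : W11} (hp : p ∘ i ≠ 0) :
    a3 a p ∘ i ≠ 0 := fun e => hp (funext fun k =>
  (mul_eq_zero.1 (congrFun e k)).resolve_left (mn_ne _ h))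

theorem a3_mem {a : A3} (h : IsUnit a) {p : W11} (hp : p ∈ Ω) : a3 a p ∈ Ω :=
  ⟨a3_ne _ h hp.1, a3_ne _ h hp.2.1, a3_ne _ h hp.2.2⟩

theorem a3_i1 (a : A3) (p : W11) : a3 a p ∘ i1 = (a.1 * a.2.1) • (p ∘ i1) := by
  funext k
  fin_cases k <;> simp [a3, i1, wt, mn]

theorem fix_one {ι : Type} (i : ι → Fin 11) {a : A3} {p : W11} (hp : p ∘ i ≠ 0) (e : a3 a p = p) :
    ∃ k, mn (wt (i k)) a = 1 :=
  (ne_iff.1 hp).imp fun k h => (mul_eq_right₀ h).1 (congrFun e (i k))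

theorem free {a : A3} {p : W11} (hp : p ∈ Ω) (e : a3 a p = p) : a = 1 := by
  obtain ⟨u, v, s⟩ := a
  have h1 : u * v = 1 := by
    obtain ⟨k, h⟩ := fix_one _ hp.1 e
    fin_cases k <;> simpa [i1, wt, mn] using h
  have h2 : u = 1 := by
    obtain ⟨k, h⟩ := fix_one _ hp.2.1 e
    fin_cases k <;> simp [i2, wt, mn] at h
    exacts [h, h, by linear_combination h - u * h1]
  obtain rfl : v = 1 := by simpa [h2] using h1
  obtain rfl : s = 1 := by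
    obtain ⟨k, h⟩ := fix_one _ hp.2.2 e
    fin_cases k <;> simpa [i3, wt, mn, h2] using h
  rw [h2]; rfl

/-- The first moment. -/
noncomputable def n1 (p : W11) : ℝ := ‖p ∘ i1‖

/-- The second moment. -/
noncomputable def n2 (p : W11) : ℝ := (‖p 0‖ + ‖p 1‖) * n1 p + ‖p 5‖

/-- The third moment. -/
noncomputable def n3 (p : W11) : ℝ :=
  ‖p 10‖ * n1 p ^ 3 + (‖p 2‖ + ‖p 3‖) * n1 p * n2 p + ‖p 6‖ * n2 p

theorem c1 : Continuous n1 := by unfold n1; fun_prop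

theorem c2 : Continuous n2 := by have := c1; unfold n2; fun_prop

theorem c3 : Continuous n3 := by have := c1; have := c2; unfold n3; fun_prop

theorem n1_a (a : A3) (p : W11) : n1 (a3 a p) = ‖a.1‖ * ‖a.2.1‖ * n1 p := by
  rw [n1, a3_i1, norm_smul, norm_mul, n1]

theorem n2_a (a : A3) (p : W11) : n2 (a3 a p) = ‖a.1‖ ^ 2 * ‖a.2.1‖ * n2 p := by
  simp only [n2, n1_a]
  simp [a3, wt, mn]
  ring

theorem n3_a (a : A3) (p : W11) : n3 (a3 a p) = ‖a.1‖ ^ 3 * ‖a.2.1‖ ^ 3 * ‖a.2.2‖ * n3 p := by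
  simp only [n3, n1_a, n2_a]
  simp [a3, wt, mn]
  ring

theorem pos {p : W11} (hp : p ∈ Ω) : 0 < n1 p ∧ 0 < n2 p ∧ 0 < n3 p := by
  have h1 : 0 < n1 p := norm_pos_iff.2 hp.1
  have h2 : 0 < n2 p := by
    obtain ⟨k, h⟩ := ne_iff.1 hp.2.1
    have := norm_pos_iff.2 h
    unfold n2
    fin_cases k <;> simp [i2] at this <;> positivity
  refine ⟨h1, h2, ?_⟩
  obtain ⟨k, h⟩ := ne_iff.1 hp.2.2
  have := norm_pos_iff.2 h
  unfold n3
  fin_cases k <;> simp [i3] at this <;> positivity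

/-- The norm of the torus element. -/
noncomputable def nr (x y : W11) : ℝ := max (n2 y * n1 x / (n2 x * n1 y))
  (max (n1 y ^ 2 * n2 x / (n1 x ^ 2 * n2 y)) (n3 y * n1 x ^ 3 / (n3 x * n1 y ^ 3)))

theorem nr_eq {a : A3} (h : IsUnit a) {p : W11} (hp : p ∈ Ω) : nr p (a3 a p) = ‖a‖ := by
  obtain ⟨h1, h2, h3⟩ := pos hp
  obtain ⟨u, v, -⟩ := unit_iff.1 h
  have u := norm_pos_iff.2 u
  have v := norm_pos_iff.2 v
  rw [nr, n1_a, n2_a, n3_a, Prod.norm_def, Prod.norm_def]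
  congr 1
  · field_simp
  · congr 1 <;> field_simp

instance fp : FP a3 Ω := by
  refine fp_of (fun a ha x hx => a3_mem ha hx) isOpen_Ω.isLocallyClosed
    (fun a _ x hx e => free hx e) fun x a x₀ x₁ ha hx h0 h1 t0 t1 => ?_
  obtain ⟨a1, a2, a3'⟩ := pos h0
  obtain ⟨b1, b2, b3⟩ := pos h1
  have p1 := (c1.tendsto _).comp t0
  have p2 := (c2.tendsto _).comp t0
  have p3 := (c3.tendsto _).comp t0
  have q1 := (c1.tendsto _).comp t1
  have q2 := (c2.tendsto _).comp t1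
  have q3 := (c3.tendsto _).comp t1
  exact not_tendsto_atTop_of_tendsto_nhds (((((q2.mul p1).div (p2.mul q1) (by positivity)).max
    ((((q1.pow 2).mul p2).div ((p1.pow 2).mul q2) (by positivity)).max
      ((q3.mul (p1.pow 3)).div (p3.mul (q1.pow 3)) (by positivity))))).congr fun n =>
        nr_eq (ha n) (hx n))

theorem cpt : CompactSpace (Quo a3 Ω) := by
  let K : Set W11 := {p | n1 p = 1 ∧ n2 p = 1 ∧ n3 p = 1}
  have e : K ⊆ Ω := fun p ⟨h1, h2, h3⟩ => by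
    refine ⟨fun e => ?_, fun e => ?_, fun e => ?_⟩
    · simp [n1, e] at h1
    · have a : p 0 = 0 := congrFun e 0
      have b : p 1 = 0 := congrFun e 1
      have c : p 5 = 0 := congrFun e 2
      simp [n2, a, b, c] at h2
    · have a : p 2 = 0 := congrFun e 0
      have b : p 3 = 0 := congrFun e 1
      have c : p 6 = 0 := congrFun e 2
      have d : p 10 = 0 := congrFun e 3
      simp [n3, a, b, c, d] at h3
  have hK : IsCompact K := by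
    refine Metric.isCompact_of_isClosed_isBounded ((isClosed_eq c1 continuous_const).inter
      ((isClosed_eq c2 continuous_const).inter (isClosed_eq c3 continuous_const)))
      ((Metric.isBounded_closedBall (x := (0 : W11)) (r := 1)).subset fun p ⟨h1, h2, h3⟩ => ?_)
    have k : ∀ k, ‖p (i1 k)‖ ≤ 1 := fun k => h1 ▸ norm_le_pi_norm (p ∘ i1) k
    simp only [n2, n3, h1] at h2 h3
    rw [h2] at h3
    have z := fun j => norm_nonneg (p j)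
    refine mem_closedBall_zero_iff.2 ((pi_norm_le_iff_of_nonneg zero_le_one).2 fun j => ?_)
    have := z 0; have := z 1; have := z 5; have := z 2; have := z 3; have := z 6; have := z 10
    fin_cases j
    exacts [show ‖p 0‖ ≤ 1 by linarith, show ‖p 1‖ ≤ 1 by linarith, show ‖p 2‖ ≤ 1 by linarith,
      show ‖p 3‖ ≤ 1 by linarith, k 3, show ‖p 5‖ ≤ 1 by linarith, show ‖p 6‖ ≤ 1 by linarith,
      k 0, k 1, k 2, show ‖p 10‖ ≤ 1 by linarith]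
  haveI := isCompact_iff_compactSpace.1 hK
  refine Surjective.compactSpace (continuous_mk.comp (continuous_inclusion e))
    (mk_surj.forall.2 fun x => ?_)
  obtain ⟨h1, h2, h3⟩ := pos x.2
  let a : A3 := ((n1 x / n2 x : ℝ), (n2 x / n1 x ^ 2 : ℝ), (n1 x ^ 3 / n3 x : ℝ))
  have ha : IsUnit a := unit_iff.2 ⟨Complex.ofReal_ne_zero.2 (by positivity),
    Complex.ofReal_ne_zero.2 (by positivity), Complex.ofReal_ne_zero.2 (by positivity)⟩
  have u : ‖a.1‖ = n1 x / n2 x := Complex.norm_of_nonneg (by positivity)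
  have v : ‖a.2.1‖ = n2 x / n1 x ^ 2 := Complex.norm_of_nonneg (by positivity)
  have s : ‖a.2.2‖ = n1 x ^ 3 / n3 x := Complex.norm_of_nonneg (by positivity)
  refine ⟨⟨a3 a x, ?_, ?_, ?_⟩, mk_act ha x.2 _⟩
  · rw [n1_a, u, v]; field_simp
  · rw [n2_a, u, v]; field_simp
  · rw [n3_a, u, v, s]; field_simp

/-- **The toric eightfold.** -/
theorem qm : QM a3 Ω 8 :=
  haveI := cpt
  .of_mfd lin fun x hx => ⟨11, by simp, by
    simpa using (MfdAt.univ x).congr ((isOpen_Ω.eventually_mem hx).mono fun _ a =>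
      ⟨fun _ => a, fun _ => trivial⟩)⟩

theorem tan_Ω {x : W11} (hx : x ∈ Ω) (v : W11) : v ∈ tan (Subtype.val : Ω → W11) ⟨x, hx⟩ :=
  fun Φ _ h2 => by
    have h3 : Φ =ᶠ[𝓝 x] fun _ => 0 := ((ev_sub hx (p := fun s => Φ s = 0)).1 h2).mp
      ((isOpen_Ω.eventually_mem hx).mono fun _ a b => b a)
    rw [h3.fderiv_eq]
    simp

/-- The Chern classes. -/
noncomputable def cl (e : ℕ × ℕ × ℕ) : Ch.Hev (Quo a3 Ω) := lce a3 Ω (hm e)

theorem cl_val (e) : (cl e).1 = lcq a3 Ω (mn e) := lce_val _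

theorem cl_add (e e') : cl (e + e') = cl e + cl e' := Subtype.ext (by
  rw [Subalgebra.coe_add, cl_val, cl_val, cl_val, ← lcq_mul (hm e) (hm e')]
  exact congrArg _ (funext (mn_add e e')))

theorem cl_zero : cl 0 = 0 := by
  have := cl_add 0 0
  rwa [add_zero, left_eq_add] at this

theorem cl_eq (i j k : ℕ) :
    cl (i, j, k) = i * cl (1, 0, 0) + j * cl (0, 1, 0) + k * cl (0, 0, 1) := by
  let f : ℕ × ℕ × ℕ →+ Ch.Hev (Quo a3 Ω) := ⟨⟨cl, cl_zero⟩, cl_add⟩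
  have : (i, j, k) = i • ((1, 0, 0) : ℕ × ℕ × ℕ) + j • (0, 1, 0) + k • (0, 0, 1) := by simp
  change f _ = i * f _ + j * f _ + k * f _
  rw [this, map_add, map_add, map_nsmul, map_nsmul, map_nsmul, nsmul_eq_mul, nsmul_eq_mul,
    nsmul_eq_mul]

theorem sec {ι : Type} (i : ι → Fin 11) : Sec a3 Ω (fun k => mn (wt (i k))) fun p => p ∘ i :=
  ⟨fun _ => hm _, by fun_prop, fun _ _ _ _ _ => rfl⟩

theorem rel {ι : Type} [Fintype ι] (i : ι → Fin 11) (h : ∀ p ∈ Ω, p ∘ i ≠ 0) :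
    ∏ k, cl (wt (i k)) = 0 := (sec i).prod_eq_zero h

/-- integrals over transverse zero sets -/
theorem J_zero {ι : Type} [Fintype ι] {e : ι → ℕ × ℕ × ℕ} {s : W11 → ι → ℂ} {Z : Set W11}
    (hs : Sec a3 Ω (fun k => mn (e k)) s) (hZ : ∀ x, x ∈ Z ↔ x ∈ Ω ∧ s x = 0)
    (ha : ∀ x ∈ Z, AnalyticAt ℂ s x) (ht : ∀ x ∈ Z, Surjective (fderiv ℂ s x)) :
    ∃ (k : QM a3 Z (8 - Fintype.card ι)) (f : Z ⊆ Ω), ∀ c : Ch.Hev (Quo a3 Ω),
      k.ps.J (H.map (qinc a3 f) c.1) = qm.ps.J ((∏ i, cl (e i)) * c).1 := by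
  have ht' : ∀ x (hx : x ∈ Ω), x ∈ Z → ∀ w, ∃ v ∈ tan (Subtype.val : Ω → W11) ⟨x, hx⟩,
      fderiv ℂ s x v = w := fun x hx h w => (ht x h w).imp fun v a => ⟨tan_Ω hx v, a⟩
  have k := qm.zero hs hZ ha ht'
  have f : Z ⊆ Ω := fun x hx => ((hZ x).1 hx).1
  refine ⟨k, f, fun c => ?_⟩
  rw [← one_mul (H.map _ _), ← PS.J_push_mul (X := k.ps) (Y := qm.ps),
    qm.push_one hs hZ ha ht' k f]
  rfl

/-- The coordinates which vanish at a fixed point. -/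
def i0 : Fin 8 → Fin 11 := ![7, 8, 9, 1, 5, 2, 3, 6]

theorem J_pt : qm.ps.J (∏ k, cl (wt (i0 k))).1 = 1 := by
  let L : W11 →L[ℂ] Fin 8 → ℂ := .pi fun k => .proj (i0 k)
  obtain ⟨k, f, h⟩ := J_zero (Z := {p | p ∈ Ω ∧ p ∘ i0 = 0}) (sec i0) (fun _ => Iff.rfl)
    (fun x _ => L.analyticAt x) fun x _ => by
      rw [show (fun p : W11 => p ∘ i0) = L from rfl, L.fderiv]
      exact (show Injective i0 by decide).surjective_comp_right
  have h1 := h 1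
  rw [mul_one, Subalgebra.coe_one, map_one] at h1
  rw [← h1]
  haveI := k.fp
  let e : W11 := ![1, 0, 0, 0, 1, 0, 0, 0, 0, 0, 1]
  have he : e ∈ {p | p ∈ Ω ∧ p ∘ i0 = 0} := ⟨⟨fun a => one_ne_zero (congrFun a 3),
    fun a => one_ne_zero (congrFun a 0), fun a => one_ne_zero (congrFun a 3)⟩, by
      funext k; fin_cases k <;> rfl⟩
  have h4 : ∀ x : {p | p ∈ Ω ∧ p ∘ i0 = 0}, Quo.mk a3 ⟨e, he⟩ = Quo.mk a3 x := fun ⟨x, hx, h0⟩ => by
    have z : ∀ k, x (i0 k) = 0 := congrFun h0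
    have z7 : x 7 = 0 := z 0
    have z8 : x 8 = 0 := z 1
    have z9 : x 9 = 0 := z 2
    have z1 : x 1 = 0 := z 3
    have z5 : x 5 = 0 := z 4
    have z2 : x 2 = 0 := z 5
    have z3 : x 3 = 0 := z 6
    have z6 : x 6 = 0 := z 7
    have a4 : x 4 ≠ 0 := fun a => hx.1 (by funext k; fin_cases k <;> assumption)
    have a0 : x 0 ≠ 0 := fun a => hx.2.1 (by funext k; fin_cases k <;> assumption)
    have a10 : x 10 ≠ 0 := fun a => hx.2.2 (by funext k; fin_cases k <;> assumption)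
    refine Quot.sound ⟨(x 0, x 4 / x 0, x 10), unit_iff.2 ⟨a0, div_ne_zero a4 a0, a10⟩, ?_⟩
    funext j
    fin_cases j <;> simp [a3, wt, mn, e, *]
    rw [mul_div_cancel₀ _ a0]
  haveI : Subsingleton (Quo a3 {p | p ∈ Ω ∧ p ∘ i0 = 0}) :=
    ⟨mk_surj.forall₂.2 fun x y => (h4 x).symm.trans (h4 y)⟩
  exact Cub.N0_intg_one (by simpa using k.dim) ⟨e, he⟩

/-- The weights of the six equations. -/
def we : Fin 3 ⊕ Fin 3 → ℕ × ℕ × ℕ :=
  Sum.elim (fun _ => (1, 1, 1)) ![(2, 2, 1), (2, 2, 1), (3, 3, 1)]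

theorem alg {R : Type} [CommRing R] {u v s e m : R} (r1 : (u + v) ^ 4 = 0)
    (r2 : u * u * (2 * u + v) = 0) (r3 : (v + s) ^ 2 * (u + 2 * v + s) * s = 0)
    (he : e = (u + v + s) ^ 3 * (2 * u + 2 * v + s) ^ 2 * (3 * u + 3 * v + s))
    (hm : m = (u + v) ^ 3 * u * (2 * u + v) * (v + s) ^ 2 * (u + 2 * v + s)) :
    e * (u * u) = m ∧ e * (u * v) = 4 * m ∧ e * (v * v) = m := by
  obtain ⟨h, rfl⟩ : ∃ h, v = h - u := ⟨u + v, by ring⟩
  subst he hm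
  refine ⟨?_, ?_, ?_⟩
  · linear_combination (-s ^ 3 * u + 3 * s ^ 2 * u ^ 2 - 4 * s ^ 2 * u * h + 11 * s * u ^ 2 * h -
      5 * s * u * h ^ 2 + 10 * u ^ 2 * h ^ 2 - 2 * u * h ^ 3) * r1 + (10 * s ^ 3 * u ^ 2 + 10 * s ^
      3 * u * h + 5 * s ^ 3 * h ^ 2 - 15 * s ^ 2 * u ^ 3 + 15 * s ^ 2 * u ^ 2 * h + 25 * s ^ 2 * u *
      h ^ 2 + 20 * s ^ 2 * h ^ 3 + 6 * s * u ^ 4 - 16 * s * u ^ 3 * h + s * u ^ 2 * h ^ 2 + 10 * s *
      u * h ^ 3 + 22 * s * h ^ 4 + u ^ 2 * h ^ 3 - 4 * u * h ^ 4 + 5 * h ^ 5) * r2 + (s ^ 2 * u ^ 2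
      + 3 * s * u ^ 3 + 6 * s * u ^ 2 * h + 6 * u ^ 4 + 14 * u ^ 3 * h + 11 * u ^ 2 * h ^ 2) * r3
  · linear_combination (2 * s ^ 3 * u - 6 * s ^ 2 * u ^ 2 + 8 * s ^ 2 * u * h - 22 * s * u ^ 2 * h
      + 10 * s * u * h ^ 2 - 20 * u ^ 2 * h ^ 2 + 4 * u * h ^ 3) * r1 + (-10 * s ^ 3 * u ^ 2 + 5 * s
      ^ 3 * h ^ 2 + 15 * s ^ 2 * u ^ 3 - 30 * s ^ 2 * u ^ 2 * h - 10 * s ^ 2 * u * h ^ 2 + 20 * s ^
      2 * h ^ 3 - 6 * s * u ^ 4 + 22 * s * u ^ 3 * h - 17 * s * u ^ 2 * h ^ 2 - 24 * s * u * h ^ 3 +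
      31 * s * h ^ 4 + 4 * u ^ 2 * h ^ 3 - 16 * u * h ^ 4 + 20 * h ^ 5) * r2 + (-s ^ 2 * u ^ 2 + s ^
      2 * u * h - 3 * s * u ^ 3 - 3 * s * u ^ 2 * h + 6 * s * u * h ^ 2 - 6 * u ^ 4 - 8 * u ^ 3 * h
      + 3 * u ^ 2 * h ^ 2 + 11 * u * h ^ 3) * r3
  · linear_combination (2 * s ^ 3 * u + 6 * s ^ 3 * h - 6 * s ^ 2 * u ^ 2 - 10 * s ^ 2 * u * h +
      24 * s ^ 2 * h ^ 2 - 4 * s * u ^ 2 * h - 38 * s * u * h ^ 2 + 30 * s * h ^ 3 + 10 * u ^ 2 * h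
      ^ 2 - 26 * u * h ^ 3 + 12 * h ^ 4) * r1 + (10 * s ^ 3 * u ^ 2 - 10 * s ^ 3 * u * h - 5 * s ^ 3
      * h ^ 2 - 15 * s ^ 2 * u ^ 3 + 45 * s ^ 2 * u ^ 2 * h - 20 * s ^ 2 * u * h ^ 2 - 15 * s ^ 2 *
      h ^ 3 + 6 * s * u ^ 4 - 28 * s * u ^ 3 * h + 39 * s * u ^ 2 * h ^ 2 - 8 * s * u * h ^ 3 - 3 *
      s * h ^ 4 + u ^ 2 * h ^ 3 - 4 * u * h ^ 4 + 5 * h ^ 5) * r2 + (s ^ 2 * u ^ 2 - 2 * s ^ 2 * u *
      h + s ^ 2 * h ^ 2 + 3 * s * u ^ 3 - 9 * s * u * h ^ 2 + 6 * s * h ^ 3 + 6 * u ^ 4 + 2 * u ^ 3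
      * h - 11 * u ^ 2 * h ^ 2 - 8 * u * h ^ 3 + 11 * h ^ 4) * r3

/-- **The toric integrals.** -/
theorem J_e : qm.ps.J ((∏ i, cl (we i)) * (cl (1, 0, 0) * cl (1, 0, 0))).1 = 1 ∧
    qm.ps.J ((∏ i, cl (we i)) * (cl (1, 0, 0) * cl (0, 1, 0))).1 = 4 ∧
    qm.ps.J ((∏ i, cl (we i)) * (cl (0, 1, 0) * cl (0, 1, 0))).1 = 1 := by
  have r1 := rel i1 fun _ h => h.1
  have r2 := rel i2 fun _ h => h.2.1
  have r3 := rel i3 fun _ h => h.2.2
  have a := cl_eq 1 1 0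
  have b := cl_eq 2 1 0
  have c := cl_eq 0 1 1
  have d := cl_eq 1 2 1
  have f := cl_eq 1 1 1
  have g := cl_eq 2 2 1
  have k := cl_eq 3 3 1
  obtain ⟨h1, h2, h3⟩ := alg (u := cl (1, 0, 0)) (v := cl (0, 1, 0)) (s := cl (0, 0, 1))
    (e := ∏ i, cl (we i)) (m := ∏ k, cl (wt (i0 k)))
    (by
      rw [← r1, Fin.prod_univ_four]
      change _ = cl (1, 1, 0) * cl (1, 1, 0) * cl (1, 1, 0) * cl (1, 1, 0)
      rw [a]; push_cast; ring)
    (by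
      rw [← r2, Fin.prod_univ_three]
      change _ = cl (1, 0, 0) * cl (1, 0, 0) * cl (2, 1, 0)
      rw [b]; push_cast; ring)
    (by
      rw [← r3, Fin.prod_univ_four]
      change _ = cl (0, 1, 1) * cl (0, 1, 1) * cl (1, 2, 1) * cl (0, 0, 1)
      rw [c, d]; push_cast; ring)
    (by
      rw [Fintype.prod_sum_type, Fin.prod_univ_three, Fin.prod_univ_three]
      change cl (1, 1, 1) * cl (1, 1, 1) * cl (1, 1, 1) *
        (cl (2, 2, 1) * cl (2, 2, 1) * cl (3, 3, 1)) = _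
      rw [f, g, k]; push_cast; ring)
    (by
      rw [Fin.prod_univ_eight]
      change cl (1, 1, 0) * cl (1, 1, 0) * cl (1, 1, 0) * cl (1, 0, 0) * cl (2, 1, 0) *
        cl (0, 1, 1) * cl (0, 1, 1) * cl (1, 2, 1) = _
      rw [a, b, c, d]; push_cast; ring)
  rw [h1, h2, h3, show (4 : Ch.Hev (Quo a3 Ω)) * ∏ k, cl (wt (i0 k)) =
    (4 : ℂ) • ∏ k, cl (wt (i0 k)) by rw [Algebra.smul_def, map_ofNat], Subalgebra.coe_smul, map_smul,
    J_pt]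
  exact ⟨rfl, mul_one _, rfl⟩

end Vale.Agent.P287Q.D.Nm
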