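import Vale.Agent.P287Q.D.HasC
import Vale.Agent.P287Q.D.Eul
import Vale.Agent.P287Q.D.CanB
import Vale.Agent.P287Q.D.Num
import Vale.Agent.P287Q.Int.All

/-!
# The surface of incident lines with its intersection form
-/

set_option linter.unusedSectionVars false

namespace Vale.Agent.P287Q.D

open Set Function Topology Filter Module P291Z P267.FL P269 P269.Holo P269.Mono P269.Tq
open P287Q.Zc (Lk)
open scoped ContDiff Manifold

/-- The intersection form on line bundles. -/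
theorem exists_ip {X : Type} [TopologicalSpace X] [ChartedSpace C2 X] [Nice X] [CompactSpace X]
    {I : H X →ₗ[ℂ] ℂ} {B : LinearMap.BilinForm ℤ (Lk X 2)} (hB : ∀ x y, (B x y : ℂ) = I (x.1 * y.1))
    (hs : B.IsSymm) : ∃ ip : SB X → SB X → ℤ, IP ip ∧ IPc I ip := by
  choose c h1 h2 using fun M : SB X => stC1Ex X _ M.coc
  refine ⟨fun M M' => B ⟨_, h1 M⟩ ⟨_, h1 M'⟩, ⟨fun M M' M'' => ?_, fun M M' => hs.eq _ _,
    fun M M' ⟨s, a, b⟩ => ?_⟩, fun M M' _ _ a b => by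
      rw [hB, a.unique (h2 M), b.unique (h2 M')]⟩
  · rw [← B.add_left]
    exact congrArg (B · _) (Subtype.ext ((h2 M).mul_eq (h2 M') (h2 (M * M'))))
  · rw [← B.zero_left ⟨_, h1 M'⟩]
    exact congrArg (B · _) (Subtype.ext ((h2 M).eq_zero b fun x => Ho.continuousAt (a x)))

namespace NF

variable (N : NF) [h : Fact N.Good]

theorem eul : Eul (M7 N.sA N.sB) (Q3 N.sA N.sB) := N.md.eul h.out (N.prx.mdP N.md)

theorem exists_form : ∃ B : LinearMap.BilinForm ℤ (Lk (Quo ac N.Z) 2),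
    (∀ x y, (B x y : ℂ) = h.out.qm.ps.J (x.1 * y.1)) ∧ B.IsSymm :=
  ((Zc.stLat _ _ _ (Zc.oriZ_qm h.out.qm)).2.2 2 rfl).imp fun _ k => ⟨k.1, k.2.2 even_two⟩

theorem pk_of {ip : SB (Quo ac N.Z) → SB (Quo ac N.Z) → ℤ} (h1 : IP ip)
    (h2 : IPc h.out.qm.ps.J ip) : Pk N N.sA N.sB N.pt ip where
  gd := h.out
  md := N.md
  ip' := h1
  cA := N.sc0.hasC (fun _ _ => rfl) h2
  cB := N.sc2.hasC (fun _ _ => rfl) h2
  AA := Int.cast_injective (α := ℂ) ((h2 _ _ _ _ N.c1A N.c1A).trans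
    (h.out.num.1.trans Int.cast_one.symm))
  BB := Int.cast_injective (α := ℂ) ((h2 _ _ _ _ N.c1B N.c1B).trans
    (h.out.num.2.2.trans Int.cast_one.symm))
  AB := Int.cast_injective (α := ℂ) ((h2 _ _ _ _ N.c1A N.c1B).trans
    (h.out.num.2.1.trans (Int.cast_ofNat 4).symm))
  can := can_of N.eul

/-- **The surface of incident lines.** -/
theorem exists_pk : ∃ ip, IPc h.out.qm.ps.J ip ∧ Pk N N.sA N.sB N.pt ip :=
  let ⟨_, a, b⟩ := N.exists_form
  let ⟨ip, c, d⟩ := exists_ip a b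
  ⟨ip, d, N.pk_of c d⟩

end NF

end Vale.Agent.P287Q.D
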