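import Vale.Agent.P287Q.D.St
import Vale.Agent.P287Q.D.Mod0
import Vale.Agent.P287Q.Hb.BlPV
import Vale.Agent.P287Q.Cub.N0
import Mathlib.LinearAlgebra.CrossProduct

/-!
# Discriminants 2 and 6: the spaces and the correspondence (definitions and statements)
-/

set_option linter.unusedSectionVars false
set_option linter.style.haveILetI false

namespace Vale.Agent.P287Q.D

open Set Function Topology Filter P291Z P267.FL P269 P269.Holo P269.Mono P269.Coh P269.Tq Hb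
open P287Q.Zc (Lk)
open P287Q.Cub (π₀ XF hyp)
open scoped Matrix

instance isAct_scl {J R : Type} [Fintype J] [Fintype R] (π : J → R) : IsAct (scl π) univ :=
  Cub.N0_isAct π

/-! ### the surface -/

/-- The surface of the lines meeting the line. -/
abbrev SX (N : NF) : Type := Quo ac N.Z

/-- The class of the first pencil. -/
noncomputable def clA (N : NF) : H (SX N) := lcq ac N.Z Prod.fst

/-- The class of the second pencil. -/
noncomputable def clB (N : NF) : H (SX N) := lcq ac N.Z Prod.snd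

/-- The intersection numbers. -/
def StNum : Prop := ∀ (N : NF) (h : QM ac N.Z 2), N.Good → h.ps.J (clA N * clA N) = 1 ∧
  h.ps.J (clB N * clB N) = 1 ∧ h.ps.J (clA N * clB N) = 4

/-! ### vanishing of products -/

/-- The class `x` vanishes on `Z`. -/
def Kills {X : Type} [TopologicalSpace X] (x : H X) (Z : Set X) : Prop :=
  H.map (⟨Subtype.val, continuous_subtype_val⟩ : C(Z, X)) x = 0

/-- Classes with support in a closed set. -/
def StVanT : Prop := ∀ (X : Type) [TopologicalSpace X] [Nice X] [CompactSpace X] (Z : Set X)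
  (x : H X) (t : Coch X), IsClosed Z → Kills x Z → supp (δ t) = ∅ → supp t ⊆ Z → x * hcls t = 0

/-- Chern classes. -/
def StVanL : Prop := ∀ (A W : Type) [NormedRing A] [NormedAlgebra ℂ A] [NormedAddCommGroup W]
  [NormedSpace ℂ W] [FiniteDimensional ℂ A] [FiniteDimensional ℂ W] (act : A → W → W) (S : Set W)
  [IsAct act univ] [FP act S] [CompactSpace (Quo act S)] (c : A → ℂ) (s : W → ℂ), Hm c →
  ContinuousOn s S → (∀ a, IsUnit a → ∀ z ∈ S, s (act a z) = c a * s z) → ∀ x : H (Quo act S),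
  Kills x {y | ∃ z : S, s z = 0 ∧ Quo.mk act z = y} → x * lcq act S c = 0

/-- Classes of submanifolds. -/
def StVanP : Prop := ∀ (D Y : PS), D.Geo → Y.Geo → ∀ i : C(D.X, Y.X), Injective i →
  ∀ (T : Type) [TopologicalSpace T] [Nice T] [CompactSpace T] (g : C(T, Y.X)) (x : H T),
  Kills x (g ⁻¹' range i) → x * H.map g (PS.push i 1) = 0

/-! ### the abstract correspondence -/

/-- The cohomological data: `W` is the blow-up of `P` along `C ≅ T`, `T` is the blow-up of `S` in a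
point, `φ : W → X`. -/
structure Crs (X W P C E T S : PS) (φ : C(W.X, X.X)) (π : C(W.X, P.X)) (ι : C(C.X, P.X))
    (j : C(E.X, W.X)) (p : C(E.X, C.X)) (γ : C(T.X, C.X)) (β : C(T.X, S.X)) (ξ : H E.X)
    (h : H X.X) (F Q : H P.X) (a b : H S.X) (d : H T.X) : Prop where
  bl : BlT P C W E ι π j p 1 ξ
  nX : X.n = 4
  nP : P.n = 4
  nC : C.n = 2
  nT : T.n = 2
  nS : S.n = 2
  dh : H.IsDeg 2 h
  dF : H.IsDeg 2 F
  dQ : H.IsDeg 2 Q
  da : H.IsDeg 2 a
  db : H.IsDeg 2 b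
  top : ∀ c, H.IsDeg 8 c → X.J c = 0 → c = 0
  h4 : X.J (h ^ 4) = 3
  FF : F * F = 0
  FQ : P.J (F * Q ^ 3) = 1
  QQ : P.J (Q ^ 4) = 5
  spn : ∀ y, H.IsDeg 4 y → ∃ c c' : ℂ, y = c • (F * Q) + c' • Q ^ 2
  exc : PS.push j 1 = H.map π ((3 : ℂ) • Q - (2 : ℂ) • F) - H.map φ h
  rel : (H.map φ h - H.map π (Q - F)) * (H.map φ h - H.map π F) = 0
  van : ∀ x, H.IsDeg 4 x → H.map φ x * (H.map φ h - H.map π (Q - F)) = 0
  γb : Bijective (H.map γ)
  γJ : ∀ c, T.J (H.map γ c) = C.J c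
  βJ : ∀ c, T.J (H.map β c) = S.J c
  βa : H.map β a = H.map γ (H.map ι F) + d
  βb : H.map β ((2 : ℂ) • a + b) = H.map γ (H.map ι Q)
  dβ : ∀ u, H.IsDeg 2 u → H.map β u * d = 0
  exβ : ∀ s, H.IsDeg 2 s → T.J (s * d) = 0 → ∃ u, H.map β u = s
  van' : ∀ x d', H.IsDeg 4 x → H.map γ d' = d → H.map j (H.map φ x) * H.map p d' = 0
  aa : S.J (a * a) = 1
  bb : S.J (b * b) = 1
  ab : S.J (a * b) = 4

/-- The map induced by the correspondence. -/
noncomputable def alp {X W C E T S : PS} (φ : C(W.X, X.X)) (j : C(E.X, W.X)) (p : C(E.X, C.X))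
    (γ : C(T.X, C.X)) (β : C(T.X, S.X)) (x : H X.X) : H S.X :=
  PS.push β (H.map γ (PS.push p (H.map j (H.map φ x))))

/-- The intersection numbers of the correspondence. -/
def StKey : Prop := ∀ X W P C E T S φ π ι j p γ β ξ h F Q a b d,
  Crs X W P C E T S φ π ι j p γ β ξ h F Q a b d →
  alp φ j p γ β (h ^ 2) = (2 : ℂ) • a + b ∧ ∀ x, H.IsDeg 4 x → h * x = 0 →
    S.J (alp φ j p γ β x * alp φ j p γ β x) = -2 * X.J (x * x) ∧
    S.J (alp φ j p γ β x * a) = 0 ∧ S.J (alp φ j p γ β x * b) = 0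

/-! ### the tangent directions along the line -/

/-- The coordinates of `ℙ¹ × ℙ⁶`. -/
abbrev J9 : Type := Fin 2 ⊕ Fin 7

/-- Their blocks. -/
abbrev π9 : J9 → Option Unit := blP (Fin 7) (π₀ (Fin 2))

/-- The fibre coordinates of the point `(l; m)`, `m = (λ₀', λ₁', w, μ)`. -/
def emv (l : Fin 2 → ℂ) (m : Fin 4 → ℂ) : Fin 7 → ℂ :=
  ![l 0 ^ 2 * m 0, l 0 ^ 2 * m 1, l 1 ^ 2 * m 0, l 1 ^ 2 * m 1, l 0 * m 2, l 1 * m 2, m 3]

/-- The coordinates of the point `(l; m)`. -/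
def em (l : Fin 2 → ℂ) (m : Fin 4 → ℂ) : J9 → ℂ := Sum.elim l (emv l m)

/-- The bundle of rank four. -/
def VP (l : Fin 2 → ℂ) : Submodule ℂ (Fin 7 → ℂ) := Submodule.span ℂ (range (emv l))

/-- The fourfold `P`. -/
def AP : Set (J9 → ℂ) := pbA {0}ᶜ VP

/-- The point `(l, m, ρ)`. -/
def z7 (l : Fin 2 → ℂ) (m : Fin 4 → ℂ) (ρ : ℂ) : W7 := ![l 0, l 1, m 0, m 1, m 2, m 3, ρ]

/-- The equation of the tangent line in its plane. -/
def v1 (l : Fin 2 → ℂ) (m : Fin 4 → ℂ) : Fin 3 → ℂ := ![l 0, l 1, m 3]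

/-- The equation of the third intersection point. -/
noncomputable def v2 (N : NF) (l : Fin 2 → ℂ) (m : Fin 4 → ℂ) : Fin 3 → ℂ := N.G (z7 l m 0)

/-- Coordinates adapted to the line. -/
abbrev Crd : Type := ((Fin 2 → ℂ) × V4) ≃L[ℂ] (Fin 6 → ℂ)

/-- The point `n` of the plane of `(l; m)`. -/
noncomputable def ptA (A : Crd) (l : Fin 2 → ℂ) (m : Fin 4 → ℂ) (n : Fin 3 → ℂ) : Fin 6 → ℂ :=
  A (![n 0, n 1], n 2 • yy (z7 l m 0))

/-- The index set of the equations of the centre. -/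
abbrev K12 : Type := Fin 2 × Fin 6

/-- The multidegree of the equations. -/
def δ9 : Option Unit → ℤ := fun o => o.elim 3 fun _ => 4

/-- `g` are the coordinates of the third intersection point. -/
structure IsG (N : NF) (A : Crd) (g : K12 → MvPolynomial J9 ℂ) : Prop where
  hom : ∀ k, WHom (bw π9) δ9 (g k)
  val : ∀ l m a i, gv g (em l m) (a, i) = l a ^ 6 * ptA A l m (crossProduct (v1 l m) (v2 N l m)) i

/-- The centre: the tangent lines contained in the cubic. -/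
def CP (N : NF) : Set (J9 → ℂ) :=
  {y | ∃ l m, l ≠ 0 ∧ m ≠ 0 ∧ y = em l m ∧ crossProduct (v1 l m) (v2 N l m) = 0}

/-- The class of a fibre of `P → ℙ¹`. -/
noncomputable def clF (S : Set (J9 → ℂ)) : H (Spc π9 S) := lcq (scl π9) S fun t => t (some ())

/-- The second hyperplane class. -/
noncomputable def clQ (S : Set (J9 → ℂ)) : H (Spc π9 S) := lcq (scl π9) S fun t => t none

/-- The equations exist. -/
def StG : Prop := ∀ N A, ∃ g, IsG N A g

/-- The fourfold `P` and its cohomology. -/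
def StP : Prop := PV π9 AP 4 ∧ ∀ h : PV π9 AP 4, clF AP * clF AP = 0 ∧
  h.qm.ps.J (clF AP * clQ AP ^ 3) = 1 ∧ h.qm.ps.J (clQ AP ^ 4) = 5 ∧
  ∀ y, H.IsDeg 4 y → ∃ c c' : ℂ, y = c • (clF AP * clQ AP) + c' • clQ AP ^ 2

/-- The centre is a smooth surface cut out by the equations. -/
def StC : Prop := ∀ N A g, N.Good → IsG N A g → PV π9 (CP N) 2 ∧ Cut π9 AP (CP N) δ9 g

/-- The blocks of the blow-up. -/
abbrev πW : J9 ⊕ K12 → Option (Option Unit) := blP K12 π9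

/-- The points of the blow-up. -/
def StW : Prop := ∀ N A g, IsG N A g → ∀ w ∈ blA AP g, ∃ l m n, l ≠ 0 ∧ m ≠ 0 ∧ n ≠ 0 ∧
  w ∘ .inl = em l m ∧ v1 l m ⬝ᵥ n = 0 ∧ v2 N l m ⬝ᵥ n = 0 ∧
  ∀ a i, w (.inr (a, i)) = l a ^ 6 * ptA A l m n i

/-- The character of the map to the cubic. -/
noncomputable def θX (t : Option (Option Unit) → ℂ) : Unit → ℂ :=
  fun _ => t none / t (some (some ())) ^ 6

/-- `f` is the map to the cubic. -/
def IsPhi (g : K12 → MvPolynomial J9 ℂ) (f : (J9 ⊕ K12 → ℂ) → Fin 6 → ℂ) : Prop :=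
  ∀ w ∈ blA AP g, ∀ a i, w (.inr (a, i)) = w (.inl (.inl a)) ^ 6 * f w i

/-- The map to the cubic is holomorphic. -/
def StPhi : Prop := ∀ (N : NF) F A g, N.Rep F A → IsG N A g → ∃ f, IsPhi g f ∧
  Tq.Hol (scl πW) (scl (π₀ (Fin 6))) (blA AP g) (Pub.cone F) θX f

/-- Classes of degree four vanish on the line. -/
def StLn : Prop := ∀ (N : NF) F A, N.Rep F A → F.IsHomogeneous 3 → ∀ (T : Type)
  [TopologicalSpace T] (f : C(T, XF F)), (∀ t, ∃ u h, f t = Quo.mk _ ⟨A (u, 0), h⟩) →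
  ∀ x, H.IsDeg 4 x → H.map f x = 0

/-- The relations on the blow-up. -/
def StRel : Prop := ∀ (N : NF) F A g f, N.Rep F A → F.IsHomogeneous 3 → IsG N A g → IsPhi g f →
  PV πW (blA AP g) 4 → ∀ φ : Tq.Hol (scl πW) (scl (π₀ (Fin 6))) (blA AP g) (Pub.cone F) θX f,
  (H.map φ.q (hyp F) - H.map (bl_hol (π := π9)).q (clQ AP - clF AP)) *
      (H.map φ.q (hyp F) - H.map (bl_hol (π := π9)).q (clF AP)) = 0 ∧
    (∀ x, H.IsDeg 4 x → H.map φ.q x *
      (H.map φ.q (hyp F) - H.map (bl_hol (π := π9)).q (clQ AP - clF AP)) = 0) ∧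
    (lcq (scl πW) (blA AP g) fun t => cha δ9 (t ∘ some) * t none ^ (-1 : ℤ)) =
      H.map (bl_hol (π := π9)).q ((3 : ℂ) • clQ AP - (2 : ℂ) • clF AP) - H.map φ.q (hyp F)

/-! ### the blow-up of the surface in the point `λ = 0` -/

/-- The coordinates `κ₀, κ₁, ε, λ₀', λ₁', w, μ, μ'`. -/
abbrev W8 : Type := Fin 8 → ℂ

/-- Their characters. -/
def ch3 (a : Fin 3 → ℂ) : W8 :=
  ![a 0, a 0, a 1, a 2, a 2, a 0 * a 1 * a 2, (a 0 * a 1) ^ 2 * a 2, a 0 * a 1 * a 2 ^ 2]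

/-- The action of the torus. -/
def ac3 (a : Fin 3 → ℂ) (z : W8) : W8 := fun j => ch3 a j * z j

instance isAct_ac3 : IsAct ac3 univ :=
  ⟨fun x _ => funext fun j => by fin_cases j <;> simp [ac3, ch3],
    fun a b _ _ x _ => funext fun j => by fin_cases j <;> simp [ac3, ch3] <;> ring,
    fun _ _ _ _ => trivial, fun _ _ _ _ => analyticAt_pi_iff.2 fun j => ContDiffAt.analyticAt (by
      fin_cases j <;> simp only [ac3, ch3] <;> simp <;> fun_prop)⟩

/-- The blow-down map. -/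
def bd (z : W8) : W7 := ![z 2 * z 0, z 2 * z 1, z 3, z 4, z 5, z 6, z 7]

/-- Its character. -/
def θb (a : Fin 3 → ℂ) : ℂ × ℂ := (a 0 * a 1, a 2)

/-- The cone over the blow-up. -/
def Zh (N : NF) : Set W8 := {z | (z 0 ≠ 0 ∨ z 1 ≠ 0) ∧ bd z ∈ N.Z}

/-- The map to the centre. -/
def iP (z : W8) : J9 → ℂ := em ![z 0, z 1] ![z 2 ^ 2 * z 3, z 2 ^ 2 * z 4, z 2 * z 5, z 6]

/-- Its character. -/
def θi (a : Fin 3 → ℂ) : Option Unit → ℂ := fun o => o.elim ((a 0 * a 1) ^ 2 * a 2) fun _ => a 0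

/-- The exceptional curve. -/
def Dh (N : NF) : Set W8 := {z | z ∈ Zh N ∧ z 2 = 0}

/-- Its class. -/
noncomputable def clD (N : NF) : H (Quo ac3 (Zh N)) := lcq ac3 (Zh N) fun a => a 1

/-- The blow-up is a compact manifold. -/
def StT : Prop := ∀ N : NF, N.Good → QM ac3 (Zh N) 2

/-- The blow-up is the centre. -/
def StI : Prop := ∀ N : NF, N.Good → ∃ γ : Tq.Hol ac3 (scl π9) (Zh N) (CP N) θi iP,
  Bijective γ.q ∧ (QM ac3 (Zh N) 2 → Prj ac3 (Zh N))

/-- The exceptional curve is a connected curve with class `clD`. -/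
def StD : Prop := ∀ N : NF, N.Good → ∀ k : QM ac3 (Zh N) 2, ∃ kD : QM ac3 (Dh N) 1,
  ConnectedSpace (Quo ac3 (Dh N)) ∧
  PS.push (X := kD.ps) (Y := k.ps) (qinc ac3 fun _ hz => hz.1) 1 = clD N

/-- The blow-down map. -/
def StB : Prop := ∀ N : NF, N.Good → ∀ (k : QM ac3 (Zh N) 2) (h : QM ac N.Z 2),
  ∃ β : Tq.Hol ac3 ac (Zh N) N.Z θb bd, (∀ c, k.ps.J (H.map β.q c) = h.ps.J c) ∧
    (∀ u, H.IsDeg 2 u → H.map β.q u * clD N = 0) ∧
    ∀ s, H.IsDeg 2 s → k.ps.J (s * clD N) = 0 → ∃ u, H.map β.q u = s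

/-! ### the result -/

/-- The properties of the Abel-Jacobi map. -/
structure Alp {F : MvPolynomial (Fin 6) ℂ} {N : NF} (q : QM (scl (π₀ (Fin 6))) (Pub.cone F) 4)
    (h : QM ac N.Z 2) (α : H (XF F) →ₗ[ℂ] H (SX N)) : Prop where
  int : ∀ x ∈ Lk (XF F) 4, α x ∈ Lk (SX N) 2
  hdg : ∀ x, Cub.Hd F 2 2 x → ∀ w ∈ HN N.Z (Quo.mk ac) 2 0, h.ps.J (α x * w) = 0
  hh : α (hyp F ^ 2) = (2 : ℂ) • clA N + clB N
  prim : ∀ x, H.IsDeg 4 x → hyp F * x = 0 → h.ps.J (α x * α x) = -2 * q.ps.J (x * x) ∧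
    h.ps.J (α x * clA N) = 0 ∧ h.ps.J (α x * clB N) = 0

/-- The Abel-Jacobi map. -/
def StCoh : Prop := ∀ (F : MvPolynomial (Fin 6) ℂ) (N : NF) (A : Crd), F.IsHomogeneous 3 →
  Pub.IsSmoothForm F → N.Good → N.Rep F A → ∀ (q : QM (scl (π₀ (Fin 6))) (Pub.cone F) 4)
  (h : QM ac N.Z 2), ∃ α, Alp q h α

end Vale.Agent.P287Q.D
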