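import Vale.Agent.P287Q.Hb.Bl

/-!
# The correspondence between the cubic fourfold and the surface of incident lines: algebra
-/

namespace Vale.Agent.P287Q.D.TA

open Set Function P291Z P269 P269.Coh P269.Coh.PS Hb

section ring

variable {R : Type} [Ring R] {a b Y ν x x' : R}

theorem ring_pr (c : Commute x b) (h1 : a * x = 0) (h2 : Y * x = 0) (h3 : b * x' = 0) :
    (ν + ν + Y - a - b) * (x * x') = -((a + b + Y - ν) * (x * x') + (a + b + Y - ν) * (x * x')) := by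
  have e1 : a * (x * x') = 0 := by rw [← mul_assoc, h1, zero_mul]
  have e2 : Y * (x * x') = 0 := by rw [← mul_assoc, h2, zero_mul]
  have e3 : b * (x * x') = 0 := by rw [← mul_assoc, ← c.eq, mul_assoc, h3, mul_zero]
  simp only [add_mul, sub_mul, e1, e2, e3]
  abel

theorem ring_oa (c : Commute x ν) (h1 : ν * ν * x = 0) (h2 : Y * x = 0) :
    (ν + ν + Y - a - b) * (x * ν * b) = -((a + b + Y - ν) * (x * ν * b)) := by
  have e1 : ν * (x * ν * b) = 0 := by rw [c.eq, ← mul_assoc, ← mul_assoc, h1, zero_mul]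
  have e2 : Y * (x * ν * b) = 0 := by rw [← mul_assoc, ← mul_assoc, h2, zero_mul, zero_mul]
  simp only [add_mul, sub_mul, e1, e2]
  abel

end ring

theorem map_sq {A B C D : Type} [TopologicalSpace A] [TopologicalSpace B] [TopologicalSpace C]
    [TopologicalSpace D] {f : C(A, B)} {g : C(B, D)} {f' : C(A, C)} {g' : C(C, D)}
    (e : ∀ x, g (f x) = g' (f' x)) (c : H D) : H.map f (H.map g c) = H.map f' (H.map g' c) := by
  rw [H.map_map, H.map_map, show g.comp f = g'.comp f' from ContinuousMap.ext e]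

variable {X S P Q N U : PS} {ρ : C(P.X, S.X)} {f : C(P.X, X.X)} {p₁ p₂ : C(Q.X, P.X)}
  {j : C(Q.X, N.X)} {i : C(U.X, N.X)} {fa fb : C(N.X, X.X)} {ξ : H P.X} {a b Y ν : H N.X}

/-- base change for the fibre square -/
theorem bc (l₁ : LHB S P 1 ρ ξ) (l₂ : LHB P Q 1 p₁ (H.map p₂ ξ)) (sq : ∀ x, ρ (p₂ x) = ρ (p₁ x))
    (α β : H P.X) : Q.J (H.map p₁ α * H.map p₂ β) = S.J (PS.push ρ α * PS.push ρ β) := by
  refine l₁.ind (P := fun β => Q.J (H.map p₁ α * H.map p₂ β) = S.J (PS.push ρ α * PS.push ρ β))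
    (by simp only [map_zero, mul_zero]) (fun x y h k => by
      rw [map_add, mul_add, map_add, h, k, map_add (PS.push ρ), mul_add, map_add]) (fun c k hk => ?_) β
  rw [map_mul (H.map p₂), map_pow, map_sq sq, ← mul_assoc, ← map_mul (H.map p₁)]
  rcases hk.eq_or_lt with rfl | hk
  · rw [l₂.int, l₁.push_top, J_push_mul]
  · rw [l₂.int_lt hk, l₁.push_lt hk, mul_zero, map_zero]

/-- The geometry of the fivefold. -/
structure Geo (X S P Q N U : PS) (ρ : C(P.X, S.X)) (f : C(P.X, X.X)) (p₁ p₂ : C(Q.X, P.X))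
    (j : C(Q.X, N.X)) (i : C(U.X, N.X)) (fa fb : C(N.X, X.X)) (ξ : H P.X) (a b Y ν : H N.X) :
    Prop where
  l₁ : LHB S P 1 ρ ξ
  l₂ : LHB P Q 1 p₁ (H.map p₂ ξ)
  sq : ∀ x, ρ (p₂ x) = ρ (p₁ x)
  ja : ∀ x, fa (j x) = f (p₁ x)
  jb : ∀ x, fb (j x) = f (p₂ x)
  ab : ∀ x, fb (i x) = fa (i x)
  iU : ∀ x, U.J (H.map i (H.map fa x)) = X.J x
  cu : ∀ c, U.J (H.map i c) = N.J ((a + b + Y - ν) * c)
  cv : ∀ c, Q.J (H.map j c) = N.J ((ν + ν + Y - a - b) * c)
  db : H.IsDeg 2 b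
  dν : H.IsDeg 2 ν
  jξ : H.map j b = H.map p₂ ξ

namespace Geo

variable (g : Geo X S P Q N U ρ f p₁ p₂ j i fa fb ξ a b Y ν) {x x' : H X.X}
include g

theorem pr (h1 : a * H.map fa x = 0) (h2 : Y * H.map fa x = 0) (h3 : b * H.map fb x' = 0) :
    S.J (PS.push ρ (H.map f x) * PS.push ρ (H.map f x')) = -2 * X.J (x * x') := by
  have e : N.J ((a + b + Y - ν) * (H.map fa x * H.map fb x')) = X.J (x * x') := by
    rw [← g.cu, map_mul, map_sq g.ab, ← map_mul, ← map_mul, g.iU]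
  rw [← bc g.l₁ g.l₂ g.sq, ← map_sq g.ja, ← map_sq g.jb, ← map_mul, g.cv,
    ring_pr (PBA.comm2 g.db _) h1 h2 h3, map_neg, map_add, e]
  ring

theorem oa {C : H S.X} (jν : H.map j ν = H.map p₁ (H.map ρ C)) (h1 : ν * ν * H.map fa x = 0)
    (h2 : Y * H.map fa x = 0) (h3 : b * H.map fb x = 0) : S.J (PS.push ρ (H.map f x) * C) = 0 := by
  have e : N.J ((a + b + Y - ν) * (H.map fa x * ν * b)) = 0 := by
    rw [← g.cu, map_mul (H.map i), map_mul (H.map i), ← map_sq g.ab, ← map_mul (H.map i),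
      ← map_mul (H.map i), (PBA.comm2 g.db _).eq, ← mul_assoc, h3, zero_mul, map_zero, map_zero]
  have k := g.cv (H.map fa x * ν * b)
  rwa [ring_oa (PBA.comm2 g.dν _) h1 h2, map_neg, e, neg_zero, map_mul (H.map j),
    map_mul (H.map j), g.jξ, jν, map_sq g.ja, ← map_mul (H.map p₁), ← pow_one (H.map p₂ ξ),
    g.l₂.int, ← J_push_mul] at k

end Geo

theorem ob {C C' : H S.X} {y : H P.X} (h : y * H.map ρ (C + C') = 0)
    (k : S.J (PS.push ρ y * C) = 0) : S.J (PS.push ρ y * C') = 0 := by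
  have e := J_push_mul ρ y (C + C')
  rwa [h, map_zero, mul_add, map_add, k, zero_add] at e

end Vale.Agent.P287Q.D.TA
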