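import Vale.Agent.P287Q.D.TAlg
import Vale.Agent.P287Q.D.TAux

/-!
# The correspondence between the cubic fourfold and the surface of incident lines: the pairing
-/

set_option linter.unusedSectionVars false

namespace Vale.Agent.P287Q.D

open Set Function P291Z P269 P269.Holo P269.Tq P269.Coh P269.Mono Hb

namespace TC

section gen

variable {B W : Type} [NormedRing B] [NormedAlgebra ℂ B] [NormedAddCommGroup W] [NormedSpace ℂ W]
  [FiniteDimensional ℂ B] [FiniteDimensional ℂ W] {act : B → W → W} [IsAct act univ] {S Z : Set W}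
  {n m : ℤ} {c c' : B → ℂ} {s s' : W → ℂ}

theorem hm_inv (h : Hm c) : Hm fun a => (c a)⁻¹ :=
  ⟨by rw [h.one, inv_one], fun a b ha hb => by rw [h.mul a b ha hb, mul_inv],
    fun a ha => (h.cont a ha).inv₀ (h.isUnit ha).ne_zero⟩

theorem lcq_inv [FP act S] (h : Hm c) : lcq act S (fun a => (c a)⁻¹) = -lcq act S c := by
  refine eq_neg_of_add_eq_zero_left ?_
  rw [← lcq_mul (hm_inv h) h, lcq_congr Hm.const fun a ha =>
    inv_mul_cancel₀ (h.isUnit ha).ne_zero, lcq_one]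

/-- a divisor with a linear equation -/
theorem div (h : QM act S n) (hc : Hm c) (hs : IsLinearMap ℂ s)
    (he : ∀ a, IsUnit a → ∀ x ∈ S, s (act a x) = c a * s x) (hZ : ∀ x, x ∈ Z ↔ x ∈ S ∧ s x = 0)
    (ht : ∀ x ∈ Z, ∃ v ∈ tn S x, s v ≠ 0) (e : Z ⊆ S) (hm : m = n - 1) :
    ∃ k : QM act Z m, ∀ y, k.ps.J (H.map (qinc act e) y) = h.ps.J (lcq act S c * y) := by
  subst hm
  let L : W →L[ℂ] ℂ := LinearMap.toContinuousLinearMap (hs.mk' s)
  have h1 : ∀ x, AnalyticAt ℂ s x := L.analyticAt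
  have h2 : ∀ x (hx : x ∈ S), x ∈ Z → ∃ v ∈ tan (Subtype.val : S → W) ⟨x, hx⟩,
      fderiv ℂ s x v ≠ 0 := fun x hx k => by
    obtain ⟨v, h3, h4⟩ := ht x k
    exact ⟨v, tn_eq hx ▸ h3, (L.fderiv (x := x)).symm ▸ h4⟩
  have k : QM act Z (n - Fintype.card Unit) :=
    h.zero (c := fun _ => c) (s := fun x _ => s x)
      ⟨fun _ => hc, continuousOn_pi.2 fun _ => L.continuous.continuousOn,
        fun a h1 x hx _ => he a h1 x hx⟩
      (fun x => (hZ x).trans
        (and_congr_right' ⟨fun h => funext fun _ => h, fun h => congrFun h ()⟩))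
      (fun x _ => analyticAt_pi_iff.2 fun _ => h1 x) fun x hx k w => by
        obtain ⟨v, h3, h4⟩ := h2 x hx k
        refine ⟨(w () / fderiv ℂ s x v) • v, Submodule.smul_mem _ _ h3, funext fun _ => ?_⟩
        rw [fderiv_pi fun _ => (h1 x).differentiableAt, ContinuousLinearMap.pi_apply, map_smul,
          smul_eq_mul, div_mul_cancel₀ _ h4]
  refine ⟨k, fun y => ?_⟩
  rw [← h.push_one' hc L.continuous.continuousOn he hZ (fun x _ => h1 x) h2 k e, PS.J_push_mul,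
    one_mul]

variable [IsAct acX univ] {N : NF} {F : MvPolynomial (Fin 6) ℂ} {A : V24 ≃L[ℂ] (Fin 6 → ℂ)}
  {θ : B → Unit → ℂ} {f : W → Fin 6 → ℂ} (hC : StCut) (r : N.Rep F A) (h : QM act S n)
  (q : QM acX (Pub.cone F) 4) (φ : Hol act acX S (Pub.cone F) θ f) (hc : Hm c)
  (hs : Continuous s) (he : ∀ a, IsUnit a → ∀ x ∈ S, s (act a x) = c a * s x)
  {x : H (Cub.XF F)} (hx : H.IsDeg 4 x)
include hC r h q hc hs he hx

theorem cut₁ (h0 : ∀ p ∈ S, s p = 0 → ∃ u, f p = A (u, 0)) : lcq act S c * H.map φ.q x = 0 := by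
  have := h.fp
  have := h.cpt
  have := q.fp
  have k := hC N F A r B W Unit act S θ f φ.toEqh (fun _ => c) (fun p _ => s p)
    ⟨fun _ => hc, continuousOn_pi.2 fun _ => hs.continuousOn, fun a h1 x hx _ => he a h1 x hx⟩
    (fun p hp e => h0 p hp (congrFun e ())) x hx
  rwa [Fintype.prod_unique, lce_val] at k

theorem cut₂ (hs' : Continuous s') (he' : ∀ a, IsUnit a → ∀ x ∈ S, s' (act a x) = c a * s' x)
    (h0 : ∀ p ∈ S, s p = 0 → s' p = 0 → ∃ u, f p = A (u, 0)) :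
    lcq act S c * lcq act S c * H.map φ.q x = 0 := by
  have := h.fp
  have := h.cpt
  have := q.fp
  have k := hC N F A r B W Bool act S θ f φ.toEqh (fun _ => c) (fun p i => bif i then s p else s' p)
    ⟨fun _ => hc, continuousOn_pi.2 fun i => by cases i; exacts [hs'.continuousOn, hs.continuousOn],
      fun a h1 x hx i => by cases i; exacts [he' a h1 x hx, he a h1 x hx]⟩
    (fun p hp e => h0 p hp (congrFun e true) (congrFun e false)) x hx
  rw [Fintype.prod_bool] at k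
  exact lce_val (act := act) (S := S) hc ▸ k

end gen

theorem hm_t (i : Fin 4) : Hm fun t : AN => t i :=
  ⟨rfl, fun _ _ _ _ => rfl, fun _ _ => (continuous_apply i).continuousAt⟩

theorem hm_x : Hm fun t : Unit → ℂ => t () :=
  ⟨rfl, fun _ _ _ _ => rfl, fun _ _ => (continuous_apply ()).continuousAt⟩

theorem pt_line {y : V4} {s : V3} (h : s 2 = 0) : pt y s = (![s 0, s 1], 0) := by
  rw [pt, h, zero_smul]

/-- The tautological classes of the fivefold. -/
noncomputable abbrev L (N : NF) (i : Fin 4) : H (Quo acN N.Nh) := lcq acN N.Nh fun t => t i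

variable [IsAct acN univ] {N : NF}

theorem subU : N.NU ⊆ N.Nh := fun _ h => h.1

theorem subV : N.NV ⊆ N.Nh := fun _ h => h.1

theorem qmN (h1 : StN1) (h2 : StN2) (g : N.Good) (s : N.Sm) : QM acN N.Nh 5 :=
  haveI := (h2.2.2 N).1
  haveI := (h2.2.2 N).2
  QM.of_mfd h2.2.1 fun x hx => ⟨9, by simp, (h1 N g s x hx).1⟩

variable (h1 : StN1) (g : N.Good) (s : N.Sm) (hN : QM acN N.Nh 5)
include h1 g s

theorem divU : ∃ k : QM acN N.NU 4, ∀ y, k.ps.J (H.map (qinc acN subU) y) =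
    hN.ps.J ((L N 2 + L N 3 + L N 0 - L N 1) * y) := by
  have := hN.fp
  have h3 := ((hm_t 2).mul' (hm_t 3)).mul' (hm_t 0)
  have e : lcq acN N.Nh cu = L N 2 + L N 3 + L N 0 - L N 1 :=
    (lcq_mul h3 (hm_inv (hm_t 1))).trans (by
      rw [lcq_mul ((hm_t 2).mul' (hm_t 3)) (hm_t 0), lcq_mul (hm_t 2) (hm_t 3), lcq_inv (hm_t 1),
        sub_eq_add_neg])
  exact e ▸ div hN (c := cu) (s := WN.u) (h3.mul' (hm_inv (hm_t 1))) ⟨fun _ _ => rfl, fun _ _ => rfl⟩
    (fun _ _ _ _ => rfl) (fun _ => Iff.rfl) (fun x hx => (h1 N g s x hx.1).2.1 hx.2) subU rfl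

theorem divV : ∃ k : QM acN N.NV 4, ∀ y, k.ps.J (H.map (qinc acN subV) y) =
    hN.ps.J ((L N 1 + L N 1 + L N 0 - L N 2 - L N 3) * y) := by
  have := hN.fp
  have h3 := ((hm_t 1).mul' (hm_t 1)).mul' (hm_t 0)
  have h4 := (hm_t 2).mul' (hm_t 3)
  have e : lcq acN N.Nh cv = L N 1 + L N 1 + L N 0 - L N 2 - L N 3 :=
    (lcq_mul h3 (hm_inv h4)).trans (by
      rw [lcq_mul ((hm_t 1).mul' (hm_t 1)) (hm_t 0), lcq_mul (hm_t 1) (hm_t 1), lcq_inv h4,
        lcq_mul (hm_t 2) (hm_t 3), sub_sub, sub_eq_add_neg])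
  exact e ▸ div hN (c := cv) (s := WN.v) (h3.mul' (hm_inv h4)) ⟨fun _ _ => rfl, fun _ _ => rfl⟩
    (fun _ _ _ _ => rfl) (fun _ => Iff.rfl) (fun x hx => (h1 N g s x hx.1).2.2 hx.2) subV rfl

omit h1 g s

variable {F : MvPolynomial (Fin 6) ℂ} {A : V24 ≃L[ℂ] (Fin 6 → ℂ)} [IsAct ac univ] [IsAct acP univ]
  [IsAct acPP univ] [IsAct acX univ] (h : QM ac N.Z 2) (hP : QM acP N.P 3) (hQ : QM acPP N.PP 4)
  (q : QM acX (Pub.cone F) 4) (fa : HolA N F A) (fb : HolB N F A) (f : HolP N F A) (p : HolQ N)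
  (j : HolJ N)

/-- the projection of the universal line -/
noncomputable abbrev ρ (N : NF) : C(Quo acP N.P, Quo ac N.Z) := (kb_hol (act := ac) χ3 N.Z φ3).q

/-- the first projection of the fibre square -/
noncomputable abbrev p₁ (N : NF) : C(Quo acPP N.PP, Quo acP N.P) :=
  (kb_hol (act := acP) (fun k g => χ3 k g.1) N.P fun p => φ3 p.1).q

include j in
theorem holJ : Hol acPP acN N.PP N.Nh θj jP := j.mono subset_rfl fun _ hx => (j.maps hx).1

theorem geo (h1 : StN1) (hU : StU) (g : N.Good) (s : N.Sm) (r : N.Rep F A)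
    (cn : IsConnected (Pub.cone F)) (hj : Bijective j.q)
    (l₁ : LHB h.ps hP.ps 1 (ρ N) (lcq acP N.P Prod.snd))
    (l₂ : LHB hP.ps hQ.ps 1 (p₁ N) (lcq acPP N.PP Prod.snd)) :
    ∃ k : QM acN N.NU 4, TA.Geo q.ps h.ps hP.ps hQ.ps hN.ps k.ps (ρ N) f.q (p₁ N) p.q (holJ j).q
      (qinc acN subU) fa.q fb.q (lcq acP N.P Prod.snd) (L N 2) (L N 3) (L N 0) (L N 1) := by
  have := hP.fp
  have := hQ.fp
  have := hN.fp
  obtain ⟨k, e⟩ := divU h1 g s hN
  obtain ⟨k', e'⟩ := divV h1 g s hN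
  have e1 : H.map p.q (lcq acP N.P Prod.snd) = lcq acPP N.PP Prod.snd := p.toEqh.map_lcq kb_snd
  refine ⟨k, l₁, e1 ▸ l₂, mk_surj.forall.2 fun _ => rfl, mk_surj.forall.2 fun _ => rfl,
    mk_surj.forall.2 fun _ => rfl, mk_surj.forall.2 fun x => ?_, fun x => ?_, e, fun c => ?_,
    lcq_deg (hm_t 3), lcq_deg (hm_t 1), ((holJ j).toEqh.map_lcq (hm_t 3)).trans e1.symm⟩
  · obtain ⟨c, hc⟩ := exists_smul_of_cross x.2.1.a (x.2.1.u.trans (by rw [x.2.2, zero_smul]))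
    refine (Quot.sound ⟨fun _ => c, Pi.isUnit_iff.2 fun _ => Ne.isUnit fun k => x.2.1.b ?_, ?_⟩).symm
    · rw [hc, k, zero_smul]
    · show A (pt x.1.y x.1.b) = c • A (pt x.1.y x.1.a)
      rw [hc, pt_smul, map_smul]
  · rw [← hU N F A r cn k q (fa.mono subU fun _ hx => fa.maps hx.1) x, H.map_map]
    exact congrArg (fun u => k.ps.J (H.map u x)) (ContinuousMap.ext (mk_surj.forall.2 fun _ => rfl))
  · rw [← e', ← hQ.J_map k' j hj, H.map_map]
    exact congrArg (fun u => hQ.ps.J (H.map u c)) (ContinuousMap.ext (mk_surj.forall.2 fun _ => rfl))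

variable (hC : StCut) (r : N.Rep F A) {x : H (Cub.XF F)} (hx : H.IsDeg 4 x)
include hC r hN q hx

theorem cut_a : L N 2 * H.map fa.q x = 0 :=
  cut₁ hC r hN q fa (hm_t 2) (s := fun p => p.a 2) (by fun_prop) (fun _ _ _ _ => rfl) hx
    fun _ _ e => ⟨_, congrArg A (pt_line e)⟩

theorem cut_b : L N 3 * H.map fb.q x = 0 :=
  cut₁ hC r hN q fb (hm_t 3) (s := fun p => p.b 2) (by fun_prop) (fun _ _ _ _ => rfl) hx
    fun _ _ e => ⟨_, congrArg A (pt_line e)⟩

theorem cut_n : L N 1 * L N 1 * H.map fa.q x = 0 :=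
  cut₂ hC r hN q fa (hm_t 1) (s := fun p => p.n 0) (by fun_prop) (fun _ _ _ _ => rfl) hx
    (s' := fun p => p.n 1) (by fun_prop) (fun _ _ _ _ => rfl) fun p hp e e' => by
      refine ⟨_, congrArg A (pt_line ?_)⟩
      have k := hp.na
      rw [dotProduct, Fin.sum_univ_three, e, e', zero_mul, zero_mul, zero_add, zero_add] at k
      refine (mul_eq_zero.1 k).resolve_left fun e'' => hp.n (funext fun i => ?_)
      fin_cases i
      exacts [e, e', e'']

theorem cut_y (h0 : Cub.hyp F * x = 0) : L N 0 * H.map fa.q x = 0 := by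
  have := hN.fp
  have := q.fp
  have e := congrArg (H.map fa.q) h0
  rwa [map_mul, map_zero, (fa.toEqh.map_lcq hm_x).trans (lcq_mul (hm_t 2) (hm_t 0)), add_mul,
    cut_a hN q fa hC r hx, zero_add] at e

omit hN in
include h hP in
theorem cut_p (h0 : Cub.hyp F * x = 0) :
    H.map f.q x * H.map (ρ N) (lcq ac N.Z Prod.fst + lcq ac N.Z Prod.snd) = 0 := by
  have := h.fp
  have := hP.fp
  have := q.fp
  have k := (kb_fst (A := ℂ) (B := ℂ)).mul' kb_snd
  have e := congrArg (H.map f.q) h0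
  rw [map_mul, map_zero, (f.toEqh.map_lcq hm_x).trans (lcq_mul kb_snd (kb_fst.comp k)), add_mul,
    cut₁ hC r hP q f kb_snd (s := fun p => p.2 2) (by fun_prop)
      (fun a _ p _ => congrArg (· * p.2 2) (mul_one a.2)) hx
      fun _ _ e => ⟨_, congrArg A (pt_line e)⟩, zero_add] at e
  rw [← lcq_mul kb_fst kb_snd, (kb_hol (act := ac) χ3 N.Z φ3).toEqh.map_lcq k,
    (PBA.comm2 (lcq_deg (kb_fst.comp k)) _).eq, e]

variable {k : QM acN N.NU 4} (G : TA.Geo q.ps h.ps hP.ps hQ.ps hN.ps k.ps (ρ N) f.q (p₁ N) p.q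
  (holJ j).q (qinc acN subU) fa.q fb.q (lcq acP N.P Prod.snd) (L N 2) (L N 3) (L N 0) (L N 1))
  (h0 : Cub.hyp F * x = 0)
include G h0

theorem pr {x' : H (Cub.XF F)} (hx' : H.IsDeg 4 x') :
    h.ps.J (PS.push (X := hP.ps) (Y := h.ps) (ρ N) (H.map f.q x) *
      PS.push (X := hP.ps) (Y := h.ps) (ρ N) (H.map f.q x')) = -2 * q.ps.J (x * x') :=
  G.pr (cut_a hN q fa hC r hx) (cut_y hN q fa hC r hx h0) (cut_b hN q fb hC r hx')

theorem oa : h.ps.J (PS.push (X := hP.ps) (Y := h.ps) (ρ N) (H.map f.q x) *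
    lcq ac N.Z Prod.fst) = 0 := by
  have := h.fp
  have := hP.fp
  have := hQ.fp
  have := hN.fp
  refine G.oa ?_ (cut_n hN q fa hC r hx) (cut_y hN q fa hC r hx h0) (cut_b hN q fb hC r hx)
  exact ((holJ j).toEqh.map_lcq (hm_t 1)).trans (((congrArg (H.map (p₁ N))
    ((kb_hol (act := ac) χ3 N.Z φ3).toEqh.map_lcq kb_fst)).trans
      ((kb_hol (act := acP) _ N.P _).toEqh.map_lcq (kb_fst.comp kb_fst))).symm)

theorem ob : h.ps.J (PS.push (X := hP.ps) (Y := h.ps) (ρ N) (H.map f.q x) *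
    lcq ac N.Z Prod.snd) = 0 :=
  TA.ob (S := h.ps) (P := hP.ps) (cut_p h hP q f hC r hx h0)
    (oa hN h hP hQ q fa fb f p j hC r hx G h0)

end TC

end Vale.Agent.P287Q.D
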