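import Vale.Agent.P287Q.D.TTop
import Vale.Agent.P287Q.D.N1
import Vale.Agent.P287Q.Hb.KB

/-!
# The topological half of the emptiness of the divisors of discriminant two and six
-/

namespace Vale.Agent.P287Q.D

theorem stKB : StKB := fun _ _ _ _ _ _ _ _ _ _ _ _ _ _ _ k _ _ h h' e =>
  ⟨k.lhb h h' (r := 1) rfl e, k.push_sq h h' e⟩

/-- **The topological half.** -/
theorem stTop : StTop := stTop_of stN1 stKB

end Vale.Agent.P287Q.D
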