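import Vale.Agent.P267.H221.RRMain

/-! # P287 / D26: the Euler characteristic is additive for block triangular cocycles -/

set_option linter.unusedVariables false
set_option linter.unusedSectionVars false

open scoped Manifold ContDiff ComplexConjugate Matrix Topology
open Set Filter MeasureTheory

noncomputable section

namespace Vale.Agent.P287Q.D.Tri

open Vale.Agent.P267 Vale.Agent.P267.RR Vale.Agent.P267.FL Vale.Agent.P267.H509

section alg

variable {n m : Type} [Fintype n] [DecidableEq n] [Fintype m] [DecidableEq m]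

/-- `A⁻¹ ∂A`, for any index type -/
def cg (A : C2 → Matrix n n ℂ) (z : C2) (i : Fin 2) : Matrix n n ℂ :=
  (A z)⁻¹ * Matrix.of fun p q => dz i (fun w => A w p q) z

/-- the density, for any index type -/
def pr (α α' : MCov 2) (ε ε' : Fin 2 → Matrix n n ℂ) : ℂ :=
  (Fintype.card n : ℂ) * (1 / 8 * w2 (tc α) (tc α') - 1 / 24 * tw α α') +
    1 / 4 * (w2 (tc α) (fun i => (ε' i).trace) + w2 (fun i => (ε i).trace) (tc α')) +
      1 / 2 * (ε 0 * ε' 1 - ε 1 * ε' 0).trace

theorem cg_fin {r : ℕ} (A : C2 → Matrix (Fin r) (Fin r) ℂ) (z : C2) : cg A z = cov A z := rfl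

theorem pr_fin {r : ℕ} (α α' : MCov 2) (ε ε' : MCov r) : pr α α' ε ε' = Rd r α α' ε ε' := by
  rw [pr, Fintype.card_fin]
  rfl

theorem trace_sub' (M : Matrix n n ℂ) (σ : m ≃ n) : (M.submatrix σ σ).trace = M.trace :=
  Equiv.sum_comp σ fun i => M i i

theorem trace_blk (a : Matrix n n ℂ) (b : Matrix n m ℂ) (c : Matrix m n ℂ) (d : Matrix m m ℂ) :
    (Matrix.fromBlocks a b c d).trace = a.trace + d.trace := by
  simp only [Matrix.trace, Matrix.diag, Fintype.sum_sum_type, Matrix.fromBlocks_apply₁₁,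
    Matrix.fromBlocks_apply₂₂]

theorem pr_sub (σ : m ≃ n) (α α' : MCov 2) (ε ε' : Fin 2 → Matrix n n ℂ) :
    pr α α' (fun i => (ε i).submatrix σ σ) (fun i => (ε' i).submatrix σ σ) = pr α α' ε ε' := by
  simp only [pr, Matrix.trace_sub, Matrix.submatrix_mul_equiv, trace_sub', Fintype.card_congr σ]

theorem cg_congr {A A' : C2 → Matrix n n ℂ} {z : C2} (h : A =ᶠ[𝓝 z] A') : cg A z = cg A' z := by
  funext i
  have h1 : (Matrix.of fun p q => dz i (fun w => A w p q) z) =
      Matrix.of fun p q => dz i (fun w => A' w p q) z := by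
    ext p q
    simp only [Matrix.of_apply]
    exact dz_congr (h.mono fun w hw => by rw [hw]) i
  rw [cg, cg, h1, h.self_of_nhds]

theorem cg_sub (σ : m ≃ n) (A : C2 → Matrix n n ℂ) (z : C2) :
    cg (fun w => (A w).submatrix σ σ) z = fun i => (cg A z i).submatrix σ σ := by
  funext i
  rw [cg, cg, Matrix.inv_submatrix_equiv, ← Matrix.submatrix_mul_equiv _ _ _ σ]
  rfl

theorem pr_tri (α α' : MCov 2) (a a' : Fin 2 → Matrix n n ℂ) (c c' : Fin 2 → Matrix m n ℂ)
    (d d' : Fin 2 → Matrix m m ℂ) :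
    pr α α' (fun i => Matrix.fromBlocks (a i) 0 (c i) (d i))
      (fun i => Matrix.fromBlocks (a' i) 0 (c' i) (d' i)) = pr α α' a a' + pr α α' d d' := by
  simp only [pr, Matrix.trace_sub, Matrix.fromBlocks_multiply, trace_blk, Matrix.zero_mul,
    Matrix.mul_zero, add_zero, zero_add, Fintype.card_sum, w2]
  push_cast
  ring

theorem dz_zero (i : Fin 2) {f : C2 → ℂ} {z : C2} {c : ℂ} (h : ∀ᶠ w in 𝓝 z, f w = c) :
    dz i f z = 0 := by
  rw [dz_congr (g := fun _ => c) h i, (wd_dz i).const]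

theorem cg_tri {A : C2 → Matrix (n ⊕ m) (n ⊕ m) ℂ} {P : C2 → Matrix n n ℂ}
    {S : C2 → Matrix m m ℂ} {z : C2} (h : ∀ᶠ w in 𝓝 z, ∃ C, A w = Matrix.fromBlocks (P w) 0 C (S w))
    (hP : (P z).det ≠ 0) (hS : (S z).det ≠ 0) :
    ∃ c : Fin 2 → Matrix m n ℂ, cg A z = fun i => Matrix.fromBlocks (cg P z i) 0 (c i) (cg S z i) := by
  obtain ⟨C, hC⟩ := h.self_of_nhds
  have hi : (A z)⁻¹ = Matrix.fromBlocks (P z)⁻¹ 0 (-((S z)⁻¹ * C * (P z)⁻¹)) (S z)⁻¹ := by
    refine Matrix.inv_eq_left_inv ?_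
    rw [hC, Matrix.fromBlocks_multiply, ← Matrix.fromBlocks_one]
    simp only [Matrix.zero_mul, Matrix.mul_zero, add_zero, zero_add, Matrix.neg_mul,
      Matrix.mul_assoc, Matrix.nonsing_inv_mul _ hP.isUnit, Matrix.nonsing_inv_mul _ hS.isUnit,
      Matrix.mul_one, neg_add_cancel]
  have hd : ∀ i, (Matrix.of fun p q => dz i (fun w => A w p q) z) =
      Matrix.fromBlocks (Matrix.of fun p q => dz i (fun w => P w p q) z) 0
        (Matrix.of fun p q => dz i (fun w => A w (.inr p) (.inl q)) z)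
        (Matrix.of fun p q => dz i (fun w => S w p q) z) := by
    intro i
    ext (p | p) (q | q)
    · exact dz_congr (h.mono fun w ⟨C, hw⟩ => by rw [hw]; rfl) i
    · exact dz_zero i (c := 0) (h.mono fun w ⟨C, hw⟩ => by rw [hw]; rfl)
    · rfl
    · exact dz_congr (h.mono fun w ⟨C, hw⟩ => by rw [hw]; rfl) i
  refine ⟨fun i => -((S z)⁻¹ * C * (P z)⁻¹) * (Matrix.of fun p q => dz i (fun w => P w p q) z) +
    (S z)⁻¹ * (Matrix.of fun p q => dz i (fun w => A w (.inr p) (.inl q)) z), funext fun i => ?_⟩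
  rw [cg, hi, hd, Matrix.fromBlocks_multiply]
  simp only [Matrix.zero_mul, Matrix.mul_zero, add_zero, zero_add]
  rfl

theorem cg_const {A : C2 → Matrix n n ℂ} {z : C2} {M : Matrix n n ℂ} (h : ∀ᶠ w in 𝓝 z, A w = M) :
    cg A z = 0 := by
  funext i
  have : (Matrix.of fun p q => dz i (fun w => A w p q) z) = 0 := by
    ext p q
    exact dz_zero i (c := M p q) (h.mono fun w hw => by rw [hw])
  rw [cg, this, Matrix.mul_zero]
  rfl

theorem pr_zero (α α' : MCov 2) :
    pr α α' (0 : Fin 2 → Matrix n n ℂ) 0 = (Fintype.card n : ℂ) * Rd 1 α α' 0 0 := by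
  simp [pr, Rd, tw, w2, tc]

theorem cg_diag {A : C2 → Matrix n n ℂ} {F : n → C2 → Matrix (Fin 1) (Fin 1) ℂ} {z : C2}
    (h : ∀ᶠ w in 𝓝 z, A w = Matrix.diagonal fun j => F j w 0 0) (h0 : ∀ j, F j z 0 0 ≠ 0) :
    cg A z = fun i => Matrix.diagonal fun j => cov (F j) z i 0 0 := by
  funext i
  have hi : (A z)⁻¹ = Matrix.diagonal fun j => (F j z 0 0)⁻¹ := by
    refine Matrix.inv_eq_left_inv ?_
    rw [h.self_of_nhds, Matrix.diagonal_mul_diagonal, ← Matrix.diagonal_one]
    exact congrArg Matrix.diagonal (funext fun j => inv_mul_cancel₀ (h0 j))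
  have hd : (Matrix.of fun p q => dz i (fun w => A w p q) z) =
      Matrix.diagonal fun j => dz i (fun w => F j w 0 0) z := by
    ext p q
    by_cases hpq : p = q
    · subst hpq
      rw [Matrix.diagonal_apply_eq]
      exact dz_congr (h.mono fun w hw => by rw [hw, Matrix.diagonal_apply_eq]) i
    · rw [Matrix.diagonal_apply_ne _ hpq]
      exact dz_zero i (c := 0) (h.mono fun w hw => by rw [hw, Matrix.diagonal_apply_ne _ hpq])
  rw [cg, hi, hd, Matrix.diagonal_mul_diagonal]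
  refine congrArg Matrix.diagonal (funext fun j => ?_)
  have h1 := tc_cov_one (A := F j) (z := z) i
  rw [tc, Matrix.trace_fin_one] at h1
  rw [h1, div_eq_inv_mul]

theorem pr_diag (α α' : MCov 2) (e e' : n → MCov 1) :
    pr α α' (fun i => Matrix.diagonal fun j => e j i 0 0)
      (fun i => Matrix.diagonal fun j => e' j i 0 0) = ∑ j, Rd 1 α α' (e j) (e' j) := by
  simp only [pr, Rd, Matrix.trace_sub, Matrix.diagonal_mul_diagonal, Matrix.trace_diagonal, tw_one,
    w2, tc, Matrix.trace_fin_one, Finset.sum_add_distrib, Finset.sum_sub_distrib,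
    ← Finset.mul_sum, ← Finset.sum_mul, Finset.sum_const, Finset.card_univ, nsmul_eq_mul]
  push_cast
  ring

end alg

variable {X : Type} [TopologicalSpace X] [ChartedSpace C2 X] [IsManifold 𝓘(ℂ, C2) ω X]
  [T2Space X] [CompactSpace X] {A : FinAt X}

/-- kernels -/
abbrev Kr (A : FinAt X) : Type := Fin A.N → Fin A.N → Fin A.N → C2 → ℂ

/-- the integrand of a kernel -/
def ig (T : Kr A) (a : Fin A.N) (z : C2) : ℂ :=
  (4 * (A.rho a ((A.e a).symm z) : ℂ)) * ∑ b, ∑ c,
    w2 (dbl (fun b x => (A.rho b x : ℂ)) (A.e a) z b) (dbl (fun b x => (A.rho b x : ℂ)) (A.e a) z c) *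
      T a b c z

/-- the kernel `T` has the integral `s` -/
def Rp (T : Kr A) (s : ℂ) : Prop :=
  (∀ a, IntegrableOn (ig T a) (A.e a).target) ∧
    1 / (4 * (Real.pi : ℂ) ^ 2) * ∑ a, ∫ z in (A.e a).target, ig T a z = s

/-- the kernel of a bundle -/
def Td {r : ℕ} (B : Bun A r) : Kr A := fun a b c z =>
  Rd r (cov (A.J a b) z) (cov (A.J a c) z) (cov (B.E a b) z) (cov (B.E a c) z)

theorem rp_bun {r : ℕ} (B : Bun A r) : Rp (Td B) B.chi := by
  refine ⟨fun a => integrand_integrable (pu A) A.he A.U_sub (regC_bun B) a, ?_⟩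
  rw [H983.chi_todd (RR.analytic X) B, chiI_eq B fun _ _ _ => rfl]
  rfl

theorem ig_add (T T' : Kr A) (a : Fin A.N) : ig (T + T') a = ig T a + ig T' a := by
  funext z
  simp only [ig, Pi.add_apply, mul_add, Finset.sum_add_distrib]

theorem Rp.add {T T' : Kr A} {s s' : ℂ} (h : Rp T s) (h' : Rp T' s') : Rp (T + T') (s + s') := by
  refine ⟨fun a => ?_, ?_⟩
  · rw [ig_add]
    exact (h.1 a).add (h'.1 a)
  · rw [← h.2, ← h'.2, ← mul_add, ← Finset.sum_add_distrib]
    refine congrArg _ (Finset.sum_congr rfl fun a _ => ?_)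
    rw [ig_add]
    exact integral_add (h.1 a) (h'.1 a)

theorem rp_zero : Rp (0 : Kr A) 0 := by
  have h : ∀ a, ig (0 : Kr A) a = fun _ => 0 := fun a => by
    funext z
    simp [ig]
  refine ⟨fun a => ?_, ?_⟩
  · rw [h]
    exact integrableOn_zero
  · simp [h]

theorem Rp.sum {ι : Type} {T : ι → Kr A} {s : ι → ℂ} (S : Finset ι) (h : ∀ i, Rp (T i) (s i)) :
    Rp (∑ i ∈ S, T i) (∑ i ∈ S, s i) := by
  classical
  induction S using Finset.induction_on with
  | empty => simpa using rp_zero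
  | insert i S hi ih =>
    rw [Finset.sum_insert hi, Finset.sum_insert hi]
    exact (h i).add ih

theorem ig_congr {T T' : Kr A}
    (h : ∀ a b c, ∀ z ∈ A.ov a b, z ∈ A.ov a c → T a b c z = T' a b c z) (a : Fin A.N) {z : C2}
    (hz : z ∈ (A.e a).target) : ig T a z = ig T' a z := by
  by_cases hU : (A.e a).symm z ∈ A.U a
  · have hx := (A.e a).map_target hz
    have e0 := (A.e a).right_inv hz
    rw [ig, ig]
    refine congrArg (fun t : ℂ => (4 * (A.rho a ((A.e a).symm z) : ℂ)) * t) ?_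
    refine Finset.sum_congr rfl fun b _ => Finset.sum_congr rfl fun c _ => ?_
    by_cases hb : (A.e a).symm z ∈ A.U b
    · by_cases hc : (A.e a).symm z ∈ A.U c
      · rw [h a b c z ⟨⟨hz, hU⟩, hb⟩ ⟨⟨hz, hU⟩, hc⟩]
      · have h2 := dbl_zero (pu A) hx hc
        rw [e0] at h2
        rw [h2]
        simp [w2]
    · have h2 := dbl_zero (pu A) hx hb
      rw [e0] at h2
      rw [h2]
      simp [w2]
  · have h0 : (A.rho a ((A.e a).symm z) : ℂ) = 0 := cut_val ((pu A).supp a) hU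
    rw [ig, ig, h0]
    ring

theorem Rp.uniq {T T' : Kr A} {s s' : ℂ} (h : Rp T s) (h' : Rp T' s')
    (e : ∀ a b c, ∀ z ∈ A.ov a b, z ∈ A.ov a c → T a b c z = T' a b c z) : s = s' := by
  rw [← h.2, ← h'.2]
  refine congrArg _ (Finset.sum_congr rfl fun a _ => ?_)
  exact setIntegral_congr_fun (A.e a).open_target.measurableSet fun z hz => ig_congr e a hz

theorem E_det {r : ℕ} (B : Bun A r) {a b : Fin A.N} {z : C2} (hz : z ∈ A.ov a b) :
    (B.E a b z).det ≠ 0 := by
  have h := B.comp a b a z hz (FinAt.mem_ov_self hz.1)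
  rw [B.self a z hz.1] at h
  intro h0
  have h1 := congrArg Matrix.det h
  rw [Matrix.det_mul, h0, mul_zero, Matrix.det_one] at h1
  exact zero_ne_one h1

theorem E_ne (B : Bun A 1) {a b : Fin A.N} {z : C2} (hz : z ∈ A.ov a b) : B.E a b z 0 0 ≠ 0 := by
  have h := E_det B hz
  rwa [Matrix.det_fin_one] at h

variable {n : Type} [Fintype n] [DecidableEq n] {r : ℕ}

theorem ev_ov {a b : Fin A.N} {z : C2} (hz : z ∈ A.ov a b) : ∀ᶠ w in 𝓝 z, w ∈ A.ov a b :=
  (A.isOpen_ov a b).mem_nhds hz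

/-- **direct sums of line bundles** -/
theorem chi_diag (B : Bun A r) (F : n → Bun A 1) (σ : Fin r ≃ n)
    (h : ∀ a b, ∀ z ∈ A.ov a b,
      B.E a b z = (Matrix.diagonal fun j => (F j).E a b z 0 0).submatrix σ σ) :
    B.chi = ∑ j, (F j).chi := by
  have key : ∀ a b, ∀ z ∈ A.ov a b, cov (B.E a b) z = fun i =>
      (Matrix.diagonal fun j => cov ((F j).E a b) z i 0 0).submatrix σ σ := by
    intro a b z hz
    rw [← cg_fin, cg_congr ((ev_ov hz).mono fun w hw => h a b w hw), cg_sub,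
      cg_diag (F := fun j => (F j).E a b) (Eventually.of_forall fun w => rfl)
        fun j => E_ne (F j) hz]
  have h1 := (rp_bun B).uniq (Rp.sum Finset.univ fun j => rp_bun (F j)) fun a b c z hz hz' => by
    simp only [Finset.sum_apply, Td]
    rw [← pr_fin, key a b z hz, key a c z hz', pr_sub, pr_diag]
  exact_mod_cast h1

/-- the direct sum of line bundles -/
def diagB (F : n → Bun A 1) (σ : Fin r ≃ n) : Bun A r where
  E a b z := (Matrix.diagonal fun j => (F j).E a b z 0 0).submatrix σ σ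
  hol a b z hz i j := by
    by_cases hij : σ i = σ j
    · simp only [Matrix.submatrix_apply, hij, Matrix.diagonal_apply_eq]
      exact (F _).hol a b z hz 0 0
    · simp only [Matrix.submatrix_apply, Matrix.diagonal_apply_ne _ hij]
      exact analyticAt_const
  self a z hz := by
    simp only [fun j => (F j).self a z hz, Matrix.one_apply_eq, Matrix.diagonal_one,
      Matrix.submatrix_one_equiv]
  comp a b c z hz hz' := by
    rw [Matrix.submatrix_mul_equiv, Matrix.diagonal_mul_diagonal]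
    refine congrArg (fun f => (Matrix.diagonal f).submatrix σ σ) (funext fun j => ?_)
    rw [← (F j).comp a b c z hz hz', Matrix.mul_apply, Fin.sum_univ_one]

theorem diagB_E (F : n → Bun A 1) (σ : Fin r ≃ n) (a b : Fin A.N) (z : C2) :
    (diagB F σ).E a b z = (Matrix.diagonal fun j => (F j).E a b z 0 0).submatrix σ σ := rfl

theorem chi_diagB (F : n → Bun A 1) (σ : Fin r ≃ n) : (diagB F σ).chi = ∑ j, (F j).chi :=
  chi_diag _ F σ fun _ _ _ _ => rfl

/-- **filtration with the quotients `𝒪²`, `BΩ`, `⊕ F i`** -/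
theorem chi_eul (B : Bun A r) (σ : Fin r ≃ (Fin 2 ⊕ Fin 2) ⊕ n) (BO : Bun A 1)
    (hO : ∀ a b, ∀ z ∈ A.ov a b, BO.E a b z = 1) (BΩ : Bun A 2) (F : n → Bun A 1)
    (h : ∀ a b, ∀ z ∈ A.ov a b, ∃ U V, B.E a b z = (Matrix.fromBlocks
      (Matrix.fromBlocks 1 0 U (BΩ.E a b z)) 0 V
        (Matrix.diagonal fun j => (F j).E a b z 0 0)).submatrix σ σ) :
    B.chi = 2 * BO.chi + BΩ.chi + ∑ j, (F j).chi := by
  have key : ∀ a b, ∀ z ∈ A.ov a b, ∃ (c : Fin 2 → Matrix (Fin 2) (Fin 2) ℂ)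
      (c' : Fin 2 → Matrix n (Fin 2 ⊕ Fin 2) ℂ), cov (B.E a b) z = fun i =>
      (Matrix.fromBlocks (Matrix.fromBlocks ((0 : Fin 2 → Matrix (Fin 2) (Fin 2) ℂ) i) 0 (c i)
        (cov (BΩ.E a b) z i)) 0 (c' i)
        (Matrix.diagonal fun j => cov ((F j).E a b) z i 0 0)).submatrix σ σ := by
    intro a b z hz
    let M : C2 → Matrix ((Fin 2 ⊕ Fin 2) ⊕ n) ((Fin 2 ⊕ Fin 2) ⊕ n) ℂ := fun w =>
      (B.E a b w).submatrix σ.symm σ.symm
    have hM : ∀ w ∈ A.ov a b, ∃ U V, M w = Matrix.fromBlocks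
        (Matrix.fromBlocks 1 0 U (BΩ.E a b w)) 0 V
        (Matrix.diagonal fun j => (F j).E a b w 0 0) := by
      intro w hw
      obtain ⟨U, V, e⟩ := h a b w hw
      refine ⟨U, V, ?_⟩
      simp only [M, e, Matrix.submatrix_submatrix, Equiv.self_comp_symm, Matrix.submatrix_id_id]
    have h0 : B.E a b = fun w => (M w).submatrix σ σ := by
      funext w
      simp only [M, Matrix.submatrix_submatrix, Equiv.symm_comp_self, Matrix.submatrix_id_id]
    have hP : ∀ᶠ w in 𝓝 z, ∃ U, (M w).toBlocks₁₁ =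
        Matrix.fromBlocks ((fun _ => 1) w) 0 U (BΩ.E a b w) := by
      filter_upwards [ev_ov hz] with w hw
      obtain ⟨U, V, e⟩ := hM w hw
      exact ⟨U, by rw [e, Matrix.toBlocks_fromBlocks₁₁]⟩
    have hQ : ∀ᶠ w in 𝓝 z, ∃ V, M w = Matrix.fromBlocks (M w).toBlocks₁₁ 0 V
        (Matrix.diagonal fun j => (F j).E a b w 0 0) := by
      filter_upwards [ev_ov hz] with w hw
      obtain ⟨U, V, e⟩ := hM w hw
      exact ⟨V, by rw [e, Matrix.toBlocks_fromBlocks₁₁]⟩
    obtain ⟨c, hc⟩ := cg_tri (A := fun w => (M w).toBlocks₁₁) hP (by simp) (E_det BΩ hz)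
    obtain ⟨c', hc'⟩ := cg_tri (P := fun w => (M w).toBlocks₁₁)
      (S := fun w => Matrix.diagonal fun j => (F j).E a b w 0 0) hQ (by
        obtain ⟨U, e⟩ := hP.self_of_nhds
        simp only [e, Matrix.det_fromBlocks_zero₁₂, Matrix.det_one, one_mul]
        exact E_det BΩ hz) (by
        simp only [Matrix.det_diagonal]
        exact Finset.prod_ne_zero_iff.2 fun j _ => E_ne (F j) hz)
    refine ⟨c, c', ?_⟩
    rw [← cg_fin, h0, cg_sub, hc', hc, cg_const (M := 1) (Eventually.of_forall fun w => rfl),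
      cg_diag (F := fun j => (F j).E a b) (Eventually.of_forall fun w => rfl)
        fun j => E_ne (F j) hz]
    rfl
  have kO : ∀ a b, ∀ z ∈ A.ov a b, cov (BO.E a b) z = 0 := fun a b z hz => by
    rw [← cg_fin, cg_const ((ev_ov hz).mono fun w hw => hO a b w hw)]
  have h1 := (rp_bun B).uniq ((((rp_bun BO).add (rp_bun BO)).add (rp_bun BΩ)).add
    (Rp.sum Finset.univ fun j => rp_bun (F j))) fun a b c z hz hz' => by
    simp only [Finset.sum_apply, Pi.add_apply, Td]
    obtain ⟨c1, c2, e⟩ := key a b z hz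
    obtain ⟨c3, c4, e'⟩ := key a c z hz'
    rw [← pr_fin, e, e', pr_sub, pr_tri, pr_tri, pr_diag, pr_zero, pr_fin, kO a b z hz,
      kO a c z hz', Fintype.card_fin]
    push_cast
    ring
  have h2 : (B.chi : ℂ) = ((2 * BO.chi + BΩ.chi + ∑ j, (F j).chi : ℤ) : ℂ) := by
    rw [h1]
    push_cast
    ring
  exact_mod_cast h2

end Vale.Agent.P287Q.D.Tri
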