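import Vale.Agent.P287Q.D.Sp
import Vale.Agent.P269.Coh.Geo
import Vale.Agent.P291Z.Fl0

/-!
# Discriminants 2 and 6: vanishing of products
-/

set_option linter.unusedSectionVars false
set_option linter.style.haveILetI false

namespace Vale.Agent.P287Q.D

open Set Function Topology Filter P291Z P267.FL P269 P269.Holo P269.Mono P269.Coh P269.Tq Hb

/-- a class that vanishes on a closed set has a representative that vanishes near it -/
theorem Van_rep {Y : Type} [TopologicalSpace Y] [Nice Y] [CompactSpace Y] {Z : Set Y}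
    (hZ : IsClosed Z) {y : H Y} (h : Kills y Z) :
    ∃ b, supp (δ b) = ∅ ∧ supp b ⊆ Zᶜ ∧ hcls b = y := by
  haveI := isCompact_iff_compactSpace.1 hZ.isCompact
  have hi := hZ.isClosedEmbedding_subtypeVal
  have hj := hZ.isOpen_compl.isOpenEmbedding_subtypeVal
  obtain ⟨c, rfl⟩ := Fl.toH_bijective.2 y
  rw [Kills, ← Fl.toH_pull (IsPr.of_isClosedEmbedding hi),
    map_eq_zero_iff _ Fl.toH_bijective.1] at h
  obtain ⟨c, rfl⟩ := (Hc.exact_push_pull hi hj (by simp only [Subtype.range_coe]) c).1 h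
  obtain ⟨b, h1, h2, rfl⟩ := cls_surj_open' hj c
  exact ⟨b, h1.2, h2.trans Subtype.range_coe.le, by rw [Hc.push_cls hj h1 h2, Fl.toH_cls h1]⟩

/-- **classes with support in a closed set** -/
theorem stVanT : StVanT := by
  intro X _ _ _ Z x t hZ h ht hs
  obtain ⟨b, h1, h2, rfl⟩ := Van_rep hZ h
  rw [← hcls_mul h1 ht]
  refine (hcls_eq_of_null cocycle_zero fun x hx => ?_).trans hcls_zero
  rw [sub_zero] at hx
  exact h2 (supp_mul _ _ hx).1 (hs (supp_mul _ _ hx).2)

/-- restriction to a smaller set -/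
theorem Kills.mono {X : Type} [TopologicalSpace X] {x : H X} {Z Z' : Set X} (h : Kills x Z)
    (e : Z' ⊆ Z) : Kills x Z' := by
  have := congrArg (H.map (⟨inclusion e, continuous_inclusion e⟩ : C(Z', Z))) h
  rwa [map_zero, H.map_map] at this

/-- **Chern classes** -/
theorem stVanL : StVanL := by
  intro A W _ _ _ _ _ _ act S _ _ _ c s hc hs he x hx
  have h : Tq.Sec act S (fun _ : Unit => c) fun w _ => s w :=
    ⟨fun _ => hc, continuousOn_pi.2 fun _ => hs, fun a ha z hz _ => he a ha z hz⟩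
  have e := h.hcls_eul
  rw [Fintype.prod_unique, lce_val] at e
  rw [← e]
  refine stVanT _ _ x _ (isClosed_supp _) (hx.mono (h.isSec.isCo.supp.trans ?_))
    h.isSec.isCo.cocycle Subset.rfl
  rintro _ ⟨p, a, rfl⟩
  exact ⟨⟨Sp.val (act := act) p, Sp.val_mem (act := act) p⟩, congrFun a (), rfl⟩

/-- **classes of submanifolds** -/
theorem stVanP : StVanP := by
  intro D Y hD hY i hi T _ _ _ g x hx
  have := hY.cpt
  have := hY.nice
  obtain ⟨t, ht, hs, -, e⟩ := hD.exists_thom hY hi
  have h1 := e 1 ⟨(isClosed_supp _).isCompact, fun z => supp_eq_empty.1 cocycle_one _⟩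
  rw [map_one, hcls_one, one_mul] at h1
  rw [h1, H.map_hcls g ht]
  exact stVanT _ _ x _ (isClosed_supp _) (hx.mono ((supp_pull g.continuous t).trans
    (preimage_mono hs))) (cocycle_pull g.continuous ht) Subset.rfl

end Vale.Agent.P287Q.D
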